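import Crest.Agent.KP.Stmts

/-!
# KP: algebra of triangular presentations (`alg : AlgStmt`)
-/

set_option autoImplicit false

namespace Crest.Agent.KP

namespace Alg

open FreeGroup (invRev)

variable {X R : Type} (P : TriPres X R)

theorem ev_nil : P.ev [] = 1 := rfl

theorem ev_cons (y : X × Bool) (l : List (X × Bool)) : P.ev (y :: l) = P.lt y * P.ev l := by
  simp [TriPres.ev]

theorem ev_append (l l' : List (X × Bool)) : P.ev (l ++ l') = P.ev l * P.ev l' := by
  simp [TriPres.ev]

theorem lt_true (x : X) : P.lt (x, true) = P.gen x := rfl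

theorem lt_false (x : X) : P.lt (x, false) = (P.gen x)⁻¹ := rfl

theorem lt_not (x : X) (e : Bool) : P.lt (x, !e) = (P.lt (x, e))⁻¹ := by
  cases e
  · simp [lt_true, lt_false]
  · simp [lt_true, lt_false]

theorem gen_rel (r : R) : P.gen (P.a r) * P.gen (P.b r) = P.gen (P.c r) := by
  have h : PresentedGroup.mk (Set.range P.rel) (P.rel r) = 1 :=
    PresentedGroup.one_of_mem ⟨r, rfl⟩
  simp only [TriPres.rel, map_mul, map_inv] at h
  exact mul_inv_eq_one.mp h

theorem mk_cons_true (x : X) (l : List (X × Bool)) :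
    FreeGroup.mk ((x, true) :: l) = FreeGroup.of x * FreeGroup.mk l := rfl

theorem mk_cons_false (x : X) (l : List (X × Bool)) :
    FreeGroup.mk ((x, false) :: l) = (FreeGroup.of x)⁻¹ * FreeGroup.mk l := rfl

theorem ev_eq_mk (l : List (X × Bool)) :
    P.ev l = PresentedGroup.mk (Set.range P.rel) (FreeGroup.mk l) := by
  induction l with
  | nil => rw [ev_nil, ← FreeGroup.one_eq_mk, map_one]
  | cons y l ih =>
    obtain ⟨x, e⟩ := y
    cases e
    · rw [ev_cons, mk_cons_false, map_mul, map_inv, ih]; rfl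
    · rw [ev_cons, mk_cons_true, map_mul, ih]; rfl

theorem ev_invRev (l : List (X × Bool)) : P.ev (invRev l) = (P.ev l)⁻¹ := by
  rw [ev_eq_mk, ev_eq_mk, ← FreeGroup.inv_mk, map_inv]

theorem ev_pair (x : X) (e : Bool) (l : List (X × Bool)) :
    P.ev ((x, e) :: (x, !e) :: l) = P.ev l := by
  rw [ev_cons, ev_cons, lt_not, mul_inv_cancel_left]

theorem ev_pos (r : R) (l : List (X × Bool)) :
    P.ev ((P.a r, true) :: (P.b r, true) :: (P.c r, false) :: l) = P.ev l := by
  rw [ev_cons, ev_cons, ev_cons, lt_true, lt_true, lt_false, ← gen_rel]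
  group

theorem ev_neg (r : R) (l : List (X × Bool)) :
    P.ev ((P.c r, true) :: (P.b r, false) :: (P.a r, false) :: l) = P.ev l := by
  rw [ev_cons, ev_cons, ev_cons, lt_true, lt_false, lt_false, ← gen_rel]
  group

variable {P} in
theorem der_ev {l : List (X × Bool)} {m : P.G × R →₀ ℤ} (h : P.Der l m) : P.ev l = 1 := by
  induction h with
  | nil => rfl
  | ins l₁ l₂ x e m _ ih => rw [ev_append, ev_pair, ← ev_append, ih]
  | del l₁ l₂ x e m _ ih => rw [ev_append, ev_pair, ← ev_append] at ih; exact ih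
  | pos l₁ l₂ r m _ ih => rw [ev_append, ev_pos, ← ev_append, ih]
  | neg l₁ l₂ r m _ ih => rw [ev_append, ev_neg, ← ev_append, ih]

/-- Translation of 2-chains. -/
noncomputable def tr (g : P.G) : (P.G × R →₀ ℤ) →+ (P.G × R →₀ ℤ) :=
  Finsupp.mapDomain.addMonoidHom fun gr => (g * gr.1, gr.2)

theorem tr_single (g h : P.G) (r : R) (k : ℤ) :
    tr P g (Finsupp.single (h, r) k) = Finsupp.single (g * h, r) k := by
  simp [tr, Finsupp.mapDomain.addMonoidHom, Finsupp.mapDomain_single]

theorem tr_one (m : P.G × R →₀ ℤ) : tr P 1 m = m := by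
  have : (fun gr : P.G × R => ((1 : P.G) * gr.1, gr.2)) = id := by
    funext gr; simp
  show Finsupp.mapDomain (fun gr : P.G × R => ((1 : P.G) * gr.1, gr.2)) m = m
  rw [this, Finsupp.mapDomain_id]

variable {P} in
theorem der_mid {l₁ l₂ l : List (X × Bool)} {m m' : P.G × R →₀ ℤ} (h : P.Der (l₁ ++ l₂) m)
    (h' : P.Der l m') : P.Der (l₁ ++ l ++ l₂) (m + tr P (P.ev l₁) m') := by
  induction h' with
  | nil => simpa using h
  | ins k₁ k₂ x e m' _ ih =>
    have := TriPres.Der.ins (l₁ ++ k₁) (k₂ ++ l₂) x e _ (by simpa using ih)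
    simpa using this
  | del k₁ k₂ x e m' _ ih =>
    have := TriPres.Der.del (l₁ ++ k₁) (k₂ ++ l₂) x e _ (by simpa using ih)
    simpa using this
  | pos k₁ k₂ r m' _ ih =>
    have := TriPres.Der.pos (l₁ ++ k₁) (k₂ ++ l₂) r _ (by simpa using ih)
    rw [map_add, tr_single, ← ev_append, ← add_assoc]
    simpa using this
  | neg k₁ k₂ r m' _ ih =>
    have := TriPres.Der.neg (l₁ ++ k₁) (k₂ ++ l₂) r _ (by simpa using ih)
    rw [map_sub, tr_single, ← ev_append, ← add_sub_assoc]
    simpa using this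

variable {P} in
theorem der_append {l l' : List (X × Bool)} {m m' : P.G × R →₀ ℤ} (h : P.Der l m)
    (h' : P.Der l' m') : P.Der (l ++ l') (m + m') := by
  have := der_mid (l₁ := l) (l₂ := []) (by simpa using h) h'
  rw [der_ev h, tr_one] at this
  simpa using this

variable {P} in
theorem der_invRev {l : List (X × Bool)} {m : P.G × R →₀ ℤ} (h : P.Der l m) :
    P.Der (invRev l) (-m) := by
  induction h with
  | nil => simpa using TriPres.Der.nil
  | ins l₁ l₂ x e m _ ih =>
    have := TriPres.Der.ins (invRev l₂) (invRev l₁) x e _ (by simpa using ih)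
    simpa [invRev] using this
  | del l₁ l₂ x e m _ ih =>
    have := TriPres.Der.del (invRev l₂) (invRev l₁) x e _ (by simpa [invRev] using ih)
    simpa using this
  | pos l₁ l₂ r m h ih =>
    have h1 : P.ev (invRev l₂) = P.ev l₁ := by
      have := der_ev h
      rw [ev_append] at this
      rw [ev_invRev]; exact (eq_inv_of_mul_eq_one_left this).symm
    have := TriPres.Der.neg (invRev l₂) (invRev l₁) r _ (by simpa using ih)
    rw [h1] at this
    rw [neg_add, ← sub_eq_add_neg]
    simpa [invRev] using this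
  | neg l₁ l₂ r m h ih =>
    have h1 : P.ev (invRev l₂) = P.ev l₁ := by
      have := der_ev h
      rw [ev_append] at this
      rw [ev_invRev]; exact (eq_inv_of_mul_eq_one_left this).symm
    have := TriPres.Der.pos (invRev l₂) (invRev l₁) r _ (by simpa using ih)
    rw [h1] at this
    rw [neg_sub, sub_eq_neg_add]
    simpa [invRev] using this

variable {P} in
theorem der_congr {l l' : List (X × Bool)} {m : P.G × R →₀ ℤ}
    (e : FreeGroup.mk l = FreeGroup.mk l') (h : P.Der l m) : P.Der l' m := by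
  have key : ∀ {a b : List (X × Bool)}, Relation.EqvGen FreeGroup.Red.Step a b →
      (P.Der a m ↔ P.Der b m) := by
    intro a b hab
    induction hab with
    | rel a b hab =>
      cases hab with
      | not => exact ⟨TriPres.Der.del _ _ _ _ _, TriPres.Der.ins _ _ _ _ _⟩
    | refl => exact Iff.rfl
    | symm a b _ ih => exact ih.symm
    | trans a b c _ _ ih1 ih2 => exact ih1.trans ih2
  exact (key (Quot.eqvGen_exact e)).1 h

theorem der_conj {l k : List (X × Bool)} {m : P.G × R →₀ ℤ} (h : P.Der l m) :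
    P.Der (k ++ l ++ invRev k) (tr P (P.ev k) m) := by
  have h0 : P.Der (k ++ invRev k) 0 := by
    refine der_congr ?_ TriPres.Der.nil
    rw [← FreeGroup.mul_mk, ← FreeGroup.inv_mk, mul_inv_cancel, FreeGroup.one_eq_mk]
  simpa using der_mid h0 h

theorem der_rel (r : R) :
    P.Der [(P.a r, true), (P.b r, true), (P.c r, false)] (Finsupp.single (1, r) 1) := by
  simpa [ev_nil] using TriPres.Der.pos (P := P) [] [] r 0 TriPres.Der.nil

/-- The words with a derivation. -/
def derSub : Subgroup (FreeGroup X) where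
  carrier := {w | ∃ l m, FreeGroup.mk l = w ∧ P.Der l m}
  one_mem' := ⟨[], 0, rfl, TriPres.Der.nil⟩
  mul_mem' := by
    rintro _ _ ⟨l, m, rfl, h⟩ ⟨l', m', rfl, h'⟩
    exact ⟨l ++ l', m + m', FreeGroup.mul_mk.symm, der_append h h'⟩
  inv_mem' := by
    rintro _ ⟨l, m, rfl, h⟩
    exact ⟨invRev l, -m, FreeGroup.inv_mk.symm, der_invRev h⟩

theorem derSub_normal : (derSub P).Normal := by
  constructor
  rintro _ ⟨l, m, rfl, h⟩ g
  induction g using Quot.ind with
  | _ k =>
    refine ⟨k ++ l ++ invRev k, _, ?_, der_conj P h⟩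
    rw [← FreeGroup.mul_mk, ← FreeGroup.mul_mk, ← FreeGroup.inv_mk]
    rfl

theorem exists_der (l : List (X × Bool)) (h : P.ev l = 1) : ∃ m, P.Der l m := by
  rw [ev_eq_mk, PresentedGroup.mk_eq_one_iff] at h
  haveI := derSub_normal P
  have hle : Subgroup.normalClosure (Set.range P.rel) ≤ derSub P := by
    apply Subgroup.normalClosure_le_normal
    rintro _ ⟨r, rfl⟩
    exact ⟨_, _, rfl, der_rel P r⟩
  obtain ⟨l', m, e, h'⟩ := hle h
  exact ⟨m, der_congr e h'⟩

theorem exists_word (g : P.G) : ∃ l, P.ev l = g := by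
  obtain ⟨w, rfl⟩ := PresentedGroup.mk_surjective _ g
  induction w using Quot.ind with
  | _ k => exact ⟨k, ev_eq_mk P k⟩

/-! ### Stokes -/

section Stokes

variable {A : Type} [AddCommGroup A]

theorem pathSum_append (β : P.G → X → A) (g : P.G) (l l' : List (X × Bool)) :
    P.pathSum β g (l ++ l') = P.pathSum β g l + P.pathSum β (g * P.ev l) l' := by
  induction l generalizing g with
  | nil => simp [TriPres.pathSum, ev_nil]
  | cons y l ih =>
    obtain ⟨x, e⟩ := y
    cases e
    · rw [List.cons_append, TriPres.pathSum, TriPres.pathSum, ih, ev_cons, lt_false, mul_assoc,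
        add_assoc]
    · rw [List.cons_append, TriPres.pathSum, TriPres.pathSum, ih, ev_cons, lt_true, mul_assoc,
        add_assoc]

theorem pathSum_pair (β : P.G → X → A) (g : P.G) (x : X) (e : Bool) (l : List (X × Bool)) :
    P.pathSum β g ((x, e) :: (x, !e) :: l) = P.pathSum β g l := by
  cases e
  · simp [TriPres.pathSum]
  · simp [TriPres.pathSum]

theorem pathSum_pos (β : P.G → X → A) (g : P.G) (r : R) (l : List (X × Bool)) :
    P.pathSum β g ((P.a r, true) :: (P.b r, true) :: (P.c r, false) :: l) =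
      P.cob β g r + P.pathSum β g l := by
  have h : g * P.gen (P.a r) * P.gen (P.b r) * (P.gen (P.c r))⁻¹ = g := by
    rw [← gen_rel]; group
  simp only [TriPres.pathSum, TriPres.cob, h]
  abel

theorem pathSum_neg (β : P.G → X → A) (g : P.G) (r : R) (l : List (X × Bool)) :
    P.pathSum β g ((P.c r, true) :: (P.b r, false) :: (P.a r, false) :: l) =
      -P.cob β g r + P.pathSum β g l := by
  have h : g * P.gen (P.c r) * (P.gen (P.b r))⁻¹ = g * P.gen (P.a r) := by
    rw [← gen_rel]; group
  simp only [TriPres.pathSum, TriPres.cob, h, mul_inv_cancel_right]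
  abel

/-- Pairing of a 2-cochain with a 2-chain. -/
noncomputable def pr (γ : P.G → R → A) : (P.G × R →₀ ℤ) →ₗ[ℤ] A :=
  Finsupp.linearCombination ℤ fun gr => γ gr.1 gr.2

theorem pr_single (γ : P.G → R → A) (g : P.G) (r : R) :
    pr P γ (Finsupp.single (g, r) 1) = γ g r := by
  simp [pr]

theorem pr_apply (γ : P.G → R → A) (m : P.G × R →₀ ℤ) :
    pr P γ m = m.sum fun gr k => k • γ gr.1 gr.2 := by
  rw [pr, Finsupp.linearCombination_apply]

theorem stokes (β : P.G → X → A) {l : List (X × Bool)} {m : P.G × R →₀ ℤ} (h : P.Der l m) :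
    P.pathSum β 1 l = pr P (P.cob β) m := by
  induction h with
  | nil => simp [TriPres.pathSum]
  | ins l₁ l₂ x e m _ ih => rw [pathSum_append, pathSum_pair, ← pathSum_append, ih]
  | del l₁ l₂ x e m _ ih => rw [pathSum_append, pathSum_pair, ← pathSum_append] at ih; exact ih
  | pos l₁ l₂ r m _ ih =>
    rw [pathSum_append] at ih
    rw [pathSum_append, pathSum_pos, map_add, pr_single, ← ih, one_mul]
    abel
  | neg l₁ l₂ r m _ ih =>
    rw [pathSum_append] at ih
    rw [pathSum_append, pathSum_neg, map_sub, pr_single, ← ih, one_mul]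
    abel

end Stokes

/-! ### Consequences of `Iso` -/

theorem eq_zero_of_nrm {m : P.G × R →₀ ℤ} (h : P.nrm m = 0) : m = 0 := by
  ext gr
  by_contra hne
  have hmem : gr ∈ m.support := by simpa using hne
  have := (Finset.sum_eq_zero_iff.1 h) gr hmem
  exact hne (by simpa using this)

variable {P} in
theorem der_unique {C : ℕ} (hC : P.Iso C) {l : List (X × Bool)} {m m' : P.G × R →₀ ℤ}
    (h : P.Der l m) (h' : P.Der l m') : m = m' := by
  have h1 := der_append h (der_invRev h')
  have h2 : P.Der [] (m + -m') := by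
    refine der_congr ?_ h1
    rw [← FreeGroup.mul_mk, ← FreeGroup.inv_mk, mul_inv_cancel, FreeGroup.one_eq_mk]
  have h3 := hC _ _ h2
  have h4 := eq_zero_of_nrm P (by simpa using h3)
  exact add_neg_eq_zero.1 h4

theorem h2zero {C : ℕ} (hC : P.Iso C) : P.H2zero := by
  intro A _ γ
  choose t ht using exists_word P
  have hw : ∀ (g : P.G) (x : X),
      P.ev (t g ++ (x, true) :: invRev (t (g * P.gen x))) = 1 := by
    intro g x
    rw [ev_append, ev_cons, ev_invRev, ht, ht, lt_true]
    group
  choose Ψ hΨ using fun g x => exists_der P _ (hw g x)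
  refine ⟨fun g x => pr P γ (Ψ g x), fun g r => ?_⟩
  have h1 := der_append (der_append (hΨ g (P.a r)) (hΨ (g * P.gen (P.a r)) (P.b r)))
    (der_invRev (hΨ g (P.c r)))
  have h2 := der_conj P (k := t g) (der_rel P r)
  rw [ht, tr_single, mul_one] at h2
  have e : g * P.gen (P.a r) * P.gen (P.b r) = g * P.gen (P.c r) := by
    rw [mul_assoc, gen_rel]
  have h3 := der_unique hC (der_congr ?_ h1) h2
  · simp only [TriPres.cob]
    rw [← pr_single P γ g r, ← h3, map_add, map_add, map_neg, sub_eq_add_neg]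
  · rw [e]
    simp only [← FreeGroup.mul_mk, ← FreeGroup.inv_mk, mk_cons_true, mk_cons_false,
      ← FreeGroup.one_eq_mk]
    group

theorem linIso {C : ℕ} (hC : P.Iso C) : P.LinIso C := by
  intro β hβ l hl
  obtain ⟨m, hm⟩ := exists_der P l hl
  rw [stokes P β hm, pr_apply]
  have h1 : (P.nrm m : ℝ) ≤ C * l.length := by exact_mod_cast hC _ _ hm
  refine le_trans ?_ h1
  rw [TriPres.nrm, Finsupp.sum, Finsupp.sum]
  push_cast
  refine (Finset.abs_sum_le_sum_abs _ _).trans (Finset.sum_le_sum fun gr _ => ?_)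
  rw [zsmul_eq_mul, abs_mul, Nat.cast_natAbs, Int.cast_abs]
  exact mul_le_of_le_one_right (abs_nonneg _) (hβ _ _)

/-! ### Torsion -/

theorem pathSum_map {A B : Type} [AddCommGroup A] [AddCommGroup B] (f : A →+ B)
    (β : P.G → X → A) (g : P.G) (l : List (X × Bool)) :
    P.pathSum (fun g x => f (β g x)) g l = f (P.pathSum β g l) := by
  induction l generalizing g with
  | nil => simp [TriPres.pathSum]
  | cons y l ih =>
    obtain ⟨x, e⟩ := y
    cases e
    · simp [TriPres.pathSum, ih]
    · simp [TriPres.pathSum, ih]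

theorem pathSum_sub {A : Type} [AddCommGroup A] (β β' : P.G → X → A) (g : P.G)
    (l : List (X × Bool)) :
    P.pathSum (fun g x => β g x - β' g x) g l = P.pathSum β g l - P.pathSum β' g l := by
  induction l generalizing g with
  | nil => simp [TriPres.pathSum]
  | cons y l ih =>
    obtain ⟨x, e⟩ := y
    cases e
    · simp only [TriPres.pathSum, ih]; abel
    · simp only [TriPres.pathSum, ih]; abel

theorem pathSum_d {A : Type} [AddCommGroup A] (a : P.G → A) (g : P.G) (l : List (X × Bool)) :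
    P.pathSum (fun g x => a (g * P.gen x) - a g) g l = a (g * P.ev l) - a g := by
  induction l generalizing g with
  | nil => simp [TriPres.pathSum, ev_nil]
  | cons y l ih =>
    obtain ⟨x, e⟩ := y
    cases e
    · simp only [TriPres.pathSum, ih, ev_cons, lt_false, mul_assoc, inv_mul_cancel, mul_one]; abel
    · simp only [TriPres.pathSum, ih, ev_cons, lt_true, mul_assoc]; abel

theorem pathSum_inv {A : Type} [AddCommGroup A] (β : P.G → X → A) (x : P.G)
    (h : ∀ g y, β (x * g) y = β g y) (g : P.G) (l : List (X × Bool)) :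
    P.pathSum β (x * g) l = P.pathSum β g l := by
  induction l generalizing g with
  | nil => simp [TriPres.pathSum]
  | cons y l ih =>
    obtain ⟨y, e⟩ := y
    cases e
    · simp only [TriPres.pathSum, mul_assoc, ih, h]
    · simp only [TriPres.pathSum, mul_assoc, ih, h]

theorem pathSum_rep (β : P.G → X → ℤ) (l : List (X × Bool))
    (h : ∀ g y, β (P.ev l * g) y = β g y) (n : ℕ) :
    P.ev (List.replicate n l).flatten = P.ev l ^ n ∧
      P.pathSum β 1 (List.replicate n l).flatten = n * P.pathSum β 1 l := by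
  induction n with
  | zero => simp [TriPres.pathSum, ev_nil]
  | succ n ih =>
    rw [List.replicate_succ, List.flatten_cons, ev_append, pathSum_append, ih.1, pow_succ',
      one_mul, ← mul_one (P.ev l), pathSum_inv P β _ h, ih.2, mul_one]
    refine ⟨rfl, ?_⟩
    push_cast; ring

theorem exists_log {G : Type} [Group G] (x : G) :
    ∃ (ρ : G → G) (a : G → ZMod (orderOf x)), (∀ g, ρ g * g⁻¹ ∈ Subgroup.zpowers x) ∧
      (∀ (k : ℤ) g, ρ (x ^ k * g) = ρ g) ∧ ∀ (k : ℤ) g, a (x ^ k * g) = a g + k := by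
  let s := QuotientGroup.rightRel (Subgroup.zpowers x)
  let ρ : G → G := fun g => (Quotient.mk s g).out
  have h1 : ∀ g, g * (ρ g)⁻¹ ∈ Subgroup.zpowers x := fun g =>
    QuotientGroup.rightRel_apply.1 (Quotient.mk_out (s := s) g)
  have h2 : ∀ (k : ℤ) g, ρ (x ^ k * g) = ρ g := by
    intro k g
    have : Quotient.mk s (x ^ k * g) = Quotient.mk s g := by
      apply Eq.symm
      apply Quotient.sound
      apply QuotientGroup.rightRel_apply.2
      simp
    simp only [ρ, this]
  choose f hf using fun g => Subgroup.mem_zpowers_iff.1 (h1 g)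
  refine ⟨ρ, fun g => (f g : ZMod (orderOf x)), fun g => ?_, h2, fun k g => ?_⟩
  · have := Subgroup.inv_mem _ (h1 g)
    simpa using this
  · have e : x ^ f (x ^ k * g) = x ^ (f g + k) := by
      rw [hf, h2, add_comm, zpow_add, hf, mul_assoc]
    rw [zpow_eq_zpow_iff_modEq] at e
    have := (ZMod.intCast_eq_intCast_iff _ _ _).2 e
    simpa using this

theorem torsionFree (hH : P.H2zero) (x : P.G) (hx : IsOfFinOrder x) : x = 1 := by
  classical
  by_contra hne
  have hn0 : 0 < orderOf x := hx.orderOf_pos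
  have hn1 : orderOf x ≠ 1 := fun h => hne (orderOf_eq_one_iff.1 h)
  haveI : Finite (Subgroup.zpowers x) := hx.finite_zpowers.to_subtype
  haveI : Fintype (Subgroup.zpowers x) := Fintype.ofFinite _
  obtain ⟨l, hl⟩ := exists_word P x
  obtain ⟨n, hn⟩ : ∃ n, n = orderOf x := ⟨_, rfl⟩
  obtain ⟨ρ, a, hρ, hρ', ha⟩ : ∃ (ρ : P.G → P.G) (a : P.G → ZMod n),
      (∀ g, ρ g * g⁻¹ ∈ Subgroup.zpowers x) ∧
      (∀ (k : ℤ) g, ρ (x ^ k * g) = ρ g) ∧ ∀ (k : ℤ) g, a (x ^ k * g) = a g + k := by
    rw [hn]; exact exists_log x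
  rw [← hn] at hn0 hn1
  haveI : NeZero n := ⟨hn0.ne'⟩
  haveI : Fact (1 < n) := ⟨by omega⟩
  let η : P.G → X → ℤ := fun g y => ((a (g * P.gen y) - a g).val : ℤ)
  have hη : ∀ g y, ((η g y : ℤ) : ZMod n) = a (g * P.gen y) - a g := by
    intro g y; simp [η]
  have hηi : ∀ (k : ℤ) g y, η (x ^ k * g) y = η g y := by
    intro k g y
    simp only [η, mul_assoc, ha, add_sub_add_right_eq_sub]
  have hdv : ∀ g r, (n : ℤ) ∣ P.cob η g r := by
    intro g r
    rw [← ZMod.intCast_zmod_eq_zero_iff_dvd]
    simp only [TriPres.cob]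
    push_cast
    rw [hη, hη, hη, mul_assoc, gen_rel]
    abel
  choose c hc using hdv
  have hci : ∀ (k : ℤ) g r, c (x ^ k * g) r = c g r := by
    intro k g r
    have : (n : ℤ) * c (x ^ k * g) r = n * c g r := by
      rw [← hc, ← hc]
      simp only [TriPres.cob, mul_assoc, hηi]
    exact mul_left_cancel₀ (by exact_mod_cast hn0.ne') this
  obtain ⟨β', hβ'⟩ := hH ℤ fun g r => if ρ g = g then c g r else 0
  let N : P.G → X → ℤ := fun g y => ∑ h : Subgroup.zpowers x, β' (h * g) y
  have hN : ∀ g r, P.cob N g r = c g r := by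
    intro g r
    have e1 : P.cob N g r = ∑ h : Subgroup.zpowers x, P.cob β' (h * g) r := by
      simp only [TriPres.cob, N, Finset.sum_add_distrib, Finset.sum_sub_distrib, mul_assoc]
    rw [e1, Finset.sum_eq_single ⟨ρ g * g⁻¹, hρ g⟩]
    · obtain ⟨k, hk⟩ := Subgroup.mem_zpowers_iff.1 (hρ g)
      rw [hβ']
      have e2 : ρ g = x ^ k * g := by rw [hk]; simp
      have e3 : ρ (ρ g * g⁻¹ * g) = ρ g * g⁻¹ * g := by
        rw [← hk, hρ', e2]
      rw [if_pos e3]
      show c (ρ g * g⁻¹ * g) r = c g r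
      rw [← hk, hci]
    · rintro ⟨h, hh⟩ _ hne'
      obtain ⟨k, rfl⟩ := Subgroup.mem_zpowers_iff.1 hh
      rw [hβ', if_neg]
      intro e
      apply hne'
      apply Subtype.ext
      simp only at e ⊢
      rw [hρ'] at e
      rw [e]; simp
    · simp
  have hNi : ∀ g y, N (x * g) y = N g y := by
    intro g y
    simp only [N]
    refine Fintype.sum_equiv (Equiv.mulRight ⟨x, Subgroup.mem_zpowers x⟩) _ _ fun h => ?_
    simp [mul_assoc]
  let ζ : P.G → X → ℤ := fun g y => η g y - (AddMonoidHom.mulLeft (n : ℤ)) (N g y)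
  have hζ : P.cob ζ = fun _ _ => 0 := by
    funext g r
    have e1 := hc g r
    have e2 := hN g r
    simp only [TriPres.cob, ζ, AddMonoidHom.coe_mulLeft] at e1 e2 ⊢
    rw [← e2] at e1
    linear_combination e1
  have hζi : ∀ g y, ζ (P.ev l * g) y = ζ g y := by
    intro g y
    have := hηi 1 g y
    rw [zpow_one] at this
    simp only [ζ, hl, this, hNi]
  obtain ⟨e1, e2⟩ := pathSum_rep P ζ l hζi n
  have e0 : P.ev l ^ n = 1 := by rw [hl, hn, pow_orderOf_eq_one]
  rw [e0] at e1
  obtain ⟨m, hm⟩ := exists_der P _ e1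
  rw [stokes P ζ hm, hζ, pr_apply] at e2
  have e3 : P.pathSum ζ 1 l = 0 := by
    have : (n : ℤ) * P.pathSum ζ 1 l = 0 := by rw [← e2]; simp
    exact (mul_eq_zero.1 this).resolve_left (by exact_mod_cast hn0.ne')
  rw [pathSum_sub, pathSum_map, sub_eq_zero] at e3
  have e4 := pathSum_map P (Int.castAddHom (ZMod n)) η 1 l
  simp only [Int.coe_castAddHom, hη] at e4
  rw [pathSum_d, e3, hl] at e4
  have e5 := ha 1 1
  rw [zpow_one, mul_one] at e5
  rw [one_mul, e5] at e4
  simp at e4

end Alg

theorem alg : AlgStmt := by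
  intro X R P
  refine ⟨Alg.exists_der P, fun A _ β l m h => ?_, fun C hC => ⟨Alg.h2zero P hC, Alg.linIso P hC⟩,
    Alg.torsionFree P⟩
  rw [Alg.stokes P β h, Alg.pr_apply]

end Crest.Agent.KP
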