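import Crest.Agent.KP.Stmts

/-!
# KP: assembly of the main statement
-/

set_option autoImplicit false

namespace Crest.Agent.KP

open Finset

namespace Asm

section Chain

variable {X R : Type} (P : TriPres X R)

lemma nrm_eq (m : P.G × R →₀ ℤ) (s : Finset (P.G × R)) (hs : m.support ⊆ s) :
    P.nrm m = ∑ x ∈ s, (m x).natAbs := by
  unfold TriPres.nrm
  exact Finsupp.sum_of_support_subset m hs (fun _ k => k.natAbs) (by simp)

lemma nrm_add (m m' : P.G × R →₀ ℤ) : P.nrm (m + m') ≤ P.nrm m + P.nrm m' := by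
  classical
  rw [nrm_eq P (m + m') (m.support ∪ m'.support) Finsupp.support_add,
    nrm_eq P m (m.support ∪ m'.support) subset_union_left,
    nrm_eq P m' (m.support ∪ m'.support) subset_union_right, ← sum_add_distrib]
  exact sum_le_sum fun x _ => by simpa using Int.natAbs_add_le (m x) (m' x)

lemma nrm_single (x : P.G × R) (k : ℤ) : P.nrm (Finsupp.single x k) = k.natAbs := by
  unfold TriPres.nrm
  rw [Finsupp.sum_single_index (by simp)]

lemma nrm_sum {T : Type} (s : Finset T) (f : T → P.G × R →₀ ℤ) :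
    P.nrm (∑ t ∈ s, f t) ≤ ∑ t ∈ s, P.nrm (f t) := by
  classical
  induction s using Finset.induction_on with
  | empty => simp [TriPres.nrm]
  | insert a s ha ih =>
    rw [sum_insert ha, sum_insert ha]
    exact (nrm_add P _ _).trans (by omega)

lemma nrm_chain {l : List (X × Bool)} {T : Type} [Fintype T] (D : P.TDiag l T) :
    P.nrm D.chain ≤ Fintype.card T := by
  unfold TriPres.TDiag.chain
  refine (nrm_sum P _ _).trans ?_
  rw [← Finset.card_univ, Finset.card_eq_sum_ones]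
  refine sum_le_sum fun t _ => ?_
  rw [nrm_single]
  cases D.sg t <;> simp

lemma gen_rel (r : R) : P.gen (P.a r) * P.gen (P.b r) = P.gen (P.c r) := by
  have h : PresentedGroup.mk (Set.range P.rel) (P.rel r) = 1 :=
    PresentedGroup.one_of_mem ⟨r, rfl⟩
  rw [TriPres.rel, map_mul, map_mul, map_inv, mul_inv_eq_one] at h
  exact h

end Chain

section Graph

variable {S V : Type} {lb : Lab S} {L : V → Finset S} (Γ : LGraph lb L)

/-- The group element of a vertex. -/
def vx (v : V) : Γ.pres.G := Γ.pres.gen (Sum.inr v)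

lemma vx_pos (v : V) (s : S) (hs : s ∈ L v) (hp : lb.pos s = true) :
    vx Γ v * Γ.pres.gen (Sum.inl ⟨s, hp⟩) = vx Γ (Γ.nxt v s) :=
  gen_rel Γ.pres ⟨(v, s), hs, hp⟩

lemma vx_step (u v : V) (s : S) (hu : s ∈ L u) (hv : s ∈ L v) :
    vx Γ (Γ.nxt u s) * (vx Γ (Γ.nxt v s))⁻¹ = vx Γ u * (vx Γ v)⁻¹ := by
  cases hp : lb.pos s with
  | true =>
    rw [← vx_pos Γ u s hu hp, ← vx_pos Γ v s hv hp]
    group
  | false =>
    have hp' : lb.pos (lb.op s) = true := by rw [lb.pos_op, hp]; rfl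
    have h1 := vx_pos Γ _ _ (Γ.mem u s hu) hp'
    have h2 := vx_pos Γ _ _ (Γ.mem v s hv) hp'
    rw [Γ.inv u s hu] at h1
    rw [Γ.inv v s hv] at h2
    conv_rhs => rw [← h1, ← h2]
    group

lemma pair_sum [Fintype S] [DecidableEq S] [Fintype V] [DecidableEq V] {K M : Type} [Ring K]
    [AddCommGroup M] [Module K M] (f : V → V → M) (A B : Finset V)
    (hA : ∀ u ∈ A, ∀ s ∈ L u, Γ.nxt u s ∈ A) (hB : ∀ u ∈ B, ∀ s ∈ L u, Γ.nxt u s ∈ B)
    (hf : ∀ u ∈ A, ∀ v ∈ B, ∀ s ∈ L u, s ∈ L v → f (Γ.nxt u s) (Γ.nxt v s) = -f u v) :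
    ∑ u ∈ A, ∑ v ∈ B, (#(L u ∩ L v) : K) • f u v = 0 := by
  have h1 : ∑ u ∈ A, ∑ v ∈ B, (#(L u ∩ L v) : K) • f u v =
      ∑ x ∈ (univ : Finset (V × V × S)) with
        (x.1 ∈ A ∧ x.2.1 ∈ B ∧ x.2.2 ∈ L x.1 ∧ x.2.2 ∈ L x.2.1), f x.1 x.2.1 := by
    rw [Finset.sum_filter, Fintype.sum_prod_type]
    rw [← Finset.sum_subset (Finset.subset_univ A)]
    · refine sum_congr rfl fun u hu => ?_
      rw [Fintype.sum_prod_type, ← Finset.sum_subset (Finset.subset_univ B)]
      · refine sum_congr rfl fun v hv => ?_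
        rw [← Finset.sum_filter]
        dsimp only
        rw [Finset.sum_const, Nat.cast_smul_eq_nsmul]
        congr 2
        ext s
        simp [hu, hv]
      · intro v _ hv
        simp [hv]
    · intro u _ hu
      simp [hu]
  rw [h1]
  refine Finset.sum_involution (fun x _ => (Γ.nxt x.1 x.2.2, Γ.nxt x.2.1 x.2.2, lb.op x.2.2))
    ?_ ?_ ?_ ?_
  · intro x hx
    simp only [mem_filter, mem_univ, true_and] at hx
    simp only
    rw [hf _ hx.1 _ hx.2.1 _ hx.2.2.1 hx.2.2.2, add_neg_cancel]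
  · intro x _ _ h
    have h2 : lb.op x.2.2 = x.2.2 := congrArg (fun y => y.2.2) h
    have h3 := lb.pos_op x.2.2
    rw [h2] at h3
    cases h4 : lb.pos x.2.2 <;> simp [h4] at h3
  · intro x hx
    simp only [mem_filter, mem_univ, true_and] at hx ⊢
    exact ⟨hA _ hx.1 _ hx.2.2.1, hB _ hx.2.1 _ hx.2.2.2, Γ.mem _ _ hx.2.2.1, Γ.mem _ _ hx.2.2.2⟩
  · intro x hx
    simp only [mem_filter, mem_univ, true_and] at hx
    simp only
    rw [Γ.inv _ _ hx.2.2.1, Γ.inv _ _ hx.2.2.2, lb.op_op]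

/-- The isoperimetric inequality from the global bound on planar maps. -/
lemma iso (hV : VKStmt) (hR : RimStmt) (C : ℕ)
    (hC : ∀ (T : Type) [Fintype T] [DecidableEq T] (M : RMap Γ T), PlanarC M.φ M.α M.cut →
        Fintype.card T ≤ C * (#{t : T | M.α t = t} + #M.cut)) : Γ.pres.Iso C := by
  classical
  intro l m hd
  obtain ⟨T, _, D, hP, hRd, rfl⟩ := hV _ _ Γ.pres l m hd
  obtain ⟨M, hM, h1, h2, -⟩ := hR S V lb L Γ l T D hP hRd
  refine (nrm_chain _ D).trans ((hC T M hM).trans (Nat.mul_le_mul_left _ ?_))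
  have h3 : l.countP (fun y => y.1.isRight && y.2) ≤ l.countP (fun y => ¬ (y.1.isLeft = true)) := by
    refine List.countP_mono_left fun y _ hy => ?_
    rcases y with ⟨y | y, e⟩ <;> simp_all
  have h4 := List.length_eq_countP_add_countP (l := l) (fun y => y.1.isLeft)
  omega

/-- No other vertex has the same group element as `c0`. -/
lemma vx_inj (hV : VKStmt) (hR : RimStmt) (hA : AlgStmt) (c0 : V)
    (hE : ∀ (T : Type) [Fintype T] [DecidableEq T] (M : RMap Γ T), PlanarC M.φ M.α M.cut →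
        (∀ t, M.α t ≠ t) → #M.cut ≤ 1 → (∀ t ∈ M.cut, (M.d (M.φ t)).1 = c0) → IsEmpty T)
    (u : V) (hu : vx Γ u = vx Γ c0) : u = c0 := by
  classical
  set l : List (({s : S // lb.pos s = true} ⊕ V) × Bool) :=
    [(Sum.inr c0, true), (Sum.inr u, false)] with hl
  have hev : Γ.pres.ev l = 1 := by
    have : Γ.pres.ev l = vx Γ c0 * (vx Γ u)⁻¹ := by
      simp [hl, TriPres.ev, TriPres.lt, vx]
    rw [this, hu, mul_inv_cancel]
  obtain ⟨m, hd⟩ := (hA _ _ Γ.pres).1 l hev
  obtain ⟨T, _, D, hP, hRd, -⟩ := hV _ _ Γ.pres l m hd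
  obtain ⟨M, hM, h1, h2, h3⟩ := hR S V lb L Γ l T D hP hRd
  have hT : IsEmpty T := by
    refine hE T M hM ?_ ?_ ?_
    · intro t ht
      have h0 : #{t : T | M.α t = t} = 0 := by
        have : l.countP (fun y => y.1.isLeft) = 0 := by simp [hl]
        omega
      rw [card_eq_zero] at h0
      have : t ∈ ({t : T | M.α t = t} : Finset T) := by simpa using ht
      rw [h0] at this
      simp at this
    · have : l.countP (fun y => y.1.isRight && y.2) = 1 := by simp [hl]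
      omega
    · intro t ht
      have := h3 t ht
      simpa [hl] using this
  have hlen : l.length = 2 := by simp [hl]
  have hg := D.glue (Sum.inr ⟨0, by omega⟩)
  rcases hα : D.α (Sum.inr ⟨0, by omega⟩) with ⟨t, i⟩ | ⟨j, hj⟩
  · exact hT.elim t
  · rw [hα] at hg
    have hg2 := congrArg (fun e => e.2) hg
    have hj' : j = 0 ∨ j = 1 := by omega
    rcases hj' with rfl | rfl
    · simp [TriPres.sideEdge, TriPres.revE, hl] at hg2
    · simpa [TriPres.sideEdge, TriPres.revE, hl] using hg2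

end Graph

end Asm

open Asm in
theorem asm (hPl : PlaneStmt) (hD : DesignStmt) (hPo : PopStmt) (hL : LocStmt) (hG : GloStmt)
    (hV : VKStmt) (hR : RimStmt) (hA : AlgStmt) : MainStmt := by
  classical
  intro p hp
  have : Fact p.Prime := ⟨hp⟩
  obtain ⟨q0, hD⟩ := hD
  obtain ⟨q, Pt, Ln, _, _, _, hq0, hpq, ⟨Pl⟩⟩ := hPl p q0 hp
  obtain ⟨S0, ι, _, _, _, lb0, ⟨De⟩⟩ := hD p q Pt Ln hq0 hpq Pl
  obtain ⟨S, _, _, lb, Fr, C0, hS, hcls, hxor, hpop⟩ := hPo p S0 ι lb0 De
  obtain ⟨c, Λ, hc, hΛ, hK⟩ := hL S (Fin 3 × Bool) (Fin 3) lb Fr C0 hS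
  obtain ⟨K, hGK⟩ := hG c Λ hc hΛ
  obtain ⟨g, n, hg, hn, hΓ⟩ := hK K
  obtain ⟨V, _, _, L, col, a0, b0, c0, hPop, hcard, ha0, hb0, hc0, hdisj, hint⟩ := hpop n hn
  obtain ⟨Γ, hcol, hgood⟩ := hΓ V L col c0 hPop hcard
  obtain ⟨⟨C, hC⟩, hE⟩ := hGK S V lb L Γ c0 g hg hgood
  refine ⟨_, _, inferInstance, inferInstance, Γ.pres, C, iso Γ hV hR C hC, ?_⟩
  -- signs
  let ε : V → ZMod p := fun v => cond (col v).2 (-1) 1
  have hεε : ∀ v, ε v * ε v = 1 := fun v => by
    simp only [ε]; cases (col v).2 <;> simp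
  have hcl : ∀ v s, s ∈ L v → (col (Γ.nxt v s)).1 = (col v).1 := fun v s hs => by
    rw [hcol v s hs, ← hcls, Fr.cls_tr, hcls]
  have hflip : ∀ u v s, (col u).1 ≠ 1 → (col v).1 = 1 → s ∈ L u → s ∈ L v →
      ε (Γ.nxt u s) * ε (Γ.nxt v s) = -(ε u * ε v) := fun u v s hu hv hsu hsv => by
    have h := hxor (col u) (col v) s hu hv
    simp only [ε, hcol u s hsu, hcol v s hsv]
    revert h
    cases (Fr.tr (col u) s).2 <;> cases (Fr.tr (col v) s).2 <;> cases (col u).2 <;>
      cases (col v).2 <;> simp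
  let part : Fin 3 → Finset V := fun i => {v | (col v).1 = i}
  have hpart : ∀ i, ∀ u ∈ part i, ∀ s ∈ L u, Γ.nxt u s ∈ part i := fun i u hu s hs => by
    simp only [part, mem_filter, mem_univ, true_and] at hu ⊢
    rw [hcl u s hs, hu]
  let f : V → V → MonoidAlgebra (ZMod p) Γ.pres.G := fun u v =>
    MonoidAlgebra.single (vx Γ u * (vx Γ v)⁻¹) (ε u * ε v)
  have hsum : ∀ i, i ≠ 1 → ∑ u ∈ part i, ∑ v ∈ part 1, (#(L u ∩ L v) : ZMod p) • f u v = 0 := by
    intro i hi
    refine pair_sum Γ f _ _ (hpart i) (hpart 1) fun u hu v hv s hsu hsv => ?_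
    simp only [part, mem_filter, mem_univ, true_and] at hu hv
    simp only [f]
    rw [vx_step Γ u v s hsu hsv, hflip u v s (hu ▸ hi) hv hsu hsv, MonoidAlgebra.single_neg]
  let el : Fin 3 → MonoidAlgebra (ZMod p) Γ.pres.G := fun i =>
    ∑ u ∈ part i, MonoidAlgebra.single (vx Γ u) (ε u)
  let b : MonoidAlgebra (ZMod p) Γ.pres.G := ∑ v ∈ part 1, MonoidAlgebra.single (vx Γ v)⁻¹ (ε v)
  have hmul : ∀ i, el i * b = ∑ u ∈ part i, ∑ v ∈ part 1, f u v := fun i => by
    simp only [el, b, f, Finset.sum_mul_sum, MonoidAlgebra.single_mul_single]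
  have hcb : el 2 * b = 0 := by
    rw [hmul, ← hsum 2 (by decide)]
    refine sum_congr rfl fun u hu => sum_congr rfl fun v hv => ?_
    simp only [part, mem_filter, mem_univ, true_and] at hu hv
    rw [hint u v (by rw [hu]; decide) hv, one_smul]
    intro h
    have h1 : u = a0 := congrArg Prod.fst h
    rw [h1, ha0] at hu
    exact absurd hu (by decide)
  have hab : el 0 * b = f a0 b0 := by
    have h0 := hsum 0 (by decide)
    have ha : a0 ∈ part 0 := by simp [part, ha0]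
    have hb : b0 ∈ part 1 := by simp [part, hb0]
    rw [← Finset.sum_product'] at h0
    rw [hmul, ← Finset.sum_product', ← Finset.add_sum_erase _ _ (mem_product.2 ⟨ha, hb⟩ :
      (a0, b0) ∈ part 0 ×ˢ part 1)]
    rw [← Finset.add_sum_erase _ _ (mem_product.2 ⟨ha, hb⟩ : (a0, b0) ∈ part 0 ×ˢ part 1)] at h0
    simp only [Finset.disjoint_iff_inter_eq_empty.1 hdisj, card_empty, Nat.cast_zero, zero_smul,
      zero_add] at h0
    rw [add_eq_left, ← h0]
    refine sum_congr rfl fun x hx => ?_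
    simp only [part, mem_erase, mem_product, mem_filter, mem_univ, true_and] at hx
    rw [hint x.1 x.2 (by rw [hx.2.1]; decide) hx.2.2 hx.1, one_smul]
  have hc : el 2 ≠ 0 := by
    intro h
    have h1 : (el 2).coeff (vx Γ c0) = ε c0 := by
      simp only [el, MonoidAlgebra.coeff_sum, Finsupp.finsetSum_apply]
      rw [Finset.sum_eq_single c0]
      · simp
      · intro u _ hu
        have : vx Γ u ≠ vx Γ c0 := fun h => hu (vx_inj Γ hV hR hA c0 hE u h)
        simp [this]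
      · intro h
        exact absurd (by simp [part, hc0]) h
    have h2 := hεε c0
    rw [← h1, h] at h2
    simp at h2
  let w : MonoidAlgebra (ZMod p) Γ.pres.G :=
    MonoidAlgebra.single (vx Γ a0 * (vx Γ b0)⁻¹)⁻¹ (ε a0 * ε b0)
  refine ⟨w * el 0, b, ?_, ?_⟩
  · rw [mul_assoc, hab]
    simp only [w, f, MonoidAlgebra.single_mul_single, inv_mul_cancel]
    rw [show ε a0 * ε b0 * (ε a0 * ε b0) = (ε a0 * ε a0) * (ε b0 * ε b0) by ring, hεε, hεε,
      mul_one, MonoidAlgebra.one_def]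
  · intro h
    apply hc
    rw [← mul_one (el 2), ← h, ← mul_assoc, hcb, zero_mul]

end Crest.Agent.KP
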