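import Crest.Agent.KP.Stmts

/-! KP task CLEAN: all but boundedly many sides of a small map end at clean vertices. -/

set_option autoImplicit false

namespace Crest.Agent.KP

open Finset

namespace Cl

variable {S V : Type} {lb : Lab S} {L : V → Finset S} {Γ : LGraph lb L}

theorem rev_valid {d : V × S} (h : d.2 ∈ L d.1) : (Γ.rev d).2 ∈ L (Γ.rev d).1 := Γ.mem _ _ h

theorem hd_rev {d : V × S} (h : d.2 ∈ L d.1) : Γ.hd (Γ.rev d) = d.1 := Γ.inv _ _ h

theorem rev_fst (d : V × S) : (Γ.rev d).1 = Γ.hd d := rfl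

theorem rev_rev {d : V × S} (h : d.2 ∈ L d.1) : Γ.rev (Γ.rev d) = d :=
  Prod.ext (Γ.inv _ _ h) (lb.op_op _)

theorem path_mono {k k' : ℕ} {p : ℕ → V × S} (h : Γ.IsPath k p) (hk : k' ≤ k) : Γ.IsPath k' p :=
  ⟨fun i hi => h.1 i (by omega), fun i hi => h.2 i (by omega)⟩

theorem path_rev {k : ℕ} {p : ℕ → V × S} (h : Γ.IsPath k p) :
    Γ.IsPath k fun i => Γ.rev (p (k - 1 - i)) := by
  refine ⟨fun i hi => rev_valid (h.1 _ (by omega)), fun i hi => ?_⟩
  obtain ⟨h1, h2⟩ := h.2 (k - 1 - (i + 1)) (by omega)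
  have e : k - 1 - (i + 1) + 1 = k - 1 - i := by omega
  rw [e] at h1 h2
  refine ⟨by rw [hd_rev (h.1 _ (by omega)), rev_fst, h1], ?_⟩
  rw [rev_rev (h.1 _ (by omega))]
  exact h2.symm

theorem path_cat {k k' : ℕ} {p q : ℕ → V × S} (hp : Γ.IsPath (k + 1) p) (hq : Γ.IsPath k' q)
    (h1 : (q 0).1 = Γ.hd (p k)) (h2 : q 0 ≠ Γ.rev (p k)) :
    Γ.IsPath (k + 1 + k') fun i => if i < k + 1 then p i else q (i - (k + 1)) := by
  refine ⟨fun i hi => ?_, fun i hi => ?_⟩
  · by_cases h : i < k + 1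
    · simp only [h, if_true]
      exact hp.1 i h
    · simp only [h, if_false]
      exact hq.1 _ (by omega)
  · rcases lt_trichotomy i k with h | h | h
    · simp only [show i + 1 < k + 1 by omega, show i < k + 1 by omega, if_true]
      exact hp.2 i (by omega)
    · subst h
      simp only [lt_irrefl, if_false, Nat.sub_self, Nat.lt_succ_self, if_true]
      exact ⟨h1, h2⟩
    · simp only [show ¬ i + 1 < k + 1 by omega, show ¬ i < k + 1 by omega, if_false]
      rw [show i + 1 - (k + 1) = i - (k + 1) + 1 by omega]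
      exact hq.2 _ (by omega)

theorem uniq {g : ℕ} (hg : Γ.Girth g) {p q : ℕ → V × S} (h0 : (p 0).1 = (q 0).1) :
    ∀ k k' : ℕ, Γ.IsPath (k + 1) p → Γ.IsPath (k' + 1) q → k + k' + 2 < g →
      Γ.hd (p k) = Γ.hd (q k') → k = k' ∧ ∀ i, i ≤ k → p i = q i := by
  have last : ∀ k k' : ℕ, Γ.IsPath (k + 1) p → Γ.IsPath (k' + 1) q → k + k' + 2 < g →
      Γ.hd (p k) = Γ.hd (q k') → p k = q k' := by
    intro k k' hp hq hk he
    by_contra hne
    have h1 := path_cat hp (path_rev hq) (by simpa [rev_fst] using he.symm) (by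
      intro h
      apply hne
      simp only [Nat.add_sub_cancel, Nat.sub_zero] at h
      rw [← rev_rev (Γ := Γ) (hp.1 k (by omega)), ← h, rev_rev (hq.1 k' (by omega))])
    refine hg _ _ (by omega) (by omega) h1 ?_
    simp only [show ¬ k + 1 + (k' + 1) - 1 < k + 1 by omega, if_false, Nat.zero_lt_succ, if_true]
    rw [show k' + 1 - 1 - (k + 1 + (k' + 1) - 1 - (k + 1)) = 0 by omega,
      hd_rev (hq.1 0 (by omega)), h0]
  intro k
  induction k with
  | zero =>
    intro k' hp hq hk he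
    have h1 := last 0 k' hp hq hk he
    rcases k' with _ | k'
    · exact ⟨rfl, fun i hi => by rw [Nat.le_zero.mp hi, h1]⟩
    · refine absurd ?_ (hg (k' + 1) q (by omega) (by omega) (path_mono hq (by omega)))
      rw [Nat.add_sub_cancel, ← (hq.2 k' (by omega)).1, ← h1, h0]
  | succ k ih =>
    intro k' hp hq hk he
    have h1 := last (k + 1) k' hp hq hk he
    rcases k' with _ | k'
    · refine absurd ?_ (hg (k + 1) p (by omega) (by omega) (path_mono hp (by omega)))
      rw [Nat.add_sub_cancel, ← (hp.2 k (by omega)).1, h1, h0]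
    · obtain ⟨h2, h3⟩ := ih k' (path_mono hp (by omega)) (path_mono hq (by omega)) (by omega)
        (by rw [← (hp.2 k (by omega)).1, ← (hq.2 k' (by omega)).1, h1])
      subst h2
      refine ⟨rfl, fun i hi => ?_⟩
      rcases hi.lt_or_eq with h | h
      · exact h3 i (by omega)
      · rw [h, h1]

/-- a segmentation of the map -/
structure Seg {T : Type} (M : RMap Γ T) (g : ℕ) (e : T → ℕ) : Prop where
  lt : ∀ t, 2 * e t + 3 ≤ g
  step : ∀ t, e t ≠ 0 → t ∉ M.cut ∧ e (M.φ t) + 1 = e t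

variable {T : Type} {M : RMap Γ T} {g : ℕ} {e : T → ℕ}

theorem pow_succ_apply (φ : Equiv.Perm T) (i : ℕ) (t : T) : (φ ^ (i + 1)) t = φ ((φ ^ i) t) := by
  rw [pow_succ', Equiv.Perm.mul_apply]

theorem pow_add_apply (φ : Equiv.Perm T) (i j : ℕ) (t : T) :
    (φ ^ (i + j)) t = (φ ^ i) ((φ ^ j) t) := by
  rw [pow_add, Equiv.Perm.mul_apply]

theorem Seg.e_pow (h : Seg M g e) (t : T) : ∀ i, i ≤ e t → e ((M.φ ^ i) t) + i = e t := by
  intro i
  induction i with
  | zero => simp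
  | succ i ih =>
    intro hi
    have h1 := ih (by omega)
    have h2 := (h.step ((M.φ ^ i) t) (by omega)).2
    rw [pow_succ_apply]
    omega

theorem Seg.link (h : Seg M g e) {t : T} {i : ℕ} (hi : i < e t) :
    (M.d ((M.φ ^ (i + 1)) t)).1 = Γ.hd (M.d ((M.φ ^ i) t)) ∧
      M.d ((M.φ ^ (i + 1)) t) ≠ Γ.rev (M.d ((M.φ ^ i) t)) := by
  have h1 := h.e_pow t i hi.le
  rw [pow_succ_apply]
  exact M.link _ (h.step _ (by omega)).1

theorem Seg.path (h : Seg M g e) (t : T) {a k : ℕ} (hk : a + k ≤ e t + 1) :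
    Γ.IsPath k fun i => M.d ((M.φ ^ (i + a)) t) := by
  refine ⟨fun i _ => M.valid _, fun i hi => ?_⟩
  simp only [show i + 1 + a = i + a + 1 by omega]
  exact h.link (by omega)

/-- end of the segment -/
def seg (M : RMap Γ T) (e : T → ℕ) (t : T) : T := (M.φ ^ e t) t

theorem Seg.seg_pow (h : Seg M g e) (t : T) {i : ℕ} (hi : i ≤ e t) :
    seg M e ((M.φ ^ i) t) = seg M e t := by
  unfold seg
  rw [← pow_add_apply, h.e_pow t i hi]

theorem of_seg {t t' : T} (h : seg M e t = seg M e t') (hle : e t' ≤ e t) :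
    t' = (M.φ ^ (e t - e t')) t := by
  refine (M.φ ^ e t').injective ?_
  rw [← pow_add_apply, Nat.add_sub_cancel' hle]
  exact h.symm

theorem Seg.hd_inj (h : Seg M g e) (hg : Γ.Girth g) {t t' : T} (hs : seg M e t = seg M e t')
    (hh : Γ.hd (M.d t) = Γ.hd (M.d t')) : t = t' := by
  wlog hle : e t' ≤ e t generalizing t t'
  · exact (this hs.symm hh.symm (by omega)).symm
  have h1 := of_seg hs hle
  rcases hle.lt_or_eq with hlt | heq
  · refine absurd ?_ (hg (e t - e t') _ (by omega) (by have := h.lt t; omega)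
      (h.path t (a := 1) (by omega)))
    rw [show e t - e t' - 1 + 1 = e t - e t' by omega, ← h1, (h.link (by omega)).1, ← hh]
    rfl
  · rw [h1, heq, Nat.sub_self]
    rfl

theorem Seg.tl_inj (h : Seg M g e) (hg : Γ.Girth g) {t t' : T} (hs : seg M e t = seg M e t')
    (hh : (M.d t).1 = (M.d t').1) : t = t' := by
  wlog hle : e t' ≤ e t generalizing t t'
  · exact (this hs.symm hh.symm (by omega)).symm
  have h1 := of_seg hs hle
  rcases hle.lt_or_eq with hlt | heq
  · refine absurd ?_ (hg (e t - e t') _ (by omega) (by have := h.lt t; omega)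
      (h.path t (a := 0) (by omega)))
    rw [Nat.add_zero, ← (h.link (by omega)).1, show e t - e t' - 1 + 1 = e t - e t' by omega, ← h1,
      ← hh]
    rfl
  · rw [h1, heq, Nat.sub_self]
    rfl

/-- two visits use the same pair of darts -/
def Mt (M : RMap Γ T) (t t' : T) : Prop :=
  (M.d t' = M.d t ∧ M.d (M.φ t') = M.d (M.φ t)) ∨
    (M.d t' = Γ.rev (M.d (M.φ t)) ∧ M.d (M.φ t') = Γ.rev (M.d t))

theorem Seg.mid (h : Seg M g e) (hg : Γ.Girth g) {t₁ t₂ t₃ u₁ u₂ u₃ : T}
    (s12 : seg M e t₁ = seg M e t₂) (s13 : seg M e t₁ = seg M e t₃)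
    (r12 : seg M e u₁ = seg M e u₂) (r13 : seg M e u₁ = seg M e u₃)
    (e12 : e t₂ < e t₁) (e23 : e t₃ < e t₂) (h1 : Γ.hd (M.d t₁) = Γ.hd (M.d u₁))
    (h2 : Γ.hd (M.d t₂) = Γ.hd (M.d u₂)) (h3 : Γ.hd (M.d t₃) = Γ.hd (M.d u₃)) : Mt M t₂ u₂ := by
  obtain ⟨a, ha⟩ : ∃ a, e t₁ - e t₂ = a + 1 := ⟨e t₁ - e t₂ - 1, by omega⟩
  obtain ⟨c, hc⟩ : ∃ c, e t₁ - e t₃ = c + 1 := ⟨e t₁ - e t₃ - 1, by omega⟩
  have a2 := of_seg s12 e12.le
  have a3 := of_seg s13 (by omega)
  rw [ha] at a2
  rw [hc] at a3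
  have hp := h.path t₁ (a := 1) (k := c + 1) (by omega)
  have hp0 : (M.d ((M.φ ^ (0 + 1)) t₁)).1 = Γ.hd (M.d t₁) := (h.link (by omega)).1
  have l1 := h.lt t₁
  rcases lt_trichotomy (e u₃) (e u₁) with hlt | heq | hlt
  · obtain ⟨c', hc'⟩ : ∃ c', e u₁ - e u₃ = c' + 1 := ⟨e u₁ - e u₃ - 1, by omega⟩
    have b3 := of_seg r13 hlt.le
    rw [hc'] at b3
    have l2 := h.lt u₁
    obtain ⟨k1, k2⟩ := uniq hg (hp0.trans (h1.trans (h.link (i := 0) (by omega)).1.symm)) c c' hp
      (h.path u₁ (a := 1) (k := c' + 1) (by omega)) (by omega) (by rw [← a3, ← b3, h3])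
    have k3 := k2 a (by omega)
    have k4 := k2 (a + 1) (by omega)
    have k5 : u₂ = (M.φ ^ (a + 1)) u₁ :=
      h.hd_inj hg (r12.symm.trans (h.seg_pow u₁ (by omega)).symm) (by rw [← h2, a2, k3])
    left
    rw [k5, a2, ← pow_succ_apply, ← pow_succ_apply]
    exact ⟨k3.symm, k4.symm⟩
  · have b3 := of_seg r13 heq.le
    rw [heq, Nat.sub_self] at b3
    have b4 : u₃ = u₁ := b3
    have := h.hd_inj hg s13 (by rw [h1, h3, b4])
    rw [this] at e12
    omega
  · obtain ⟨c', hc'⟩ : ∃ c', e u₃ - e u₁ = c' + 1 := ⟨e u₃ - e u₁ - 1, by omega⟩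
    have b3 := of_seg r13.symm hlt.le
    rw [hc'] at b3
    have l2 := h.lt u₃
    have hq := path_rev (h.path u₃ (a := 1) (k := c' + 1) (by omega))
    obtain ⟨k1, k2⟩ := uniq hg (q := fun i => Γ.rev (M.d ((M.φ ^ (c' + 1 - 1 - i + 1)) u₃)))
      (by rw [hp0, h1, b3]; rfl) c c' hp hq (by omega) (by
        rw [← a3, h3, hd_rev (M.valid _), show c' + 1 - 1 - c' = 0 by omega]
        exact (h.link (i := 0) (by omega)).1.symm)
    subst k1
    have k3 := k2 a (by omega)
    have k4 := k2 (a + 1) (by omega)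
    rw [show c + 1 - 1 - a + 1 = c - a + 1 by omega, ← a2] at k3
    rw [show c + 1 - 1 - (a + 1) + 1 = c - a by omega, pow_succ_apply, ← a2] at k4
    have k5 : u₂ = (M.φ ^ (c - a)) u₃ := by
      refine h.hd_inj hg (r12.symm.trans (r13.trans (h.seg_pow u₃ (by omega)).symm)) ?_
      rw [← h2, ← rev_fst (M.d ((M.φ ^ (c - a)) u₃)), ← k4]
      exact (M.link _ (h.step t₂ (by omega)).1).1.symm
    right
    rw [k5, ← pow_succ_apply, k3, k4, rev_rev (M.valid _), rev_rev (M.valid _)]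
    exact ⟨rfl, rfl⟩

theorem exists_seg [Fintype T] [DecidableEq T] (M : RMap Γ T) {B : Finset T} {K : ℕ} (hg : 3 ≤ g)
    (hc : M.cut ⊆ B) (hB : ∀ t, ∃ k : ℕ, (M.φ ^ k) t ∈ B) (hK : #B ≤ K)
    (hT : Fintype.card T ≤ K * g) : ∃ e : T → ℕ, Seg M g e ∧ #{t | e t = 0} ≤ 5 * K := by
  obtain ⟨h, h1, h2, h3⟩ : ∃ h, 0 < h ∧ 2 * h + 1 ≤ g ∧ g ≤ 4 * h := ⟨(g - 1) / 2, by omega⟩
  let D : T → ℕ := fun t => Nat.find (hB t)
  have d0 : ∀ t, D t = 0 ↔ t ∈ B := fun t => by simp [D, Nat.find_eq_zero]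
  have d1 : ∀ t, D t ≠ 0 → D (M.φ t) + 1 = D t := by
    intro t ht
    obtain ⟨k, hk⟩ := Nat.exists_eq_succ_of_ne_zero ht
    rw [hk]
    have a1 := (Nat.find_eq_iff (hB t)).mp hk
    refine congrArg (· + 1) ((Nat.find_eq_iff (hB (M.φ t))).mpr ⟨?_, fun j hj => ?_⟩)
    · rw [← Equiv.Perm.mul_apply, ← pow_succ]
      exact a1.1
    · rw [← Equiv.Perm.mul_apply, ← pow_succ]
      exact a1.2 _ (by omega)
  have d2 : ∀ t i, i ≤ D t → D ((M.φ ^ i) t) + i = D t := by
    intro t i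
    induction i with
    | zero => simp
    | succ i ih =>
      intro hi
      have a1 := ih (by omega)
      have a2 := d1 ((M.φ ^ i) t) (by omega)
      rw [pow_succ_apply]
      omega
  refine ⟨fun t => D t % h, ⟨fun t => ?_, fun t ht => ?_⟩, ?_⟩
  · have := Nat.mod_lt (D t) h1
    omega
  · have a1 : D t ≠ 0 := fun h' => ht (by rw [h', Nat.zero_mod])
    refine ⟨fun h' => a1 ((d0 t).mpr (hc h')), ?_⟩
    rw [← d1 t a1] at ht ⊢
    rw [Nat.add_mod_of_add_mod_lt, Nat.mod_eq_of_lt (a := 1)]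
    · by_contra h'
      exact ht (by rw [show h = 1 by omega, Nat.mod_one])
    · by_contra h'
      have a2 := Nat.mod_lt (D (M.φ t)) h1
      have a3 := Nat.mod_le 1 h
      apply ht
      rw [← Nat.mod_add_mod, show D (M.φ t) % h + 1 = h by omega, Nat.mod_self]
  · let B2 : Finset T := {t | D t % h = 0 ∧ D t ≠ 0}
    have a1 : #B2 * h ≤ Fintype.card T := by
      rw [← card_range h, ← card_product, ← card_univ]
      refine card_le_card_of_injOn (fun x => (M.φ ^ x.2) x.1) (fun _ _ => by simp) ?_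
      rintro ⟨t, i⟩ hx ⟨t', i'⟩ hx' he
      simp only [B2, coe_product, coe_filter, mem_univ, true_and, coe_range, Set.mem_prod,
        Set.mem_ofPred_eq, Set.mem_Iio] at hx hx' he
      obtain ⟨m, hm⟩ := Nat.dvd_of_mod_eq_zero hx.1.1
      obtain ⟨m', hm'⟩ := Nat.dvd_of_mod_eq_zero hx'.1.1
      have b1 : h ≤ D t := Nat.le_of_dvd (by omega) ⟨m, hm⟩
      have b2 : h ≤ D t' := Nat.le_of_dvd (by omega) ⟨m', hm'⟩
      have b3 := d2 t i (by omega)
      have b4 := d2 t' i' (by omega)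
      rw [he] at b3
      have b5 : i = i' := by
        rcases lt_trichotomy m m' with h' | h' | h'
        · have := Nat.mul_le_mul_left h (show m + 1 ≤ m' from h')
          rw [mul_add] at this
          omega
        · subst h'
          omega
        · have := Nat.mul_le_mul_left h (show m' + 1 ≤ m from h')
          rw [mul_add] at this
          omega
      subst b5
      rw [(M.φ ^ i).injective he]
    have a2 : #B2 ≤ 4 * K := by
      refine Nat.le_of_mul_le_mul_right ?_ h1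
      nlinarith
    have a3 : ({t | D t % h = 0} : Finset T) ⊆ B ∪ B2 := by
      intro t ht
      by_cases h' : D t = 0
      · exact mem_union_left _ ((d0 t).mp h')
      · exact mem_union_right _ (by simpa [B2, h'] using ht)
    have := (card_le_card a3).trans (card_union_le _ _)
    change #{t | D t % h = 0} ≤ _
    omega

end Cl

open Cl in
theorem clean : CleanStmt := by
  intro K
  refine ⟨(1 + 2 * K + 2 * (5 * K * (5 * K))) * (5 * K), ?_⟩
  intro S V _ lb L Γ c0 g T _ _ M B hg h3 hc hB hK hT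
  classical
  obtain ⟨e, h, he⟩ := exists_seg M h3 hc hB hK hT
  have hs : ∀ t, seg M e t ∈ ({t | e t = 0} : Finset T) := fun t => by
    have := h.e_pow t _ le_rfl
    simpa [seg] using this
  have hle : 5 * K ≤ (1 + 2 * K + 2 * (5 * K * (5 * K))) * (5 * K) :=
    Nat.le_mul_of_pos_left _ (by omega)
  have a1 : ∀ v, #{t : T | Γ.hd (M.d t) = v} ≤ 5 * K := fun v =>
    (card_le_card_of_injOn (seg M e) (fun t _ => hs t) fun t ht t' ht' hh =>
      h.hd_inj hg hh (by simp at ht ht'; rw [ht, ht'])).trans he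
  have a2 : ∀ v, #{t : T | (M.d t).1 = v} ≤ 5 * K := fun v =>
    (card_le_card_of_injOn (seg M e) (fun t _ => hs t) fun t ht t' ht' hh =>
      h.tl_inj hg hh (by simp at ht ht'; rw [ht, ht'])).trans he
  let X : Finset T := {t | ∃ t', Γ.hd (M.d t) = Γ.hd (M.d t') ∧ ¬ Mt M t t'}
  have hw : ∀ t, ∃ t', t ∈ X → Γ.hd (M.d t) = Γ.hd (M.d t') ∧ ¬ Mt M t t' := by
    intro t
    by_cases ht : t ∈ X
    · obtain ⟨t', h'⟩ := (mem_filter.mp ht).2
      exact ⟨t', fun _ => h'⟩
    · exact ⟨t, fun h' => absurd h' ht⟩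
  choose w hw using hw
  have a3 : #X ≤ 2 * (5 * K * (5 * K)) := by
    refine (card_le_mul_card_image_of_maps_to (f := fun t => (seg M e t, seg M e (w t)))
      (t := ({t | e t = 0} : Finset T) ×ˢ ({t | e t = 0} : Finset T))
      (fun t _ => mem_product.mpr ⟨hs _, hs _⟩) 2 fun b _ => ?_).trans ?_
    · by_contra hlt
      obtain ⟨x, y, z, hx, hy, hz, hxy, hxz, hyz⟩ := two_lt_card_iff.mp (not_le.mp hlt)
      have key : ∀ x y z, x ∈ X.filter (fun t => (seg M e t, seg M e (w t)) = b) →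
          y ∈ X.filter (fun t => (seg M e t, seg M e (w t)) = b) →
          z ∈ X.filter (fun t => (seg M e t, seg M e (w t)) = b) → e y < e x → e z < e y →
          False := by
        intro x y z hx hy hz e1 e2
        rw [mem_filter] at hx hy hz
        have b1 := Prod.ext_iff.mp (hx.2.trans hy.2.symm)
        have b2 := Prod.ext_iff.mp (hx.2.trans hz.2.symm)
        exact (hw y hy.1).2 (h.mid hg b1.1 b2.1 b1.2 b2.2 e1 e2 (hw x hx.1).1 (hw y hy.1).1
          (hw z hz.1).1)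
      have ne : ∀ x y, x ∈ X.filter (fun t => (seg M e t, seg M e (w t)) = b) →
          y ∈ X.filter (fun t => (seg M e t, seg M e (w t)) = b) → x ≠ y → e x ≠ e y := by
        intro x y hx hy hne heq
        rw [mem_filter] at hx hy
        have := of_seg (Prod.ext_iff.mp (hx.2.trans hy.2.symm)).1 heq.ge
        rw [heq, Nat.sub_self] at this
        exact hne this.symm
      have n1 := ne x y hx hy hxy
      have n2 := ne x z hx hz hxz
      have n3 := ne y z hy hz hyz
      have : (e y < e x ∧ e z < e y) ∨ (e z < e x ∧ e y < e z) ∨ (e x < e y ∧ e z < e x) ∨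
        (e z < e y ∧ e x < e z) ∨ (e x < e z ∧ e y < e x) ∨ (e y < e z ∧ e x < e y) := by omega
      rcases this with h' | h' | h' | h' | h' | h'
      exacts [key x y z hx hy hz h'.1 h'.2, key x z y hx hz hy h'.1 h'.2,
        key y x z hy hx hz h'.1 h'.2, key y z x hy hz hx h'.1 h'.2,
        key z x y hz hx hy h'.1 h'.2, key z y x hz hy hx h'.1 h'.2]
    · rw [card_product]
      exact Nat.mul_le_mul_left _ (Nat.mul_le_mul he he)
  let W : Finset V := insert c0 (((B.image fun t => Γ.hd (M.d t)) ∪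
    B.image fun t => (M.d (M.φ t)).1) ∪ X.image fun t => Γ.hd (M.d t))
  have a4 : #W ≤ 1 + 2 * K + 2 * (5 * K * (5 * K)) := by
    have b1 := card_insert_le c0 (((B.image fun t => Γ.hd (M.d t)) ∪
      B.image fun t => (M.d (M.φ t)).1) ∪ X.image fun t => Γ.hd (M.d t))
    have b2 := card_union_le ((B.image fun t => Γ.hd (M.d t)) ∪ B.image fun t => (M.d (M.φ t)).1)
      (X.image fun t => Γ.hd (M.d t))
    have b3 := card_union_le (B.image fun t => Γ.hd (M.d t)) (B.image fun t => (M.d (M.φ t)).1)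
    have b4 := card_image_le (s := B) (f := fun t => Γ.hd (M.d t))
    have b5 := card_image_le (s := B) (f := fun t => (M.d (M.φ t)).1)
    have b6 := card_image_le (s := X) (f := fun t => Γ.hd (M.d t))
    change #W ≤ _ at b1
    omega
  refine ⟨fun v => (a1 v).trans hle, fun v => (a2 v).trans hle,
    W.biUnion fun v => {t | Γ.hd (M.d t) = v},
    (card_biUnion_le_card_mul _ _ _ fun v _ => a1 v).trans (Nat.mul_le_mul_right _ a4),
    fun t ht => ?_⟩
  have hv : Γ.hd (M.d t) ∉ W := fun h' => ht (mem_biUnion.mpr ⟨_, h', by simp⟩)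
  simp only [W, mem_insert, mem_union, mem_image, not_or, not_exists, not_and] at hv
  obtain ⟨b1, ⟨b2, b3⟩, b4⟩ := hv
  refine ⟨b1, fun u hu hB => b2 u hB hu, fun u hu hB => b3 u hB hu, fun u u' hu hu' => ?_⟩
  by_contra hm
  exact b4 u (mem_filter.mpr ⟨mem_univ _, u', hu.trans hu'.symm, hm⟩) hu

end Crest.Agent.KP
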