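import Mathlib
import Crest.Prelude.Def_ClassifyingComplex
import Crest.Prelude.Def_WordHyperbolic
import Crest.Prelude.Def_GroupRingDet

/-!
# KP: interface for rows 177, 184, 199 (group algebras that are not directly finite)

Plan.  A finite folded labelled graph `Γ` (labels `S` with an involution `op`) gives the triangular
presentation with generators `S⁺ ⊕ V` and relators `v · s = nxt v s`.  For a random `Γ` built on a
projective-plane design the presentation has a linear isoperimetric inequality (`Iso`), hence is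
aspherical, torsion-free and hyperbolic, and `a = Σ_A ± v`, `b = Σ_B ± v⁻¹`, `c = Σ_C ± v` satisfy
`a b = unit`, `c b = 0`, `c ≠ 0` modulo `p`.

Every sub-task is a proposition `…Stmt` below; proof sketches are in the docstrings.
-/

set_option autoImplicit false

namespace Crest.Agent.KP

open Finset
open scoped unitInterval

/-! ## 1. Triangular presentations -/

/-- Generators `X`, relators `a r * b r = c r` for `r : R`. -/
structure TriPres (X R : Type) where
  a : R → X
  b : R → X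
  c : R → X

namespace TriPres

variable {X R : Type} (P : TriPres X R)

def rel (r : R) : FreeGroup X :=
  FreeGroup.of (P.a r) * FreeGroup.of (P.b r) * (FreeGroup.of (P.c r))⁻¹

/-- The presented group. -/
abbrev G : Type := PresentedGroup (Set.range P.rel)

def gen (x : X) : P.G := PresentedGroup.of x

/-- The group element of a letter (`true` = the generator, `false` = its inverse). -/
def lt (y : X × Bool) : P.G := cond y.2 (P.gen y.1) (P.gen y.1)⁻¹

/-- The group element of a word. -/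
def ev (l : List (X × Bool)) : P.G := (l.map P.lt).prod

/-- Derivations of trivial words, recording the 2-chain of relators used. -/
inductive Der : List (X × Bool) → (P.G × R →₀ ℤ) → Prop
  | nil : Der [] 0
  | ins (l₁ l₂ : List (X × Bool)) (x : X) (e : Bool) (m : P.G × R →₀ ℤ) :
      Der (l₁ ++ l₂) m → Der (l₁ ++ (x, e) :: (x, !e) :: l₂) m
  | del (l₁ l₂ : List (X × Bool)) (x : X) (e : Bool) (m : P.G × R →₀ ℤ) :
      Der (l₁ ++ (x, e) :: (x, !e) :: l₂) m → Der (l₁ ++ l₂) m
  | pos (l₁ l₂ : List (X × Bool)) (r : R) (m : P.G × R →₀ ℤ) :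
      Der (l₁ ++ l₂) m →
        Der (l₁ ++ (P.a r, true) :: (P.b r, true) :: (P.c r, false) :: l₂)
          (m + Finsupp.single (P.ev l₁, r) 1)
  | neg (l₁ l₂ : List (X × Bool)) (r : R) (m : P.G × R →₀ ℤ) :
      Der (l₁ ++ l₂) m →
        Der (l₁ ++ (P.c r, true) :: (P.b r, false) :: (P.a r, false) :: l₂)
          (m - Finsupp.single (P.ev l₁, r) 1)

/-- Sum of the 1-cochain `β` (value `β g x` on the Cayley edge `g → g x`) along the path that
starts at `g` and reads the word. -/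
def pathSum {A : Type} [AddCommGroup A] (β : P.G → X → A) : P.G → List (X × Bool) → A
  | _, [] => 0
  | g, (x, true) :: l => β g x + pathSum β (g * P.gen x) l
  | g, (x, false) :: l => -β (g * (P.gen x)⁻¹) x + pathSum β (g * (P.gen x)⁻¹) l

/-- Coboundary of a 1-cochain on the triangle `(g, r)`. -/
def cob {A : Type} [AddCommGroup A] (β : P.G → X → A) (g : P.G) (r : R) : A :=
  β g (P.a r) + β (g * P.gen (P.a r)) (P.b r) - β g (P.c r)

/-- Every 2-cochain of the Cayley complex is a coboundary. -/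
def H2zero : Prop :=
  ∀ (A : Type) [AddCommGroup A] (γ : P.G → R → A), ∃ β : P.G → X → A, ∀ g r, P.cob β g r = γ g r

/-- Linear isoperimetric inequality, in dual form. -/
def LinIso (C : ℝ) : Prop :=
  ∀ β : P.G → X → ℝ, (∀ g r, |P.cob β g r| ≤ 1) →
    ∀ l : List (X × Bool), P.ev l = 1 → |P.pathSum β 1 l| ≤ C * l.length

/-- The `ℓ¹` norm of a 2-chain. -/
def nrm (m : P.G × R →₀ ℤ) : ℕ := m.sum fun _ k => k.natAbs

/-- Linear isoperimetric inequality for derivations. -/
def Iso (C : ℕ) : Prop := ∀ l m, P.Der l m → P.nrm m ≤ C * l.length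

/-! ### Triangle diagrams -/

/-- Reverse of an oriented Cayley edge `(start, letter)`. -/
def revE (e : P.G × X × Bool) : P.G × X × Bool := (e.1 * P.lt e.2, e.2.1, !e.2.2)

/-- The three oriented sides of the triangle of relator `r` with first corner at `g`, read
forwards (`true`) or backwards (`false`).  `triEdge g r false i.rev = revE (triEdge g r true i)`. -/
def triEdge (g : P.G) (r : R) : Bool → Fin 3 → P.G × X × Bool
  | true => ![(g, P.a r, true), (g * P.gen (P.a r), P.b r, true), (g * P.gen (P.c r), P.c r, false)]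
  | false =>
      ![(g, P.c r, true), (g * P.gen (P.c r), P.b r, false), (g * P.gen (P.a r), P.a r, false)]

/-- Oriented Cayley edge of a side: triangle sides as in `triEdge`; the outer side `j` is the
`j`-th edge of the boundary path, reversed. -/
def sideEdge (l : List (X × Bool)) {T : Type} (rl : T → R) (sg : T → Bool) (pot : T → P.G) :
    (T × Fin 3) ⊕ Fin l.length → P.G × X × Bool
  | Sum.inl (t, i) => P.triEdge (pot t) (rl t) (sg t) i
  | Sum.inr j => P.revE (P.ev (l.take j), l[j])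

/-- A triangle diagram with boundary word `l` and triangles `T`. -/
structure TDiag (l : List (X × Bool)) (T : Type) where
  rl : T → R
  sg : T → Bool
  pot : T → P.G
  α : (T × Fin 3) ⊕ Fin l.length → (T × Fin 3) ⊕ Fin l.length
  αα : ∀ s, α (α s) = s
  glue : ∀ s, P.sideEdge l rl sg pot (α s) = P.revE (P.sideEdge l rl sg pot s)

variable {P} in
/-- Planarity (`H¹(·; 𝔽₂) = 0`): every dual cycle `z` is the coboundary of a function `u` on
corners (`u s` is the value at the start corner of the side `s`). -/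
def TDiag.Planar {l : List (X × Bool)} {T : Type} (D : P.TDiag l T) : Prop :=
  ∀ z : (T × Fin 3) ⊕ Fin l.length → ZMod 2, (∀ s, z (D.α s) = z s) →
    (∀ t, z (Sum.inl (t, 0)) + z (Sum.inl (t, 1)) + z (Sum.inl (t, 2)) = 0) →
    ∃ u : (T × Fin 3) ⊕ Fin l.length → ZMod 2,
      (∀ t i, u (Sum.inl (t, i + 1)) = u (Sum.inl (t, i)) + z (Sum.inl (t, i))) ∧
      (∀ s, u (D.α s) = u s + z s) ∧
      (∀ j j' : Fin l.length, j.val = j'.val + 1 → u (Sum.inr j') = u (Sum.inr j) + z (Sum.inr j))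

variable {P} in
/-- No two mirror-image triangles are glued along corresponding sides. -/
def TDiag.Reduced {l : List (X × Bool)} {T : Type} (D : P.TDiag l T) : Prop :=
  ∀ (t t' : T) (i : Fin 3), D.α (Sum.inl (t, i)) = Sum.inl (t', i.rev) →
    D.rl t' = D.rl t → D.sg t' = D.sg t

variable {P} in
/-- The 2-chain of a diagram. -/
noncomputable def TDiag.chain {l : List (X × Bool)} {T : Type} [Fintype T] (D : P.TDiag l T) :
    P.G × R →₀ ℤ :=
  ∑ t, Finsupp.single (D.pot t, D.rl t) (cond (D.sg t) 1 (-1))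

/-! ### Cell structure of the Cayley complex -/

/-- `Y` is the Cayley 2-complex of `P`: vertices `v g`, edges `ε g x`, and squares `χ g r` whose
left side is collapsed, with the gluing property for maps out of `Y`. -/
structure CayleyCells (Y : Type) [TopologicalSpace Y] where
  v : P.G → Y
  ε : P.G → X → C(I, Y)
  χ : P.G → R → C(I × I, Y)
  ε0 : ∀ g x, ε g x 0 = v g
  ε1 : ∀ g x, ε g x 1 = v (g * P.gen x)
  χl : ∀ g r t, χ g r (0, t) = v g
  χb : ∀ g r s, χ g r (s, 0) = ε g (P.a r) s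
  χr : ∀ g r t, χ g r (1, t) = ε (g * P.gen (P.a r)) (P.b r) t
  χt : ∀ g r s, χ g r (s, 1) = ε g (P.c r) s
  cover : ∀ y : Y, (∃ g, y = v g) ∨ (∃ g x s, y = ε g x s) ∨ (∃ g r q, y = χ g r q)
  glue : ∀ (Z : Type) [TopologicalSpace Z] (z0 : P.G → Z) (z1 : P.G → X → C(I, Z))
    (z2 : P.G → R → C(I × I, Z)),
    (∀ g x, z1 g x 0 = z0 g) → (∀ g x, z1 g x 1 = z0 (g * P.gen x)) →
    (∀ g r t, z2 g r (0, t) = z0 g) → (∀ g r s, z2 g r (s, 0) = z1 g (P.a r) s) →
    (∀ g r t, z2 g r (1, t) = z1 (g * P.gen (P.a r)) (P.b r) t) →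
    (∀ g r s, z2 g r (s, 1) = z1 g (P.c r) s) →
    ∃ F : C(Y, Z), (∀ g, F (v g) = z0 g) ∧ (∀ g x s, F (ε g x s) = z1 g x s) ∧
      ∀ g r q, F (χ g r q) = z2 g r q

end TriPres

/-! ## 2. Labelled graphs and rim maps -/

/-- Labels with a fixed-point-free involution and a choice of positive labels. -/
structure Lab (S : Type) where
  op : S → S
  op_op : ∀ s, op (op s) = s
  pos : S → Bool
  pos_op : ∀ s, pos (op s) = !pos s

/-- A folded labelled graph: vertex `v` has one dart for each label in `L v`. -/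
structure LGraph {S V : Type} (lb : Lab S) (L : V → Finset S) where
  nxt : V → S → V
  mem : ∀ v s, s ∈ L v → lb.op s ∈ L (nxt v s)
  inv : ∀ v s, s ∈ L v → nxt (nxt v s) (lb.op s) = v

namespace LGraph

variable {S V : Type} {lb : Lab S} {L : V → Finset S} (Γ : LGraph lb L)

/-- Head of a dart. -/
def hd (d : V × S) : V := Γ.nxt d.1 d.2

/-- Reverse of a dart. -/
def rev (d : V × S) : V × S := (Γ.nxt d.1 d.2, lb.op d.2)

/-- `p 0, …, p (k-1)` is a non-backtracking path. -/
def IsPath (k : ℕ) (p : ℕ → V × S) : Prop :=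
  (∀ i, i < k → (p i).2 ∈ L (p i).1) ∧
    ∀ i, i + 1 < k → (p (i + 1)).1 = Γ.hd (p i) ∧ p (i + 1) ≠ Γ.rev (p i)

/-- No non-backtracking path of positive length `< g` is closed. -/
def Girth (g : ℕ) : Prop :=
  ∀ k p, 0 < k → k < g → Γ.IsPath k p → Γ.hd (p (k - 1)) ≠ (p 0).1

/-- The triangular presentation of `Γ`: generators are positive labels and vertices; each
positive dart `(v, s)` gives the relator `v * s = nxt v s`. -/
def pres : TriPres ({s : S // lb.pos s = true} ⊕ V)
    {d : V × S // d.2 ∈ L d.1 ∧ lb.pos d.2 = true} where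
  a r := Sum.inr r.1.1
  b r := Sum.inl ⟨r.1.2, r.2.2⟩
  c r := Sum.inr (Γ.nxt r.1.1 r.1.2)

end LGraph

/-- Planarity of a combinatorial map with sides `T`, face permutation `φ` (links at `cut` are not
genuine), gluing involution `α` (fixed points are unglued sides). -/
def PlanarC {T : Type} (φ : Equiv.Perm T) (α : T → T) (cut : Finset T) : Prop :=
  ∀ z y : T → ZMod 2, (∀ t, z (α t) = z t) → (∀ t, α t = t → z t = 0) →
    (∀ t, y (φ t) = y t + z t) → (∀ t ∈ cut, y (φ t) = 0) →
    ∃ u : T → ZMod 2, (∀ t, t ∉ cut → u (φ t) = u t + z t) ∧ ∀ t, u (α t) = u t + z t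

/-- The link `t → φ t` is regular: not cut, and either both sides are unglued or both are glued,
in parallel, to an uncut link. -/
def Reg {T : Type} (φ : Equiv.Perm T) (α : T → T) (cut : Finset T) (t : T) : Prop :=
  t ∉ cut ∧ ((α t = t ∧ α (φ t) = φ t) ∨
    (α t ≠ t ∧ α (φ t) ≠ φ t ∧ φ (α (φ t)) = α t ∧ α (φ t) ∉ cut))

/-- A reduced map over `Γ`: sides carry darts of `Γ`, uncut links are non-backtracking links of
`Γ`, glued sides carry inverse labels but are not reverse darts. -/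
structure RMap {S V : Type} {lb : Lab S} {L : V → Finset S} (Γ : LGraph lb L) (T : Type) where
  φ : Equiv.Perm T
  α : T → T
  αα : ∀ t, α (α t) = t
  d : T → V × S
  valid : ∀ t, (d t).2 ∈ L (d t).1
  cut : Finset T
  link : ∀ t, t ∉ cut → (d (φ t)).1 = Γ.hd (d t) ∧ d (φ t) ≠ Γ.rev (d t)
  glue : ∀ t, α t ≠ t → (d (α t)).2 = lb.op (d t).2 ∧ d (α t) ≠ Γ.rev (d t)

/-- The local property of the random graph: large girth, and small maps with few irregular links
and few unrooted cuts have a definite proportion of unglued sides. -/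
def Good {S V : Type} [DecidableEq V] {lb : Lab S} {L : V → Finset S} (Γ : LGraph lb L) (c0 : V)
    (g Λ K : ℕ) (c : ℝ) : Prop :=
  Γ.Girth g ∧ ∀ (T : Type) [Fintype T] [DecidableEq T] (M : RMap Γ T) (B : Finset T),
    (∀ t, t ∉ B → Reg M.φ M.α M.cut t) → (∀ t, ∃ k : ℕ, (M.φ ^ k) t ∈ B) → #B ≤ K →
    g ≤ Fintype.card T → Fintype.card T ≤ K * g →
    Λ * g * #{t ∈ M.cut | (M.d (M.φ t)).1 ≠ c0} ≤ Fintype.card T →
    c * Fintype.card T ≤ #{t : T | M.α t = t}

/-- A vertex of `Γ` is clean for the map `M` (with exceptional links `B`): it is not `c0`, no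
link at it is exceptional, and all visits use the same pair of darts. -/
def Clean {S V T : Type} {lb : Lab S} {L : V → Finset S} {Γ : LGraph lb L} (M : RMap Γ T)
    (B : Finset T) (c0 v : V) : Prop :=
  v ≠ c0 ∧ (∀ t, Γ.hd (M.d t) = v → t ∉ B) ∧ (∀ t, (M.d (M.φ t)).1 = v → t ∉ B) ∧
    ∀ t t', Γ.hd (M.d t) = v → Γ.hd (M.d t') = v →
      (M.d t' = M.d t ∧ M.d (M.φ t') = M.d (M.φ t)) ∨
      (M.d t' = Γ.rev (M.d (M.φ t)) ∧ M.d (M.φ t') = Γ.rev (M.d t))

/-- `H` has a `K_h` minor. -/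
def HasKMinor {J : Type} (H : SimpleGraph J) (h : ℕ) : Prop :=
  ∃ B : Fin h → Set J, (∀ i, (H.induce (B i)).Connected) ∧
    (∀ i j, i ≠ j → Disjoint (B i) (B j)) ∧
    ∀ i j, i ≠ j → ∃ a ∈ B i, ∃ b ∈ B j, H.Adj a b

/-- The dual graph of a map: faces `a ≠ b` are adjacent when a side of one is glued to a side of
the other. -/
def dualGraph {T J : Type} (α : T → T) (f : T → J) : SimpleGraph J :=
  SimpleGraph.fromRel fun a b => ∃ t, f t = a ∧ f (α t) = b

/-! ## 3. Designs, frames, populations -/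

/-- A projective plane of order `q` with two disjoint sets meeting every line in `≡ 1 (mod p)`
points, such that the three parts have odd size at least three. -/
structure Plane (p q : ℕ) (Pt Ln : Type) [Fintype Pt] [DecidableEq Pt] [Fintype Ln] where
  on : Ln → Finset Pt
  X : Finset Pt
  Y : Finset Pt
  card_on : ∀ l, #(on l) = q + 1
  card_thru : ∀ x, #{l : Ln | x ∈ on l} = q + 1
  join : ∀ x y, x ≠ y → #{l : Ln | x ∈ on l ∧ y ∈ on l} = 1
  meet : ∀ l l', l ≠ l' → #(on l ∩ on l') = 1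
  disj : Disjoint X Y
  X_meet : ∀ l, (#(X ∩ on l) : ZMod p) = 1
  Y_meet : ∀ l, (#(Y ∩ on l) : ZMod p) = 1
  X_odd : Odd #X
  Y_odd : Odd #Y
  Z_odd : Odd #(univ \ (X ∪ Y))
  X_big : 3 ≤ #X
  Y_big : 3 ≤ #Y
  Z_big : 3 ≤ #(univ \ (X ∪ Y))

/-- Two weighted families of label sets (`false`: for the parts A and C, `true`: for B), two special
sets, and the subcriticality inequality. -/
structure Design (p : ℕ) (S ι : Type) [Fintype S] [DecidableEq S] [Fintype ι] (lb : Lab S) where
  blk : Bool → ι → Finset S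
  wt : Bool → ι → ℕ
  sp : Bool → Finset S
  ψ : Bool → S → ℝ
  ne : Nonempty S
  inter : ∀ i j, (#(blk false i ∩ blk true j) : ZMod p) = 1
  inter_x : ∀ j, (#(sp false ∩ blk true j) : ZMod p) = 1
  inter_y : ∀ i, (#(blk false i ∩ sp true) : ZMod p) = 1
  disj : Disjoint (sp false) (sp true)
  sp_op : ∀ e s, s ∈ sp e → lb.op s ∈ sp e
  f1_pos : ∀ e s, 0 < ∑ i with s ∈ blk e i, wt e i
  f1_op : ∀ e s, ∑ i with lb.op s ∈ blk e i, wt e i = ∑ i with s ∈ blk e i, wt e i
  f2_pos : ∀ e x y, x ∈ sp e → y ∈ sp e → 0 < ∑ i with x ∈ blk e i ∧ y ∈ blk e i, wt e i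
  ψ_pos : ∀ e s, 0 < ψ e s
  sub : ∀ e x, ∑ y ∈ univ.erase x,
    (((∑ i with x ∈ blk e i ∧ y ∈ blk e i, wt e i : ℕ) : ℝ) /
      ((∑ i with x ∈ blk e i, wt e i : ℕ) : ℝ)) ^ 2 * ψ e (lb.op y) < ψ e x

/-- Colours with transitions, and frequencies depending on the class of the colour. -/
structure Frame (S Col Cl : Type) [Fintype S] [DecidableEq S] (lb : Lab S) where
  tr : Col → S → Col
  tr_tr : ∀ κ s, tr (tr κ s) (lb.op s) = κ
  cls : Col → Cl
  cls_tr : ∀ κ s, cls (tr κ s) = cls κ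
  F1 : Cl → S → ℝ
  F2 : Cl → S → S → ℝ
  ψ : Cl → S → ℝ
  F1_pos : ∀ c s, 0 < F1 c s
  F1_op : ∀ c s, F1 c (lb.op s) = F1 c s
  F2_nonneg : ∀ c x y, 0 ≤ F2 c x y
  F2_symm : ∀ c x y, F2 c x y = F2 c y x
  ψ_pos : ∀ c s, 0 < ψ c s
  sub : ∀ c x, ∑ y ∈ univ.erase x, (F2 c x y / F1 c x) ^ 2 * ψ c (lb.op y) < ψ c x

/-- Number of vertices of colour `κ` having the label `s`. -/
def N1 {S V Col : Type} [Fintype V] [DecidableEq S] [DecidableEq Col] (L : V → Finset S)
    (col : V → Col) (κ : Col) (s : S) : ℕ :=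
  #{v : V | col v = κ ∧ s ∈ L v}

/-- Number of vertices of colour `κ` having both labels. -/
def N2 {S V Col : Type} [Fintype V] [DecidableEq S] [DecidableEq Col] (L : V → Finset S)
    (col : V → Col) (κ : Col) (x y : S) : ℕ :=
  #{v : V | col v = κ ∧ x ∈ L v ∧ y ∈ L v}

/-- A population of vertices at scale `n`. -/
structure Pop {S Col Cl : Type} [Fintype S] [DecidableEq S] [DecidableEq Col] {lb : Lab S}
    (Fr : Frame S Col Cl lb) (n : ℕ) {V : Type} [Fintype V] (L : V → Finset S) (col : V → Col) :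
    Prop where
  bal : ∀ κ s, N1 L col κ s = N1 L col (Fr.tr κ s) (lb.op s)
  low : ∀ κ s, n * Fr.F1 (Fr.cls κ) s ≤ N1 L col κ s
  up : ∀ κ x y, x ≠ y → (N2 L col κ x y : ℝ) ≤ (n + 1) * Fr.F2 (Fr.cls κ) x y

/-- What the design part delivers for the prime `p`.  Classes: `0` = A, `1` = B, `2` = C. -/
def DesFor (p : ℕ) : Prop :=
  ∃ (S : Type) (_ : Fintype S) (_ : DecidableEq S) (lb : Lab S)
    (Fr : Frame S (Fin 3 × Bool) (Fin 3) lb) (C0 : ℕ),
    Nonempty S ∧ (∀ κ, Fr.cls κ = κ.1) ∧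
    (∀ κ κ' s, κ.1 ≠ 1 → κ'.1 = 1 →
      xor (Fr.tr κ s).2 (Fr.tr κ' s).2 = !(xor κ.2 κ'.2)) ∧
    ∀ n, 1 ≤ n → ∃ (V : Type) (_ : Fintype V) (_ : DecidableEq V) (L : V → Finset S)
      (col : V → Fin 3 × Bool) (a0 b0 c0 : V),
      Pop Fr n L col ∧ Fintype.card V ≤ C0 * n ∧
      (col a0).1 = 0 ∧ (col b0).1 = 1 ∧ (col c0).1 = 2 ∧ Disjoint (L a0) (L b0) ∧
      ∀ u v, (col u).1 ≠ 1 → (col v).1 = 1 → (u, v) ≠ (a0, b0) → (#(L u ∩ L v) : ZMod p) = 1

/-- Sum of the identity coefficients of the diagonal entries. -/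
noncomputable def tr1 {G : Type} [Group G] {n : ℕ}
    (Y : Matrix (Fin n) (Fin n) (MonoidAlgebra ℚ G)) : ℚ :=
  ∑ i, (Y i i).coeff 1

/-- `A (1 + Z)` is a product of unipotent matrices of trace `n`, where `Z² = λ Z`, `λ ≥ 0`, and `Z`
has positive trace. -/
def DetData {G : Type} [Group G] {n : ℕ} (A : Matrix (Fin n) (Fin n) (MonoidAlgebra ℤ G)) : Prop :=
  ∃ (Z : Matrix (Fin n) (Fin n) (MonoidAlgebra ℚ G)) (lam : ℚ)
    (l : List (Matrix (Fin n) (Fin n) (MonoidAlgebra ℚ G))),
    0 ≤ lam ∧ Z * Z = lam • Z ∧ 0 < tr1 Z ∧ (∀ N ∈ l, N * N = 0 ∧ tr1 N = 0) ∧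
    A.map (MonoidAlgebra.mapRingHom G (Int.castRingHom ℚ)) * (1 + Z) = (l.map fun N => 1 + N).prod

end Crest.Agent.KP
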