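import Crest.Agent.KP.Stmts

/-!
# KP, DESIGN: weighted line families on a projective plane with three split points
-/

set_option autoImplicit false
set_option linter.unusedSectionVars false

namespace Crest.Agent.KP

open Finset

namespace Des

section plane

variable {p q : ℕ} {Pt Ln : Type} [Fintype Pt] [DecidableEq Pt] [Fintype Ln] (P : Plane p q Pt Ln)

lemma exists_line {x y : Pt} (h : x ≠ y) : ∃ l, ({l : Ln | x ∈ P.on l ∧ y ∈ P.on l} : Finset Ln) = {l} :=
  card_eq_one.1 (P.join x y h)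

lemma exists_line' (x y : Pt) : ∃ l, x ∈ P.on l ∧ y ∈ P.on l := by
  by_cases h : x = y
  · subst h
    have : 0 < #{l : Ln | x ∈ P.on l} := by rw [P.card_thru]; omega
    obtain ⟨l, hl⟩ := card_pos.1 this
    exact ⟨l, (mem_filter.1 hl).2, (mem_filter.1 hl).2⟩
  · obtain ⟨l, hl⟩ := exists_line P h
    have : l ∈ ({l : Ln | x ∈ P.on l ∧ y ∈ P.on l} : Finset Ln) := by rw [hl]; simp
    exact ⟨l, (mem_filter.1 this).2⟩

/-- Fubini over the pencil through `x`. -/
lemma pencil {M : Type} [AddCommMonoid M] (x : Pt) (G : Ln → Pt → M) :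
    ∑ y ∈ univ.erase x, ∑ l with x ∈ P.on l ∧ y ∈ P.on l, G l y =
      ∑ l with x ∈ P.on l, ∑ y ∈ (P.on l).erase x, G l y := by
  apply sum_comm'
  intro y l
  simp only [mem_erase, mem_univ, mem_filter, true_and, and_true]
  tauto

lemma pencil_const {M : Type} [AddCommMonoid M] (x : Pt) (h : Pt → M) :
    ∑ l with x ∈ P.on l, ∑ y ∈ (P.on l).erase x, h y = ∑ y ∈ univ.erase x, h y := by
  rw [← pencil P x fun _ y => h y]
  refine sum_congr rfl fun y hy => ?_
  obtain ⟨l, hl⟩ := exists_line P (ne_of_mem_erase hy).symm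
  rw [hl, sum_singleton]

/-- The weight of a line. -/
def w {M : Type} [CommRing M] (δ : Pt → M) (l : Ln) : M :=
  5 * q + (q + 1) * ∑ y ∈ P.on l, δ y - ∑ y, δ y

lemma w_eq {M : Type} [CommRing M] (δ : Pt → M) {l : Ln} {x : Pt} (h : x ∈ P.on l) :
    w P δ l = q * (5 + δ x) + ((q + 1) * ∑ y ∈ (P.on l).erase x, δ y - ∑ y ∈ univ.erase x, δ y) := by
  rw [w, ← add_sum_erase _ _ h, ← add_sum_erase _ _ (mem_univ x)]; ring

lemma sum_dev {M : Type} [CommRing M] (δ : Pt → M) (x : Pt) :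
    ∑ l with x ∈ P.on l, ((q + 1 : M) * ∑ y ∈ (P.on l).erase x, δ y - ∑ y ∈ univ.erase x, δ y) = 0 := by
  rw [sum_sub_distrib, ← mul_sum, pencil_const, sum_const, P.card_thru]
  simp

lemma sum_w {M : Type} [CommRing M] (δ : Pt → M) (x : Pt) :
    ∑ l with x ∈ P.on l, w P δ l = q * (q + 1) * (5 + δ x) := by
  rw [sum_congr rfl fun l hl => w_eq P δ (mem_filter.1 hl).2, sum_add_distrib, sum_dev, sum_const,
    P.card_thru]
  simp; ring

lemma sum_w_sq (δ : Pt → ℝ) (x : Pt) :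
    ∑ l with x ∈ P.on l, w P δ l ^ 2 ≤ (q + 1) * (q * (5 + δ x)) ^ 2 +
      (q + 1) ^ 2 * ∑ l with x ∈ P.on l, (∑ y ∈ (P.on l).erase x, δ y) ^ 2 := by
  set s := ∑ y ∈ univ.erase x, δ y with hs
  have h1 : ∀ l ∈ ({l : Ln | x ∈ P.on l} : Finset Ln), w P δ l ^ 2 =
      (q * (5 + δ x)) ^ 2 + (2 * (q * (5 + δ x)) - 2 * s) *
        ((q + 1) * ∑ y ∈ (P.on l).erase x, δ y - s) +
        (q + 1) ^ 2 * (∑ y ∈ (P.on l).erase x, δ y) ^ 2 - s ^ 2 := by
    intro l hl
    rw [w_eq P δ (mem_filter.1 hl).2]; ring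
  rw [sum_congr rfl h1, sum_sub_distrib, sum_add_distrib, sum_add_distrib, ← mul_sum, ← mul_sum,
    sum_dev, sum_const, sum_const, P.card_thru]
  simp only [nsmul_eq_mul, mul_zero, add_zero]
  push_cast
  have : (0 : ℝ) ≤ (q + 1) * s ^ 2 := by positivity
  linarith

/-- The cross terms on a line. -/
noncomputable def cr (δ : Pt → ℝ) (l : Ln) : ℝ :=
  ∑ y ∈ P.on l, ∑ z ∈ (P.on l).erase y, |δ y| * |δ z|

lemma cr_nonneg (δ : Pt → ℝ) (l : Ln) : 0 ≤ cr P δ l :=
  sum_nonneg fun _ _ => sum_nonneg fun _ _ => by positivity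

lemma sq_le_cr (δ : Pt → ℝ) (l : Ln) (x : Pt) :
    (∑ y ∈ (P.on l).erase x, δ y) ^ 2 ≤ ∑ y ∈ (P.on l).erase x, δ y ^ 2 + cr P δ l := by
  set A := (P.on l).erase x
  have hA : A ⊆ P.on l := erase_subset _ _
  calc (∑ y ∈ A, δ y) ^ 2 = ∑ y ∈ A, (δ y ^ 2 + ∑ z ∈ A.erase y, δ y * δ z) := by
        rw [sq, sum_mul_sum]
        refine sum_congr rfl fun y hy => ?_
        rw [← add_sum_erase _ _ hy, sq]
    _ ≤ ∑ y ∈ A, (δ y ^ 2 + ∑ z ∈ (P.on l).erase y, |δ y| * |δ z|) := by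
        refine sum_le_sum fun y _ => add_le_add le_rfl ?_
        calc ∑ z ∈ A.erase y, δ y * δ z ≤ ∑ z ∈ A.erase y, |δ y| * |δ z| :=
              sum_le_sum fun z _ => by rw [← abs_mul]; exact le_abs_self _
          _ ≤ _ := sum_le_sum_of_subset_of_nonneg (erase_subset_erase _ hA)
              fun _ _ _ => by positivity
    _ ≤ _ := by
        rw [sum_add_distrib]
        refine add_le_add le_rfl (sum_le_sum_of_subset_of_nonneg hA fun _ _ _ => ?_)
        exact sum_nonneg fun _ _ => by positivity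

lemma sum_cr (δ : Pt → ℝ) : ∑ l, cr P δ l ≤ (∑ y, |δ y|) ^ 2 := by
  have h1 : ∑ l, cr P δ l =
      ∑ y, ∑ l with y ∈ P.on l, ∑ z ∈ (P.on l).erase y, |δ y| * |δ z| := by
    unfold cr
    apply sum_comm'
    intro l y
    simp
  rw [h1, sq, sum_mul_sum]
  refine sum_le_sum fun y _ => ?_
  rw [pencil_const P y fun z => |δ y| * |δ z|]
  exact sum_le_sum_of_subset_of_nonneg (erase_subset _ _) fun _ _ _ => by positivity

lemma sum_pencil_cr (δ : Pt → ℝ) :
    ∑ x, ∑ l with x ∈ P.on l, cr P δ l = (q + 1) * ∑ l, cr P δ l := by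
  have : ∑ x, ∑ l with x ∈ P.on l, cr P δ l = ∑ l, ∑ _x ∈ P.on l, cr P δ l := by
    apply sum_comm'
    intro x l
    simp
  rw [this, mul_sum]
  refine sum_congr rfl fun l _ => ?_
  rw [sum_const, P.card_on]; simp

/-- Hypotheses on the perturbation. -/
structure Pert (δ : Pt → ℝ) : Prop where
  abs : ∑ y, |δ y| ≤ 10
  sq : ∑ y, δ y ^ 2 ≤ 22
  neg : ∑ y, max (-δ y) 0 ≤ 4
  val : ∀ y, δ y = 0 ∨ (1 ≤ |δ y| ∧ -1 ≤ δ y)

lemma w_bounds {δ : Pt → ℝ} (h : Pert δ) (hq : 20 ≤ q) (l : Ln) :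
    0 < w P δ l ∧ w P δ l ≤ 16 * q := by
  have hq' : (20 : ℝ) ≤ q := by exact_mod_cast hq
  have h1 : ∑ y ∈ P.on l, δ y ≤ 10 :=
    (sum_le_sum fun y _ => le_abs_self (δ y)).trans
      ((sum_le_sum_of_subset_of_nonneg (subset_univ _) fun _ _ _ => abs_nonneg _).trans h.abs)
  have h2 : -4 ≤ ∑ y ∈ P.on l, δ y := by
    have : ∑ y ∈ P.on l, -δ y ≤ 4 :=
      (sum_le_sum fun y _ => le_max_left (-δ y) 0).trans
        ((sum_le_sum_of_subset_of_nonneg (subset_univ _) fun _ _ _ => le_max_right _ _).trans h.neg)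
    rw [sum_neg_distrib] at this
    linarith
  have h3 : |∑ y, δ y| ≤ 10 := (abs_sum_le_sum_abs _ _).trans h.abs
  have h4 := abs_le.1 h3
  unfold w
  constructor <;> nlinarith

/-- The pair ratio at the level of points. -/
noncomputable def rat (δ : Pt → ℝ) (x y : Pt) : ℝ :=
  (∑ l with x ∈ P.on l ∧ y ∈ P.on l, w P δ l) / (q * (q + 1) * (5 + δ x))

lemma four_le {δ : Pt → ℝ} (h : Pert δ) (x : Pt) : 4 ≤ 5 + δ x := by
  rcases h.val x with h | h <;> linarith [h]

lemma rat_bounds {δ : Pt → ℝ} (h : Pert δ) (hq : 20 ≤ q) {x y : Pt} (hxy : x ≠ y) :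
    0 ≤ rat P δ x y ∧ rat P δ x y ≤ 4 / q := by
  have hq' : (20 : ℝ) ≤ q := by exact_mod_cast hq
  obtain ⟨l, hl⟩ := exists_line P hxy
  have h4 := four_le h x
  obtain ⟨h1, h2⟩ := w_bounds P h hq l
  rw [rat, hl, sum_singleton]
  refine ⟨by positivity, ?_⟩
  rw [div_le_div_iff₀ (by positivity) (by positivity)]
  have : (0 : ℝ) ≤ q * (q + 1) := by positivity
  nlinarith [mul_le_mul_of_nonneg_left h4 this]

lemma main_est {δ : Pt → ℝ} (h : Pert δ) (hq : 20 ≤ q) :
    ∃ η : Pt → ℝ, (∀ x, 0 ≤ η x) ∧ ∑ x, η x ≤ 300 ∧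
      ∀ x, ∑ y ∈ univ.erase x, rat P δ x y ^ 2 ≤ 1 - 1 / (20 * q) + η x := by
  have hq' : (20 : ℝ) ≤ q := by exact_mod_cast hq
  have hE : ∀ x, 0 ≤ ∑ l with x ∈ P.on l, cr P δ l := fun x => sum_nonneg fun l _ => cr_nonneg P δ l
  refine ⟨fun x => (∑ l with x ∈ P.on l, cr P δ l + |δ x|) / q, fun x => by
    have := hE x; positivity, ?_, fun x => ?_⟩
  · rw [← sum_div, sum_add_distrib, sum_pencil_cr, div_le_iff₀ (by positivity)]
    have h1 := sum_cr P δ
    have h2 : (∑ y, |δ y|) ^ 2 ≤ 10 ^ 2 :=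
      pow_le_pow_left₀ (sum_nonneg fun _ _ => abs_nonneg _) h.abs 2
    have h3 := h.abs
    nlinarith
  · set c := 5 + δ x with hc
    set E := ∑ l with x ∈ P.on l, cr P δ l with hEdef
    have hE0 : 0 ≤ E := hE x
    have h4 : 4 ≤ c := four_le h x
    have e1 : ∑ y ∈ univ.erase x, rat P δ x y ^ 2 =
        (q * ∑ l with x ∈ P.on l, w P δ l ^ 2) / (q * (q + 1) * c) ^ 2 := by
      have : ∀ y ∈ univ.erase x, rat P δ x y ^ 2 =
          (∑ l with x ∈ P.on l ∧ y ∈ P.on l, w P δ l ^ 2) / (q * (q + 1) * c) ^ 2 := by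
        intro y hy
        obtain ⟨l, hl⟩ := exists_line P (ne_of_mem_erase hy).symm
        rw [rat, hl, sum_singleton, sum_singleton, div_pow]
      rw [sum_congr rfl this, ← sum_div, pencil P x fun l _ => w P δ l ^ 2, mul_sum]
      congr 1
      refine sum_congr rfl fun l hl => ?_
      rw [sum_const, card_erase_of_mem (mem_filter.1 hl).2, P.card_on]; simp
    have e2 : ∑ l with x ∈ P.on l, (∑ y ∈ (P.on l).erase x, δ y) ^ 2 ≤ 22 + E := by
      refine (sum_le_sum fun l _ => sq_le_cr P δ l x).trans ?_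
      rw [sum_add_distrib, pencil_const P x fun y => δ y ^ 2]
      have : ∑ y ∈ univ.erase x, δ y ^ 2 ≤ 22 :=
        (sum_le_sum_of_subset_of_nonneg (erase_subset _ _) fun _ _ _ => sq_nonneg _).trans h.sq
      linarith
    have e3 := sum_w_sq P δ x
    rw [← hc] at e3
    have e4 : ∑ y ∈ univ.erase x, rat P δ x y ^ 2 ≤ q / (q + 1) + (22 + E) / (q * c ^ 2) := by
      rw [e1, div_le_iff₀ (by positivity)]
      have : (q / (q + 1) + (22 + E) / (q * c ^ 2)) * (q * (q + 1) * c) ^ 2 =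
          q * ((q + 1) * (q * c) ^ 2 + (q + 1) ^ 2 * (22 + E)) := by
        field_simp
      rw [this]
      refine mul_le_mul_of_nonneg_left (e3.trans ?_) (by positivity)
      have : (0 : ℝ) ≤ (q + 1) ^ 2 := by positivity
      nlinarith [mul_le_mul_of_nonneg_left e2 this]
    have e5 : (22 + E) / c ^ 2 ≤ 22 / 25 + (E + |δ x|) := by
      rw [div_le_iff₀ (by positivity)]
      rcases h.val x with h0 | h0
      · have : c = 5 := by rw [hc, h0]; norm_num
        rw [this, h0]; simp; linarith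
      · have : 16 ≤ c ^ 2 := by nlinarith
        nlinarith [h0.1]
    have e6 : (q : ℝ) / (q + 1) + 22 / 25 / q ≤ 1 - 1 / (20 * q) := by
      have : (1 : ℝ) - 1 / (20 * q) - (q / (q + 1) + 22 / 25 / q) =
          (7 * q - 93) / (100 * q * (q + 1)) := by
        field_simp; ring
      have h' : (0 : ℝ) ≤ (7 * q - 93) / (100 * q * (q + 1)) :=
        div_nonneg (by linarith) (by positivity)
      linarith
    have e7 : (22 + E) / (q * c ^ 2) ≤ 22 / 25 / q + (E + |δ x|) / q := by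
      rw [← add_div, mul_comm, ← div_div]
      exact div_le_div_of_nonneg_right e5 (by positivity)
    linarith

end plane

/-- A fixed-point-free involution preserving `f` on a set with even fibres. -/
lemma exists_invol {α β : Type} [DecidableEq α] [DecidableEq β] (f : α → β) (A : Finset α)
    (h : ∀ b, Even #{x ∈ A | f x = b}) :
    ∃ σ : α → α, ∀ x ∈ A, σ x ∈ A ∧ σ x ≠ x ∧ σ (σ x) = x ∧ f (σ x) = f x := by
  induction A using Finset.strongInduction with
  | H A ih =>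
    rcases A.eq_empty_or_nonempty with rfl | ⟨x, hx⟩
    · exact ⟨id, by simp⟩
    have h1 : 1 < #{z ∈ A | f z = f x} := by
      have h0 : 0 < #{z ∈ A | f z = f x} := card_pos.2 ⟨x, by simp [hx]⟩
      obtain ⟨k, hk⟩ := h (f x)
      omega
    obtain ⟨y, hy, hyx⟩ := exists_mem_ne h1 x
    obtain ⟨hyA, hfy⟩ := mem_filter.1 hy
    have hsub : (A.erase x).erase y ⊂ A :=
      (erase_subset _ _).trans_ssubset (erase_ssubset hx)
    obtain ⟨σ, hσ⟩ := ih _ hsub fun b => by
      rw [filter_erase, filter_erase]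
      by_cases hb : f x = b
      · have e1 : x ∈ ({z ∈ A | f z = b} : Finset α) := by simp [hx, hb]
        have e2 : y ∈ ({z ∈ A | f z = b} : Finset α).erase x := by simp [hyx, hyA, hfy, hb]
        rw [card_erase_of_mem e2, card_erase_of_mem e1]
        obtain ⟨k, hk⟩ := h b
        rw [← hb] at hk ⊢
        exact ⟨k - 1, by omega⟩
      · rw [erase_eq_of_notMem (s := {z ∈ A | f z = b}) (by simp [hb]),
          erase_eq_of_notMem (by simp [hfy, hb])]
        exact h b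
    refine ⟨fun z => if z = x then y else if z = y then x else σ z, fun z hz => ?_⟩
    by_cases hzx : z = x
    · subst hzx; simp [hyA, hyx, hfy]
    by_cases hzy : z = y
    · subst hzy; simp [hx, hzx, Ne.symm hzx, hfy]
    obtain ⟨a1, a2, a3, a4⟩ := hσ z (by simp [hzx, hzy, hz])
    simp only [mem_erase] at a1
    simp [hzx, hzy, a1.1, a1.2.1, a1.2.2, a2, a3, a4]

section labels

variable {p q : ℕ} {Pt Ln : Type} [Fintype Pt] [DecidableEq Pt] [Fintype Ln] (P : Plane p q Pt Ln)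

/-- The part of a point. -/
def part (x : Pt) : Fin 3 := if x ∈ P.X then 0 else if x ∈ P.Y then 1 else 2

lemma part_zero (x : Pt) : part P x = 0 ↔ x ∈ P.X := by
  unfold part; split_ifs <;> simp [*]

lemma part_one (x : Pt) : part P x = 1 ↔ x ∈ P.Y := by
  unfold part
  split_ifs with h1 h2
  · simpa using disjoint_left.1 P.disj h1
  · simp [h2]
  · simp [h2]

lemma part_fib (i : Fin 3) : Odd #{x : Pt | part P x = i} ∧ 3 ≤ #{x : Pt | part P x = i} := by
  fin_cases i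
  · have : ({x : Pt | part P x = 0} : Finset Pt) = P.X := by ext x; simp [part_zero]
    exact this ▸ ⟨P.X_odd, P.X_big⟩
  · have : ({x : Pt | part P x = 1} : Finset Pt) = P.Y := by ext x; simp [part_one]
    exact this ▸ ⟨P.Y_odd, P.Y_big⟩
  · have : ({x : Pt | part P x = 2} : Finset Pt) = univ \ (P.X ∪ P.Y) := by
      ext x
      simp only [mem_filter, mem_univ, true_and, mem_sdiff, mem_union]
      unfold part; split_ifs <;> simp [*]
    exact this ▸ ⟨P.Z_odd, P.Z_big⟩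

/-- The nine special points and the involution on labels. -/
structure Setup where
  a : Fin 3 × Fin 3 → Pt
  inj : Function.Injective a
  pa : ∀ ij, part P (a ij) = ij.1
  op : Pt ⊕ Fin 3 → Pt ⊕ Fin 3
  o1 : ∀ i, op (.inr i) = .inl (a (i, 2))
  o2 : ∀ i, op (.inl (a (i, 2))) = .inr i
  o3 : ∀ i, op (.inl (a (i, 0))) = .inl (a (i, 1))
  o4 : ∀ i, op (.inl (a (i, 1))) = .inl (a (i, 0))
  o5 : ∀ x, x ∉ Set.range a → ∃ y, y ∉ Set.range a ∧ y ≠ x ∧ part P y = part P x ∧
    op (.inl x) = .inl y ∧ op (.inl y) = .inl x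

lemma exists_setup : Nonempty (Setup P) := by
  have h1 : ∀ i : Fin 3, Nonempty (Fin 3 ↪ ({x : Pt | part P x = i} : Finset Pt)) := fun i =>
    Function.Embedding.nonempty_of_card_le (by
      rw [Fintype.card_coe, Fintype.card_fin]; exact (part_fib P i).2)
  let e := fun i => (h1 i).some
  let a : Fin 3 × Fin 3 → Pt := fun ij => e ij.1 ij.2
  have pa : ∀ ij, part P (a ij) = ij.1 := fun ij => (mem_filter.1 (e ij.1 ij.2).2).2
  have inj : Function.Injective a := by
    rintro ⟨i, j⟩ ⟨i', j'⟩ h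
    have hi : i = i' := (pa (i, j)).symm.trans (by rw [h, pa (i', j')])
    subst hi
    have : j = j' := (e i).injective (Subtype.ext h)
    rw [this]
  obtain ⟨σ, hσ⟩ := exists_invol (part P) (univ \ univ.image a) fun i => by
    have e1 : ({x ∈ univ \ univ.image a | part P x = i} : Finset Pt) =
        ({x : Pt | part P x = i} : Finset Pt) \ univ.image fun j => a (i, j) := by
      ext x
      simp only [mem_filter, mem_sdiff, mem_univ, true_and, mem_image, not_exists]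
      constructor
      · rintro ⟨h1, h2⟩; exact ⟨h2, fun j => h1 _⟩
      · rintro ⟨h1, h2⟩
        refine ⟨fun ij hij => ?_, h1⟩
        have : ij.1 = i := by rw [← pa ij, hij, h1]
        exact h2 ij.2 (by rw [← this]; exact hij)
    have e2 : (univ.image fun j => a (i, j)) ⊆ ({x : Pt | part P x = i} : Finset Pt) := by
      intro x hx
      obtain ⟨j, _, rfl⟩ := mem_image.1 hx
      simp [pa]
    rw [e1, card_sdiff_of_subset e2,
      card_image_of_injective _ fun j j' h => (Prod.ext_iff.1 (inj h)).2]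
    obtain ⟨⟨k, hk⟩, h3⟩ := part_fib P i
    rw [hk] at h3 ⊢
    exact ⟨k - 1, by simp; omega⟩
  have hmem : ∀ x, x ∈ univ \ univ.image a ↔ x ∉ Set.range a := by
    intro x; simp
  let g1 : Fin 3 × Fin 3 → Pt ⊕ Fin 3 := fun ij =>
    ![.inl (a (ij.1, 1)), .inl (a (ij.1, 0)), .inr ij.1] ij.2
  let g2 : Pt → Pt ⊕ Fin 3 := fun x => .inl (σ x)
  let op : Pt ⊕ Fin 3 → Pt ⊕ Fin 3 := Sum.elim (Function.extend a g1 g2) fun i => .inl (a (i, 2))
  have hop : ∀ x, x ∉ Set.range a → op (.inl x) = .inl (σ x) := fun x hx =>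
    Function.extend_apply' g1 g2 x hx
  refine ⟨⟨a, inj, pa, op, fun i => rfl, fun i => inj.extend_apply g1 g2 (i, 2),
    fun i => inj.extend_apply g1 g2 (i, 0), fun i => inj.extend_apply g1 g2 (i, 1),
    fun x hx => ?_⟩⟩
  obtain ⟨a1, a2, a3, a4⟩ := hσ x ((hmem x).2 hx)
  refine ⟨σ x, (hmem _).1 a1, a2, a4, hop x hx, ?_⟩
  rw [hop _ ((hmem _).1 a1), a3]

namespace Setup

variable {P} (U : Setup P)

/-- The point under a label. -/
def pt : Pt ⊕ Fin 3 → Pt := Sum.elim id fun i => U.a (i, 0)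

@[simp] lemma pt_inl (x : Pt) : U.pt (.inl x) = x := rfl

@[simp] lemma pt_inr (i : Fin 3) : U.pt (.inr i) = U.a (i, 0) := rfl

lemma cases (s : Pt ⊕ Fin 3) : (∃ i, s = .inr i) ∨ (∃ i, s = .inl (U.a (i, 0))) ∨
    (∃ i, s = .inl (U.a (i, 1))) ∨ (∃ i, s = .inl (U.a (i, 2))) ∨
    ∃ x, x ∉ Set.range U.a ∧ s = .inl x := by
  rcases s with x | i
  · by_cases h : x ∈ Set.range U.a
    · obtain ⟨⟨i, j⟩, rfl⟩ := h
      fin_cases j
      · exact Or.inr (Or.inl ⟨i, rfl⟩)
      · exact Or.inr (Or.inr (Or.inl ⟨i, rfl⟩))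
      · exact Or.inr (Or.inr (Or.inr (Or.inl ⟨i, rfl⟩)))
    · exact Or.inr (Or.inr (Or.inr (Or.inr ⟨x, h, rfl⟩)))
  · exact Or.inl ⟨i, rfl⟩

lemma op_op (s : Pt ⊕ Fin 3) : U.op (U.op s) = s := by
  rcases U.cases s with ⟨i, rfl⟩ | ⟨i, rfl⟩ | ⟨i, rfl⟩ | ⟨i, rfl⟩ | ⟨x, hx, rfl⟩
  · rw [U.o1, U.o2]
  · rw [U.o3, U.o4]
  · rw [U.o4, U.o3]
  · rw [U.o2, U.o1]
  · obtain ⟨y, -, -, -, h1, h2⟩ := U.o5 x hx
    rw [h1, h2]

lemma op_ne (s : Pt ⊕ Fin 3) : U.op s ≠ s := by
  rcases U.cases s with ⟨i, rfl⟩ | ⟨i, rfl⟩ | ⟨i, rfl⟩ | ⟨i, rfl⟩ | ⟨x, hx, rfl⟩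
  · rw [U.o1]; simp
  · rw [U.o3]; simp [U.inj.eq_iff]
  · rw [U.o4]; simp [U.inj.eq_iff]
  · rw [U.o2]; simp
  · obtain ⟨y, -, h, -, h1, -⟩ := U.o5 x hx
    rw [h1]; simpa using h

lemma part_op (s : Pt ⊕ Fin 3) : part P (U.pt (U.op s)) = part P (U.pt s) := by
  rcases U.cases s with ⟨i, rfl⟩ | ⟨i, rfl⟩ | ⟨i, rfl⟩ | ⟨i, rfl⟩ | ⟨x, hx, rfl⟩
  · rw [U.o1]; simp [U.pa]
  · rw [U.o3]; simp [U.pa]
  · rw [U.o4]; simp [U.pa]
  · rw [U.o2]; simp [U.pa]
  · obtain ⟨y, -, -, h, h1, -⟩ := U.o5 x hx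
    rw [h1]; simpa using h

lemma op_split {t : Pt ⊕ Fin 3} {i : Fin 3} (h : U.pt t = U.a (i, 0)) (j : Fin 3) :
    U.pt (U.op t) ≠ U.a (j, 0) := by
  rcases t with x | k
  · simp only [pt_inl] at h
    rw [h, U.o3]; simp [U.inj.eq_iff]
  · rw [U.o1]; simp [U.inj.eq_iff]

lemma fibre {s t : Pt ⊕ Fin 3} (h : U.pt t = U.pt s) (hne : t ≠ s) :
    (∃ i, U.pt s = U.a (i, 0)) ∧ t.isRight ≠ s.isRight := by
  rcases s with x | i <;> rcases t with y | j
  · exact absurd (congrArg Sum.inl h) hne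
  · exact ⟨⟨j, h.symm⟩, by simp⟩
  · exact ⟨⟨i, rfl⟩, by simp⟩
  · exact absurd (congrArg Sum.inr (Prod.ext_iff.1 (U.inj h)).1) hne

lemma sum_pt_le (h : Pt → ℝ) (h0 : ∀ x, 0 ≤ h x) : ∑ s, h (U.pt s) ≤ 4 * ∑ x, h x := by
  rw [Fintype.sum_sum_type]
  have : ∀ i, h (U.a (i, 0)) ≤ ∑ x, h x := fun i =>
    single_le_sum (fun x _ => h0 x) (mem_univ _)
  simp only [pt_inl, pt_inr, Fin.sum_univ_three]
  linarith [this 0, this 1, this 2]

/-- The labels, as a `Lab`. -/
noncomputable def lab : Lab (Pt ⊕ Fin 3) where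
  op := U.op
  op_op := U.op_op
  pos s := decide (Fintype.equivFin _ s < Fintype.equivFin _ (U.op s))
  pos_op s := by
    rw [U.op_op]
    have : Fintype.equivFin _ (U.op s) ≠ Fintype.equivFin _ s :=
      fun h => U.op_ne s ((Fintype.equivFin _).injective h)
    rcases lt_or_gt_of_ne this with h | h
    · simp [h, h.le]
    · simp [h, h.le]

end Setup

/-- The split points at which the family `e` chooses one copy. -/
def ch (e : Bool) (i : Fin 3) : Bool := xor e (i == 1)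

/-- The values of the perturbation at the nine special points. -/
def cf (e : Bool) (ij : Fin 3 × Fin 3) : ℤ := if ch e ij.1 then if ij.2 = 0 then 3 else -1 else 0

namespace Setup

variable {P} (U : Setup P)

/-- The perturbation. -/
noncomputable def δ (e : Bool) : Pt → ℤ := Function.extend U.a (cf e) 0

lemma δ_a (e : Bool) (ij : Fin 3 × Fin 3) : U.δ e (U.a ij) = cf e ij := U.inj.extend_apply _ _ _

lemma δ_out (e : Bool) {x : Pt} (h : x ∉ Set.range U.a) : U.δ e x = 0 :=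
  Function.extend_apply' _ _ _ h

lemma sum_δ (e : Bool) (φ : ℤ → ℤ) (h0 : φ 0 = 0) : ∑ x, φ (U.δ e x) = ∑ ij, φ (cf e ij) :=
  (Fintype.sum_of_injective U.a U.inj _ _ (fun x hx => by rw [U.δ_out e hx, h0])
    fun ij => by rw [U.δ_a]).symm

lemma pert (e : Bool) : Pert fun x => (U.δ e x : ℝ) where
  abs := by
    have h := U.sum_δ e (fun z => |z|) abs_zero
    have h2 : ∑ ij, |cf e ij| ≤ 10 := by cases e <;> decide
    have h3 : ∑ x, |U.δ e x| ≤ 10 := h ▸ h2
    exact_mod_cast h3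
  sq := by
    have h := U.sum_δ e (fun z => z ^ 2) (by simp)
    have h2 : ∑ ij, cf e ij ^ 2 ≤ 22 := by cases e <;> decide
    have h3 : ∑ x, U.δ e x ^ 2 ≤ 22 := h ▸ h2
    exact_mod_cast h3
  neg := by
    have h := U.sum_δ e (fun z => max (-z) 0) (by simp)
    have h2 : ∑ ij, max (-cf e ij) 0 ≤ 4 := by cases e <;> decide
    have h3 : ∑ x, max (-U.δ e x) 0 ≤ 4 := h ▸ h2
    exact_mod_cast h3
  val y := by
    have : U.δ e y = 0 ∨ (1 ≤ |U.δ e y| ∧ -1 ≤ U.δ e y) := by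
      by_cases h : y ∈ Set.range U.a
      · obtain ⟨ij, rfl⟩ := h
        rw [U.δ_a]
        revert ij; cases e <;> decide
      · exact Or.inl (U.δ_out e h)
    exact_mod_cast this

/-- The point is split and the family `e` chooses a copy. -/
def cho (e : Bool) (x : Pt) : Prop := ∃ i, ch e i = true ∧ x = U.a (i, 0)

/-- The point is split and the family `e` keeps both copies. -/
def tw (e : Bool) (x : Pt) : Prop := ∃ i, ch e i = false ∧ x = U.a (i, 0)

instance (e : Bool) (x : Pt) : Decidable (U.cho e x) := by unfold cho; infer_instance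

instance (e : Bool) (x : Pt) : Decidable (U.tw e x) := by unfold tw; infer_instance

lemma cho_a (e : Bool) (ij : Fin 3 × Fin 3) : U.cho e (U.a ij) ↔ ch e ij.1 = true ∧ ij.2 = 0 := by
  obtain ⟨i, j⟩ := ij
  simp only [cho, U.inj.eq_iff, Prod.mk.injEq]
  constructor
  · rintro ⟨k, h1, rfl, rfl⟩; exact ⟨h1, rfl⟩
  · rintro ⟨h1, rfl⟩; exact ⟨i, h1, rfl, rfl⟩

lemma cho_out (e : Bool) {x : Pt} (h : x ∉ Set.range U.a) : ¬ U.cho e x := by
  rintro ⟨i, -, rfl⟩; exact h ⟨_, rfl⟩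

/-- The label is kept in a block with bit `b`. -/
def keep (e b : Bool) (s : Pt ⊕ Fin 3) : Prop := U.cho e (U.pt s) → s.isRight = b

instance (e b : Bool) (s : Pt ⊕ Fin 3) : Decidable (U.keep e b s) := by
  unfold keep; infer_instance

lemma card_keep (e : Bool) (s : Pt ⊕ Fin 3) :
    #{b : Bool | U.keep e b s} = if U.cho e (U.pt s) then 1 else 2 := by
  split_ifs with h
  · have : ({b : Bool | U.keep e b s} : Finset Bool) = {s.isRight} := by
      ext b; simp [keep, h, eq_comm]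
    rw [this, card_singleton]
  · have : ({b : Bool | U.keep e b s} : Finset Bool) = univ := by
      ext b; simp [keep, h]
    rw [this]; rfl

lemma val_op (e : Bool) (s : Pt ⊕ Fin 3) :
    (#{b : Bool | U.keep e b (U.op s)} : ℤ) * (5 + U.δ e (U.pt (U.op s))) =
      #{b : Bool | U.keep e b s} * (5 + U.δ e (U.pt s)) := by
  rw [card_keep, card_keep]
  rcases U.cases s with ⟨i, rfl⟩ | ⟨i, rfl⟩ | ⟨i, rfl⟩ | ⟨i, rfl⟩ | ⟨x, hx, rfl⟩
  · rw [U.o1]; simp only [pt_inl, pt_inr, δ_a, cho_a]; revert i; cases e <;> decide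
  · rw [U.o3]; simp only [pt_inl, δ_a, cho_a]; revert i; cases e <;> decide
  · rw [U.o4]; simp only [pt_inl, δ_a, cho_a]; revert i; cases e <;> decide
  · rw [U.o2]; simp only [pt_inl, pt_inr, δ_a, cho_a]; revert i; cases e <;> decide
  · obtain ⟨y, hy, -, -, h1, -⟩ := U.o5 x hx
    rw [h1]
    simp only [pt_inl, U.δ_out e hx, U.δ_out e hy, U.cho_out e hx, U.cho_out e hy]

/-- A set of labels containing exactly one label over each point of `A`. -/
lemma card_section (A : Finset Pt) (κ : Pt ⊕ Fin 3 → Prop) [DecidablePred κ]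
    (h1 : ∀ x ∈ A, (∀ i, x ≠ U.a (i, 0)) → κ (.inl x))
    (h2 : ∀ i, U.a (i, 0) ∈ A → (κ (.inl (U.a (i, 0))) ↔ ¬ κ (.inr i))) :
    #{s : Pt ⊕ Fin 3 | U.pt s ∈ A ∧ κ s} = #A := by
  refine card_bij (fun s _ => U.pt s) (fun s hs => (mem_filter.1 hs).2.1) ?_ ?_
  · intro s hs t ht h
    obtain ⟨-, hsA, hs⟩ := mem_filter.1 hs
    obtain ⟨-, htA, ht⟩ := mem_filter.1 ht
    rcases s with x | i <;> rcases t with y | j
    · exact congrArg Sum.inl h
    · simp only [pt_inl, pt_inr] at h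
      subst h
      exact absurd ht ((h2 j hsA).1 hs)
    · simp only [pt_inl, pt_inr] at h
      subst h
      exact absurd hs ((h2 i htA).1 ht)
    · exact congrArg Sum.inr (Prod.ext_iff.1 (U.inj h)).1
  · intro x hx
    by_cases h : κ (.inl x)
    · exact ⟨.inl x, by simp [hx, h], rfl⟩
    · have : ∃ i, x = U.a (i, 0) := by
        by_contra hc
        push Not at hc
        exact h (h1 x hx hc)
      obtain ⟨i, rfl⟩ := this
      have := (h2 i hx).not.1 h
      exact ⟨.inr i, by simpa [hx] using this, rfl⟩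

/-- The blocks. -/
def blk (e : Bool) (i : Ln × Bool) : Finset (Pt ⊕ Fin 3) :=
  {s | U.pt s ∈ P.on i.1 ∧ U.keep e i.2 s}

/-- The weights. -/
noncomputable def wt (e : Bool) (i : Ln × Bool) : ℕ := (w P (U.δ e) i.1).toNat

/-- The special sets. -/
def sp (e : Bool) : Finset (Pt ⊕ Fin 3) := {s | U.pt s ∈ cond e P.Y P.X}

lemma w_cast (e : Bool) (l : Ln) : ((w P (U.δ e) l : ℤ) : ℝ) = w P (fun x => (U.δ e x : ℝ)) l := by
  unfold w; push_cast; rfl

lemma w_pos (hq : 20 ≤ q) (e : Bool) (l : Ln) : 0 < w P (U.δ e) l := by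
  have := (w_bounds P (U.pert e) hq l).1
  rw [← w_cast] at this
  exact_mod_cast this

lemma wt_cast (hq : 20 ≤ q) (e : Bool) (i : Ln × Bool) : (U.wt e i : ℤ) = w P (U.δ e) i.1 :=
  Int.toNat_of_nonneg (U.w_pos hq e i.1).le

lemma sum_wt (hq : 20 ≤ q) (e : Bool) (A : Ln → Prop) (B : Bool → Prop) [DecidablePred A]
    [DecidablePred B] (C : Ln × Bool → Prop) [DecidablePred C] (h : ∀ i, C i ↔ A i.1 ∧ B i.2) :
    ((∑ i with C i, U.wt e i : ℕ) : ℤ) = #{b : Bool | B b} * ∑ l with A l, w P (U.δ e) l := by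
  have : ({i | C i} : Finset (Ln × Bool)) = ({l | A l} : Finset Ln) ×ˢ ({b | B b} : Finset Bool) := by
    ext i; simp [h]
  rw [this, sum_product]
  push_cast
  rw [mul_sum]
  refine sum_congr rfl fun l _ => ?_
  rw [sum_congr rfl fun b _ => U.wt_cast hq e (l, b)]
  simp

lemma f1_eq (hq : 20 ≤ q) (e : Bool) (s : Pt ⊕ Fin 3) :
    ((∑ i with s ∈ U.blk e i, U.wt e i : ℕ) : ℤ) =
      #{b : Bool | U.keep e b s} * (q * (q + 1) * (5 + U.δ e (U.pt s))) := by
  rw [U.sum_wt hq e (fun l => U.pt s ∈ P.on l) (fun b => U.keep e b s) _ fun i => by simp [blk],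
    sum_w]

lemma f2_eq (hq : 20 ≤ q) (e : Bool) (s t : Pt ⊕ Fin 3) :
    ((∑ i with s ∈ U.blk e i ∧ t ∈ U.blk e i, U.wt e i : ℕ) : ℤ) =
      #{b : Bool | U.keep e b s ∧ U.keep e b t} *
        ∑ l with U.pt s ∈ P.on l ∧ U.pt t ∈ P.on l, w P (U.δ e) l :=
  U.sum_wt hq e (fun l => U.pt s ∈ P.on l ∧ U.pt t ∈ P.on l)
    (fun b => U.keep e b s ∧ U.keep e b t) _ fun i => by simp only [blk, mem_filter, mem_univ]; tauto

lemma f1_pos (hq : 20 ≤ q) (e : Bool) (s : Pt ⊕ Fin 3) :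
    0 < ∑ i with s ∈ U.blk e i, U.wt e i := by
  obtain ⟨l, hl, -⟩ := exists_line' P (U.pt s) (U.pt s)
  refine sum_pos' (fun _ _ => Nat.zero_le _) ⟨(l, s.isRight), by simp [blk, hl, keep], ?_⟩
  have := U.w_pos hq e l
  rw [← U.wt_cast hq e (l, s.isRight)] at this
  exact_mod_cast this

/-- The pair ratio at the level of labels. -/
noncomputable def ρ (e : Bool) (s t : Pt ⊕ Fin 3) : ℝ :=
  ((∑ i with s ∈ U.blk e i ∧ t ∈ U.blk e i, U.wt e i : ℕ) : ℝ) /
    ((∑ i with s ∈ U.blk e i, U.wt e i : ℕ) : ℝ)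

lemma ρ_nonneg (e : Bool) (s t : Pt ⊕ Fin 3) : 0 ≤ U.ρ e s t := by unfold ρ; positivity

lemma ρ_le_one (e : Bool) (s t : Pt ⊕ Fin 3) : U.ρ e s t ≤ 1 := by
  refine div_le_one_of_le₀ ?_ (by positivity)
  refine Nat.cast_le.2 (sum_le_sum_of_subset fun i hi => ?_)
  exact mem_filter.2 ⟨mem_univ _, (mem_filter.1 hi).2.1⟩

lemma ρ_le_rat (hq : 20 ≤ q) (e : Bool) (s t : Pt ⊕ Fin 3) :
    U.ρ e s t ≤ rat P (fun x => (U.δ e x : ℝ)) (U.pt s) (U.pt t) := by
  have h1 := congrArg (Int.cast : ℤ → ℝ) (U.f1_eq hq e s)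
  have h2 := congrArg (Int.cast : ℤ → ℝ) (U.f2_eq hq e s t)
  rw [Int.cast_natCast] at h1 h2
  rw [ρ, h1, h2, rat]
  push_cast
  simp only [w_cast]
  have hq' : (20 : ℝ) ≤ q := by exact_mod_cast hq
  have h4 := four_le (U.pert e) (U.pt s)
  have hN : (#{b : Bool | U.keep e b s ∧ U.keep e b t} : ℝ) ≤ #{b : Bool | U.keep e b s} := by
    refine Nat.cast_le.2 (card_le_card fun i hi => ?_)
    exact mem_filter.2 ⟨mem_univ _, (mem_filter.1 hi).2.1⟩
  have hN0 : (0 : ℝ) < #{b : Bool | U.keep e b s} := by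
    rw [card_keep]; split_ifs <;> norm_num
  have hW : 0 ≤ ∑ l with U.pt s ∈ P.on l ∧ U.pt t ∈ P.on l, w P (fun x => (U.δ e x : ℝ)) l :=
    sum_nonneg fun l _ => (w_bounds P (U.pert e) hq l).1.le
  rw [mul_div_mul_comm]
  exact mul_le_of_le_one_left (div_nonneg hW (by positivity)) (div_le_one_of_le₀ hN hN0.le)

lemma ρ_eq_zero (hq : 20 ≤ q) (e : Bool) {s t : Pt ⊕ Fin 3} (h : U.pt t = U.pt s) (hne : t ≠ s)
    (htw : ¬ U.tw e (U.pt s)) : U.ρ e s t = 0 := by
  obtain ⟨⟨i, hi⟩, hb⟩ := U.fibre h hne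
  have hc : U.cho e (U.pt s) := ⟨i, by
    by_contra hh
    exact htw ⟨i, by simpa using hh, hi⟩, hi⟩
  have h2 := U.f2_eq hq e s t
  have : ({b : Bool | U.keep e b s ∧ U.keep e b t} : Finset Bool) = ∅ := by
    rw [filter_eq_empty_iff]
    rintro b - ⟨h1, h2⟩
    exact hb ((h2 (h ▸ hc)).trans (h1 hc).symm)
  rw [this, card_empty, Nat.cast_zero, zero_mul] at h2
  have h3 : ∑ i with s ∈ U.blk e i ∧ t ∈ U.blk e i, U.wt e i = 0 := by exact_mod_cast h2
  rw [ρ, h3]; simp

lemma sub_est (hq : 10 ^ 7 ≤ q) (e : Bool) : ∃ ψ : Pt ⊕ Fin 3 → ℝ, (∀ s, 0 < ψ s) ∧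
    ∀ s, ∑ t ∈ univ.erase s, U.ρ e s t ^ 2 * ψ (U.op t) < ψ s := by
  have hq20 : 20 ≤ q := le_trans (by norm_num) hq
  have hq' : (10 ^ 7 : ℝ) ≤ q := by exact_mod_cast hq
  obtain ⟨η, η0, ηs, hη⟩ := main_est P (U.pert e) hq20
  set R := rat P fun x => (U.δ e x : ℝ) with hR
  let θ : Pt → ℝ := fun x => η x + if U.tw e x then 1204 else 0
  have θ0 : ∀ x, 0 ≤ θ x := fun x => add_nonneg (η0 x) (by split_ifs <;> norm_num)
  have θs : ∑ x, θ x ≤ 4000 := by
    have h1 : #{x : Pt | U.tw e x} ≤ 3 := by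
      have : ({x : Pt | U.tw e x} : Finset Pt) ⊆ univ.image fun i : Fin 3 => U.a (i, 0) := by
        intro x hx
        obtain ⟨i, -, rfl⟩ := (mem_filter.1 hx).2
        exact mem_image_of_mem _ (mem_univ i)
      exact (card_le_card this).trans (card_image_le.trans (by simp))
    have h2 : (#{x : Pt | U.tw e x} : ℝ) ≤ 3 := by exact_mod_cast h1
    simp only [θ]
    rw [sum_add_distrib, ← sum_filter, sum_const, nsmul_eq_mul]
    linarith
  refine ⟨fun s => 1 + θ (U.pt s), fun s => by have := θ0 (U.pt s); positivity, fun s => ?_⟩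
  set x := U.pt s with hx
  -- pointwise bound
  have key : ∀ t ∈ univ.erase s, U.ρ e s t ^ 2 * (1 + θ (U.pt (U.op t))) ≤
      (if U.pt t = x then 0 else R x (U.pt t) ^ 2) + 16 / q ^ 2 * θ (U.pt (U.op t)) +
        (if U.tw e x then 301 else 0) * (if U.pt t = x then 1 else 0) := by
    intro t ht
    have ht' := ne_of_mem_erase ht
    have h0 := θ0 (U.pt (U.op t))
    have h16 : (0 : ℝ) ≤ 16 / q ^ 2 * θ (U.pt (U.op t)) := by positivity
    by_cases hp : U.pt t = x
    · simp only [hp, if_true, mul_one, zero_add]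
      by_cases htw : U.tw e x
      · simp only [htw, if_true]
        obtain ⟨i, -, hi⟩ := htw
        have h1 : ¬ U.tw e (U.pt (U.op t)) := by
          rintro ⟨j, -, hj⟩
          exact U.op_split (hp.trans hi) j hj
        have h2 : θ (U.pt (U.op t)) ≤ 300 := by
          simp only [θ, h1, if_false, add_zero]
          exact (single_le_sum (fun y _ => η0 y) (mem_univ _)).trans ηs
        have h3 : U.ρ e s t ^ 2 ≤ 1 := pow_le_one₀ (U.ρ_nonneg e s t) (U.ρ_le_one e s t)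
        nlinarith [sq_nonneg (U.ρ e s t)]
      · rw [U.ρ_eq_zero hq20 e hp ht' htw]
        simp only [htw, if_false]
        linarith
    · simp only [hp, if_false, mul_zero, add_zero]
      obtain ⟨r0, r1⟩ := rat_bounds P (U.pert e) hq20 (Ne.symm hp)
      have h1 : U.ρ e s t ^ 2 ≤ R x (U.pt t) ^ 2 :=
        pow_le_pow_left₀ (U.ρ_nonneg e s t) (U.ρ_le_rat hq20 e s t) 2
      have h2 : R x (U.pt t) ^ 2 ≤ 16 / q ^ 2 := by
        have := pow_le_pow_left₀ r0 r1 2
        rw [div_pow] at this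
        norm_num at this ⊢
        exact this
      nlinarith [mul_le_mul_of_nonneg_right (h1.trans h2) h0]
  have s1 : ∑ t, (if U.pt t = x then 0 else R x (U.pt t) ^ 2) ≤
      1 - 1 / (20 * q) + η x + 3 * (16 / q ^ 2) := by
    rw [Fintype.sum_sum_type]
    have a1 : ∑ y, (if y = x then 0 else R x y ^ 2) = ∑ y ∈ univ.erase x, R x y ^ 2 := by
      rw [← add_sum_erase _ _ (mem_univ x), if_pos rfl, zero_add]
      exact sum_congr rfl fun y hy => if_neg (ne_of_mem_erase hy)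
    have a2 : ∀ y, (if y = x then 0 else R x y ^ 2) ≤ 16 / q ^ 2 := by
      intro y
      split_ifs with hy
      · positivity
      · obtain ⟨r0, r1⟩ := rat_bounds P (U.pert e) hq20 (Ne.symm hy)
        have := pow_le_pow_left₀ r0 r1 2
        rw [div_pow] at this
        norm_num at this ⊢
        exact this
    simp only [pt_inl, pt_inr, Fin.sum_univ_three]
    rw [a1]
    linarith [hη x, a2 (U.a (0, 0)), a2 (U.a (1, 0)), a2 (U.a (2, 0))]
  have s2 : ∑ t, θ (U.pt (U.op t)) ≤ 16000 := by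
    have := Equiv.sum_comp (Function.Involutive.toPerm U.op U.op_op) fun t => θ (U.pt t)
    simp only [Function.Involutive.coe_toPerm] at this
    rw [this]
    linarith [U.sum_pt_le θ θ0]
  have s3 : ∑ t, (if U.pt t = x then (1 : ℝ) else 0) ≤ 4 := by
    have := U.sum_pt_le (fun y => if y = x then 1 else 0) fun y => by split_ifs <;> norm_num
    simpa using this
  have hfin : 3 * (16 / (q : ℝ) ^ 2) + 16 / q ^ 2 * 16000 < 1 / (20 * q) := by
    have : 3 * (16 / (q : ℝ) ^ 2) + 16 / q ^ 2 * 16000 = 256048 / q ^ 2 := by ring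
    rw [this, div_lt_div_iff₀ (by positivity) (by positivity)]
    nlinarith
  have hc0 : (0 : ℝ) ≤ if U.tw e x then 301 else 0 := by split_ifs <;> norm_num
  calc ∑ t ∈ univ.erase s, U.ρ e s t ^ 2 * (1 + θ (U.pt (U.op t)))
      ≤ ∑ t, ((if U.pt t = x then 0 else R x (U.pt t) ^ 2) + 16 / q ^ 2 * θ (U.pt (U.op t)) +
        (if U.tw e x then 301 else 0) * (if U.pt t = x then 1 else 0)) := by
        refine (sum_le_sum key).trans (sum_le_sum_of_subset_of_nonneg (erase_subset _ _) ?_)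
        intro t _ _
        have h0 := θ0 (U.pt (U.op t))
        have : (0 : ℝ) ≤ if U.pt t = x then 0 else R x (U.pt t) ^ 2 := by
          split_ifs <;> positivity
        have : (0 : ℝ) ≤ if U.pt t = x then 1 else 0 := by split_ifs <;> norm_num
        positivity
    _ ≤ 1 - 1 / (20 * q) + η x + 3 * (16 / q ^ 2) + 16 / q ^ 2 * 16000 +
        (if U.tw e x then 301 else 0) * 4 := by
        rw [sum_add_distrib, sum_add_distrib, ← mul_sum, ← mul_sum]
        exact add_le_add (add_le_add s1 (mul_le_mul_of_nonneg_left s2 (by positivity)))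
          (mul_le_mul_of_nonneg_left s3 hc0)
    _ < 1 + θ x := by
        simp only [θ]
        split_ifs <;> linarith

lemma keep_inl (e b : Bool) {x : Pt} (h : ∀ i, x ≠ U.a (i, 0)) : U.keep e b (.inl x) := by
  rintro ⟨i, -, hi⟩; exact absurd hi (h i)

lemma keep_a (e b : Bool) (i : Fin 3) :
    (U.keep e b (.inl (U.a (i, 0))) ↔ (ch e i = true → false = b)) ∧
      (U.keep e b (.inr i) ↔ (ch e i = true → true = b)) := by
  simp [keep, cho_a]

lemma card_line_inter (hp : p ∣ q) (l l' : Ln) : (#(P.on l ∩ P.on l') : ZMod p) = 1 := by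
  by_cases h : l = l'
  · subst h
    rw [inter_self, P.card_on]
    push_cast
    rw [(ZMod.natCast_eq_zero_iff q p).2 hp, zero_add]
  · rw [P.meet l l' h]; simp

lemma not_cho_of_sp (e : Bool) {s : Pt ⊕ Fin 3} (h : s ∈ U.sp e) : ¬ U.cho e (U.pt s) := by
  rintro ⟨i, hi, h'⟩
  have h1 := (mem_filter.1 h).2
  rw [h'] at h1
  cases e
  · have := (part_zero P _).2 h1
    rw [U.pa] at this
    simp only at this
    subst this
    exact absurd hi (by decide)
  · have := (part_one P _).2 h1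
    rw [U.pa] at this
    simp only at this
    subst this
    exact absurd hi (by decide)

lemma design (hq : 10 ^ 7 ≤ q) (hp : p ∣ q) :
    Nonempty (Design p (Pt ⊕ Fin 3) (Ln × Bool) U.lab) := by
  have hq20 : 20 ≤ q := le_trans (by norm_num) hq
  choose ψ hψ using U.sub_est hq
  refine ⟨{
    blk := U.blk
    wt := U.wt
    sp := U.sp
    ψ := ψ
    ne := ⟨.inr 0⟩
    inter := fun i j => ?_
    inter_x := fun j => ?_
    inter_y := fun i => ?_
    disj := ?_
    sp_op := fun e s hs => ?_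
    f1_pos := U.f1_pos hq20
    f1_op := fun e s => ?_
    f2_pos := fun e s t hs ht => ?_
    ψ_pos := fun e => (hψ e).1
    sub := fun e => (hψ e).2 }⟩
  · have : U.blk false i ∩ U.blk true j = univ.filter fun s => U.pt s ∈ P.on i.1 ∩ P.on j.1 ∧
        (U.keep false i.2 s ∧ U.keep true j.2 s) := by
      ext s; simp only [blk, mem_inter, mem_filter, mem_univ]; tauto
    rw [this, U.card_section _ _ (fun x _ hx => ⟨U.keep_inl _ _ hx, U.keep_inl _ _ hx⟩) ?_]
    · exact card_line_inter hp _ _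
    · rintro k -
      rw [(U.keep_a _ _ k).1, (U.keep_a _ _ k).1, (U.keep_a _ _ k).2, (U.keep_a _ _ k).2]
      generalize i.2 = b
      generalize j.2 = b'
      revert k b b'
      decide
  · have : U.sp false ∩ U.blk true j =
        univ.filter fun s => U.pt s ∈ P.X ∩ P.on j.1 ∧ U.keep true j.2 s := by
      ext s; simp only [sp, blk, mem_inter, mem_filter, mem_univ, cond_false]; tauto
    rw [this, U.card_section _ _ (fun x _ hx => U.keep_inl _ _ hx) ?_]
    · exact P.X_meet _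
    · intro k hk
      have := (part_zero P _).2 (mem_inter.1 hk).1
      rw [U.pa] at this
      simp only at this
      subst this
      rw [(U.keep_a _ _ 0).1, (U.keep_a _ _ 0).2]
      generalize j.2 = b
      revert b
      decide
  · have : U.blk false i ∩ U.sp true =
        univ.filter fun s => U.pt s ∈ P.Y ∩ P.on i.1 ∧ U.keep false i.2 s := by
      ext s; simp only [sp, blk, mem_inter, mem_filter, mem_univ, cond_true]; tauto
    rw [this, U.card_section _ _ (fun x _ hx => U.keep_inl _ _ hx) ?_]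
    · exact P.Y_meet _
    · intro k hk
      have := (part_one P _).2 (mem_inter.1 hk).1
      rw [U.pa] at this
      simp only at this
      subst this
      rw [(U.keep_a _ _ 1).1, (U.keep_a _ _ 1).2]
      generalize i.2 = b
      revert b
      decide
  · rw [disjoint_left]
    intro s h1 h2
    exact disjoint_left.1 P.disj (mem_filter.1 h1).2 (mem_filter.1 h2).2
  · have h1 := (mem_filter.1 hs).2
    refine mem_filter.2 ⟨mem_univ _, ?_⟩
    cases e
    · exact (part_zero P _).1 ((U.part_op s).trans ((part_zero P _).2 h1))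
    · exact (part_one P _).1 ((U.part_op s).trans ((part_one P _).2 h1))
  · have h1 := U.f1_eq hq20 e s
    have h2 := U.f1_eq hq20 e (U.op s)
    have h3 := U.val_op e s
    have : ((∑ i with U.op s ∈ U.blk e i, U.wt e i : ℕ) : ℤ) =
        ((∑ i with s ∈ U.blk e i, U.wt e i : ℕ) : ℤ) := by
      rw [h1, h2]; linear_combination (q * (q + 1) : ℤ) * h3
    exact_mod_cast this
  · obtain ⟨l, hl, hl'⟩ := exists_line' P (U.pt s) (U.pt t)
    refine sum_pos' (fun _ _ => Nat.zero_le _) ⟨(l, false), ?_, ?_⟩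
    · simp [blk, hl, hl', keep, U.not_cho_of_sp e hs, U.not_cho_of_sp e ht]
    · have := U.w_pos hq20 e l
      rw [← U.wt_cast hq20 e (l, false)] at this
      exact_mod_cast this

end Setup

end labels

end Des

theorem design : DesignStmt := by
  refine ⟨10 ^ 7, fun p q Pt Ln _ _ _ hq hp P => ?_⟩
  obtain ⟨U⟩ := Des.exists_setup P
  exact ⟨Pt ⊕ Fin 3, Ln × Bool, inferInstance, inferInstance, inferInstance, U.lab, U.design hq hp⟩

end Crest.Agent.KP
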