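import Mathlib

/-! KP, task DET1: monotonicity of the Fuglede–Kadison determinant along `X (1 + t Z)`. -/

set_option autoImplicit false

namespace Crest.Agent.KP.D1

open Finset

variable {A : Type} [CStarAlgebra A] [Nontrivial A]

lemma log_approx {P Q : A} (hP : IsSelfAdjoint P) (h0 : ∀ x ∈ spectrum ℝ P, 0 ≤ x)
    (h1 : P * Q = 1) (h2 : Q * P = 1) {C : ℝ} (hC : ‖P‖ ≤ C) (hC' : ‖Q‖ ≤ C) (hC1 : 1 ≤ C) :
    ‖1 - C⁻¹ • P‖ ≤ 1 - (C ^ 2)⁻¹ ∧ ∀ K : ℕ, ‖cfc Real.log P - (Real.log C • 1 -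
      ∑ k ∈ range K, ((k : ℝ) + 1)⁻¹ • (1 - C⁻¹ • P) ^ (k + 1))‖ ≤
        (1 - (C ^ 2)⁻¹) ^ (K + 1) / (C ^ 2)⁻¹ := by
  have hC0 : 0 < C := one_pos.trans_le hC1
  have hr : 0 ≤ 1 - (C ^ 2)⁻¹ := sub_nonneg.2 (inv_le_one_of_one_le₀ (one_le_pow₀ hC1))
  have hs : ∀ x ∈ spectrum ℝ P, 0 < x ∧ |1 - C⁻¹ * x| ≤ 1 - (C ^ 2)⁻¹ := by
    intro x hx
    let u : Aˣ := ⟨P, Q, h1, h2⟩
    have hx0 : x ≠ 0 := by rintro rfl; exact spectrum.zero_notMem ℝ u.isUnit hx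
    have hp : 0 < x := (h0 x hx).lt_of_ne' hx0
    have a1 : x ≤ C := (le_abs_self x).trans ((spectrum.norm_le_norm_of_mem hx).trans hC)
    have a2 : x⁻¹ ≤ C := (le_abs_self _).trans ((spectrum.norm_le_norm_of_mem
      ((spectrum.inv_mem_iff (r := Units.mk0 x hx0) (a := u)).1 hx)).trans hC')
    have a3 : C⁻¹ * x ≤ 1 := by rw [inv_mul_le_iff₀ hC0, mul_one]; exact a1
    have a4 : (C ^ 2)⁻¹ ≤ C⁻¹ * x := by
      rw [sq, mul_inv]
      exact mul_le_mul_of_nonneg_left (inv_le_of_inv_le₀ hp a2) (by positivity)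
    exact ⟨hp, by rw [abs_of_nonneg (sub_nonneg.2 a3)]; linarith⟩
  have e1 : cfc (fun x : ℝ => 1 - C⁻¹ * x) P = 1 - C⁻¹ • P := by
    rw [cfc_sub _ _ P, cfc_const_mul _ _ P, cfc_id' ℝ P, cfc_const_one ℝ P]
  refine ⟨e1 ▸ norm_cfc_le hr fun x hx => (hs x hx).2, fun K => ?_⟩
  have e2 : cfc (fun x : ℝ => Real.log C -
      ∑ k ∈ range K, ((k : ℝ) + 1)⁻¹ * (1 - C⁻¹ * x) ^ (k + 1)) P = Real.log C • 1 -
      ∑ k ∈ range K, ((k : ℝ) + 1)⁻¹ • (1 - C⁻¹ • P) ^ (k + 1) := by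
    have := cfc_polynomial (Polynomial.C (Real.log C) - ∑ k ∈ range K,
      Polynomial.C ((k : ℝ) + 1)⁻¹ * (1 - Polynomial.C C⁻¹ * Polynomial.X) ^ (k + 1)) P
    simp only [map_sub, map_sum, map_mul, map_pow, map_one, Polynomial.aeval_C, Polynomial.aeval_X,
      ← Algebra.smul_def] at this
    rw [Algebra.algebraMap_eq_smul_one] at this
    rw [← this]
    congr 1
    funext x
    simp [Polynomial.eval_finsetSum]
  have hl : ContinuousOn Real.log (spectrum ℝ P) :=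
    Real.continuousOn_log.mono fun x hx => (hs x hx).1.ne'
  rw [← e2, ← cfc_sub _ _ P]
  refine norm_cfc_le (by positivity) fun x hx => ?_
  obtain ⟨b1, b2⟩ := hs x hx
  have b3 : |1 - C⁻¹ * x| < 1 := b2.trans_lt (sub_lt_self _ (by positivity))
  have := Real.abs_log_sub_add_sum_range_le b3 K
  rw [sub_sub_cancel, Real.log_mul (by positivity) b1.ne', Real.log_inv] at this
  refine le_trans (le_of_eq ?_) (this.trans ?_)
  · rw [Real.norm_eq_abs]
    congr 1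
    simp only [div_eq_inv_mul]
    ring
  · exact div_le_div₀ (by positivity) (pow_le_pow_left₀ (abs_nonneg _) b2 _) (by positivity)
      (by linarith)

theorem key (M : StarSubalgebra ℝ A) (τ : A →L[ℝ] ℝ) (hτ : ∀ a ∈ M, ∀ b ∈ M, τ (a * b) = τ (b * a))
    (hs : ∀ a, τ (star a) = τ a) {X X' Z : A} (hX : X ∈ M) (hX' : X' ∈ M) (hZ : Z ∈ M)
    (h1 : X * X' = 1) (h2 : X' * X = 1) {lam : ℝ} (hl : 0 ≤ lam) (hZ2 : Z * Z = lam • Z)
    (hZ0 : 0 ≤ τ Z) :
    τ (cfc Real.log (star X * X)) + 2 * τ Z / (1 + lam) ≤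
      τ (cfc Real.log (star (X * (1 + Z)) * (X * (1 + Z)))) := by
  let Y : ℝ → A := fun t => X * (1 + t • Z)
  let Y' : ℝ → A := fun t => (1 - (t / (1 + t * lam)) • Z) * X'
  let P : ℝ → A := fun t => star (Y t) * Y t
  let Q : ℝ → A := fun t => Y' t * star (Y' t)
  let P' : ℝ → A := fun t => star (X * Z) * Y t + star (Y t) * (X * Z)
  have hp : ∀ t ∈ Set.Icc (0 : ℝ) 1, 0 < 1 + t * lam := fun t ht => by have := ht.1; positivity
  have mY : ∀ t, Y t ∈ M := fun t => mul_mem hX (add_mem (one_mem _) (M.smul_mem hZ _))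
  have mY' : ∀ t, Y' t ∈ M := fun t => mul_mem (sub_mem (one_mem _) (M.smul_mem hZ _)) hX'
  have mXZ := mul_mem hX hZ
  have mP : ∀ t, P t ∈ M := fun t => mul_mem (star_mem (mY t)) (mY t)
  have mP' : ∀ t, P' t ∈ M := fun t =>
    add_mem (mul_mem (star_mem mXZ) (mY t)) (mul_mem (star_mem (mY t)) mXZ)
  have z1 : ∀ t ∈ Set.Icc (0 : ℝ) 1, (1 - (t / (1 + t * lam)) • Z) * Z = (1 + t * lam)⁻¹ • Z := by
    intro t ht
    have := hp t ht
    rw [sub_mul, one_mul, smul_mul_assoc, hZ2, smul_smul]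
    nth_rewrite 1 [← one_smul ℝ Z]
    rw [← sub_smul]
    congr 1
    field_simp
    ring
  have z2 : ∀ t ∈ Set.Icc (0 : ℝ) 1, (1 - (t / (1 + t * lam)) • Z) * (1 + t • Z) = 1 := by
    intro t ht
    rw [mul_add, mul_smul_comm, z1 t ht, smul_smul, mul_one, div_eq_mul_inv, sub_add_cancel]
  have z3 : ∀ t ∈ Set.Icc (0 : ℝ) 1, (1 + t • Z) * (1 - (t / (1 + t * lam)) • Z) = 1 := by
    intro t ht
    refine Eq.trans ?_ (z2 t ht)
    simp only [mul_sub, sub_mul, mul_add, add_mul, one_mul, mul_one, smul_mul_smul_comm, mul_comm t]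
    abel
  have y1 : ∀ t ∈ Set.Icc (0 : ℝ) 1, Y t * Y' t = 1 := fun t ht => by
    simp only [Y, Y']
    rw [mul_assoc, ← mul_assoc (1 + t • Z), z3 t ht, one_mul, h1]
  have y2 : ∀ t ∈ Set.Icc (0 : ℝ) 1, Y' t * Y t = 1 := fun t ht => by
    simp only [Y, Y']
    rw [mul_assoc, ← mul_assoc X', h2, one_mul, z2 t ht]
  have p1 : ∀ t ∈ Set.Icc (0 : ℝ) 1, P t * Q t = 1 := fun t ht => by
    simp only [P, Q]
    rw [mul_assoc, ← mul_assoc (Y t), y1 t ht, one_mul, ← star_mul, y2 t ht, star_one]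
  have p2 : ∀ t ∈ Set.Icc (0 : ℝ) 1, Q t * P t = 1 := fun t ht => by
    simp only [P, Q]
    rw [mul_assoc, ← mul_assoc (star (Y' t)), ← star_mul, y1 t ht, star_one, one_mul, y2 t ht]
  have p3 : ∀ t ∈ Set.Icc (0 : ℝ) 1, 2 * τ Z / (1 + lam) ≤ τ (Q t * P' t) := fun t ht => by
    have a1 : τ (Y' t * (X * Z)) = (1 + t * lam)⁻¹ * τ Z := by
      simp only [Y']
      rw [mul_assoc, ← mul_assoc X', h2, one_mul, z1 t ht, map_smul, smul_eq_mul]
    have a2 : τ (Q t * (star (X * Z) * Y t)) = (1 + t * lam)⁻¹ * τ Z := by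
      rw [← mul_assoc, hτ _ (mul_mem (mul_mem (mY' t) (star_mem (mY' t))) (star_mem mXZ)) _ (mY t),
        ← mul_assoc, ← mul_assoc, y1 t ht, one_mul, ← star_mul, hs, hτ _ mXZ _ (mY' t), a1]
    have a3 : τ (Q t * (star (Y t) * (X * Z))) = (1 + t * lam)⁻¹ * τ Z := by
      simp only [Q]
      rw [mul_assoc, ← mul_assoc (star (Y' t)), ← star_mul, y1 t ht, star_one, one_mul, a1]
    have a4 : (1 + lam)⁻¹ ≤ (1 + t * lam)⁻¹ :=
      inv_anti₀ (hp t ht) (by nlinarith [ht.2])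
    rw [mul_add, map_add, a2, a3, div_eq_mul_inv]
    nlinarith
  have dY : ∀ t, HasDerivAt Y (X * Z) t := fun t => by
    simpa using (((hasDerivAt_id t).smul_const Z).const_add 1).const_mul X
  have dP : ∀ t, HasDerivAt P (P' t) t := fun t => (dY t).star.mul (dY t)
  have cY : Continuous Y := by fun_prop
  have cY' : ContinuousOn Y' (Set.Icc 0 1) :=
    (continuousOn_const.sub ((continuousOn_id.div (by fun_prop)
      fun t ht => (hp t ht).ne').smul continuousOn_const)).mul continuousOn_const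
  obtain ⟨C, hC⟩ := isCompact_Icc.exists_bound_of_continuousOn (s := Set.Icc (0 : ℝ) 1)
    (f := fun t => (P t, Q t, Q t * P' t, (1 : ℝ))) (by fun_prop)
  have c1 : ∀ t ∈ Set.Icc (0 : ℝ) 1, ‖P t‖ ≤ C ∧ ‖Q t‖ ≤ C ∧ ‖Q t * P' t‖ ≤ C ∧ 1 ≤ C := by
    intro t ht
    simpa only [Prod.norm_mk, max_le_iff, norm_one] using hC t ht
  have hC1 := (c1 0 (by simp)).2.2.2
  have hL := fun t ht => log_approx (IsSelfAdjoint.star_mul_self (Y t))
    spectrum_star_mul_self_nonneg (p1 t ht) (p2 t ht) (c1 t ht).1 (c1 t ht).2.1 hC1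
  set r := 1 - (C ^ 2)⁻¹ with hr
  have r0 : 0 ≤ r := (norm_nonneg _).trans (hL 0 (by simp)).1
  have r1 : r < 1 := sub_lt_self _ (by positivity)
  let W : ℝ → A := fun t => 1 - C⁻¹ • P t
  have mW : ∀ t, W t ∈ M := fun t => sub_mem (one_mem _) (M.smul_mem (mP t) _)
  have dW : ∀ t, HasDerivAt W (-(C⁻¹ • P' t)) t := fun t => ((dP t).const_smul C⁻¹).const_sub 1
  have dk : ∀ t (k : ℕ), HasDerivAt (fun t => τ (((k : ℝ) + 1)⁻¹ • W t ^ (k + 1)))
      (-τ (C⁻¹ • W t ^ k * P' t)) t := by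
    intro t k
    refine (τ.hasFDerivAt.comp_hasDerivAt t (((dW t).fun_pow' (k + 1)).const_smul
      ((k : ℝ) + 1)⁻¹)).congr_deriv ?_
    rw [map_smul, map_sum, Finset.sum_congr rfl (g := fun _ => -τ (C⁻¹ • W t ^ k * P' t)),
      Finset.sum_const, Finset.card_range, nsmul_eq_mul, smul_eq_mul]
    · push_cast; field_simp
    · intro i hi
      rw [hτ _ (mul_mem (pow_mem (mW t) _) (neg_mem (M.smul_mem (mP' t) _))) _ (pow_mem (mW t) _),
        ← mul_assoc, ← pow_add, Nat.pred_succ, Nat.add_sub_cancel' (by simpa [Nat.lt_succ_iff] using hi),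
        mul_neg, map_neg, mul_smul_comm, smul_mul_assoc]
  have main : ∀ K : ℕ, 2 * τ Z / (1 + lam) - ‖τ‖ * (C + 2 / (C ^ 2)⁻¹) * r ^ K ≤
      τ (cfc Real.log (P 1)) - τ (cfc Real.log (P 0)) := by
    intro K
    let g : ℝ → ℝ := fun t => τ (Real.log C • 1 - ∑ k ∈ range K, ((k : ℝ) + 1)⁻¹ • W t ^ (k + 1))
    have dg : ∀ t, HasDerivAt g (τ ((C⁻¹ • ∑ k ∈ range K, W t ^ k) * P' t)) t := fun t => by
      simp only [g, map_sub, map_sum]
      refine ((HasDerivAt.fun_sum fun k (_ : k ∈ range K) => dk t k).const_sub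
        (τ (Real.log C • 1))).congr_deriv ?_
      rw [Finset.sum_neg_distrib, neg_neg, Finset.smul_sum, Finset.sum_mul, map_sum]
    obtain ⟨t, ht, ht'⟩ := exists_hasDerivAt_eq_slope g _ zero_lt_one
      (fun t _ => (dg t).continuousAt.continuousWithinAt) fun t _ => dg t
    have ht1 := Set.Ioo_subset_Icc_self ht
    have e1 : C⁻¹ • ∑ k ∈ range K, W t ^ k = (1 - W t ^ K) * Q t := by
      rw [← geom_sum_mul_neg, sub_sub_cancel, mul_assoc, smul_mul_assoc, p1 t ht1, mul_smul_comm,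
        mul_one]
    have e2 : |τ (W t ^ K * (Q t * P' t))| ≤ ‖τ‖ * (r ^ K * C) :=
      τ.le_of_opNorm_le_of_le le_rfl ((norm_mul_le _ _).trans (mul_le_mul
        ((norm_pow_le _ _).trans (pow_le_pow_left₀ (norm_nonneg _) (hL t ht1).1 _))
        (c1 t ht1).2.2.1 (norm_nonneg _) (by positivity)))
    have e3 : ∀ s ∈ Set.Icc (0 : ℝ) 1, |τ (cfc Real.log (P s)) - g s| ≤
        ‖τ‖ * (r ^ K / (C ^ 2)⁻¹) := fun s hs => by
      rw [← map_sub]
      exact τ.le_of_opNorm_le_of_le le_rfl (((hL s hs).2 K).trans (div_le_div_of_nonneg_right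
        (pow_le_pow_of_le_one r0 r1.le (Nat.le_succ _)) (by positivity)))
    rw [e1, mul_assoc, sub_mul, one_mul, map_sub, sub_zero, div_one] at ht'
    have e4 := abs_le.1 (e3 0 (by simp))
    have e5 := abs_le.1 (e3 1 (by simp))
    have e6 := p3 t ht1
    have e7 := abs_le.1 e2
    have e8 : ‖τ‖ * (C + 2 / (C ^ 2)⁻¹) * r ^ K =
      ‖τ‖ * (r ^ K * C) + 2 * (‖τ‖ * (r ^ K / (C ^ 2)⁻¹)) := by ring
    linarith
  have lim := ((tendsto_pow_atTop_nhds_zero_of_lt_one r0 r1).const_mul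
    (‖τ‖ * (C + 2 / (C ^ 2)⁻¹))).const_sub (2 * τ Z / (1 + lam))
  have := le_of_tendsto' lim main
  simp only [P, Y, one_smul, zero_smul, add_zero, mul_one, mul_zero, sub_zero] at this
  linarith

end Crest.Agent.KP.D1
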