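import Crest.Agent.KP.Stmts
import Crest.Agent.KP.Det1A
import Crest.Agent.R120.VN

/-! KP, task DET1. -/

set_option autoImplicit false

namespace Crest.Agent.KP

open Crest.AlgebraR.GroupRingDet
open scoped InnerProductSpace ComplexConjugate

namespace D1

open R120

variable {G : Type} [Group G] {n : ℕ} {H : Type} [NormedAddCommGroup H] [InnerProductSpace ℂ H]
  [CompleteSpace H] (b : HilbertBasis (Fin n × G) ℂ H)

/-- permutation operators -/
noncomputable def UU (σ : Equiv.Perm (Fin n × G)) : H →L[ℂ] H :=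
  (b.repr.trans (HilbertBasis.mk (v := fun h => b (σ h))
    (b.orthonormal.comp _ σ.injective) (by
      have : Set.range (fun h => b (σ h)) = Set.range b := σ.surjective.range_comp b
      rw [this, b.dense_span])).repr.symm).toLinearIsometry.toContinuousLinearMap

omit [Group G] in
lemma UU_b (σ : Equiv.Perm (Fin n × G)) (h : Fin n × G) : UU b σ (b h) = b (σ h) := by
  classical
  simp only [UU, LinearIsometry.coe_toContinuousLinearMap,
    LinearIsometryEquiv.coe_toLinearIsometry, LinearIsometryEquiv.trans_apply, b.repr_self,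
    HilbertBasis.repr_symm_single, HilbertBasis.coe_mk]

/-- matrix units -/
noncomputable def ee (i j : Fin n) : H →L[ℂ] H :=
  UU b (Equiv.prodCongr (Equiv.swap i j) (Equiv.refl G)) * QQ b {x | x.1 = j}

omit [Group G] in
lemma ee_b (i j l : Fin n) (g : G) : ee b i j (b (l, g)) = if l = j then b (i, g) else 0 := by
  rw [ee, mul_apply_eq_comp]
  split_ifs with h
  · rw [QQ_mem b (by exact h), UU_b, h]; simp
  · rw [QQ_notMem b (by exact h), map_zero]

/-- the regular representation -/
noncomputable def lm : G →* (H →L[ℂ] H) where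
  toFun k := UU b (Equiv.prodCongr (Equiv.refl _) (Equiv.mulLeft k))
  map_one' := op_ext b fun x => by simp [UU_b]
  map_mul' k k' := op_ext b fun x => by
    rw [mul_apply_eq_comp, UU_b, UU_b, UU_b]; congr 1; ext <;> simp [mul_assoc]

lemma lm_b (k : G) (i : Fin n) (g : G) : lm b k (b (i, g)) = b (i, k * g) := UU_b b _ _

/-- the representation of the group ring -/
noncomputable def pp : MonoidAlgebra ℚ G →+* (H →L[ℂ] H) :=
  MonoidAlgebra.liftNCRingHom ((algebraMap ℂ _).comp (Rat.castHom ℂ)) (lm b)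
    fun _ _ => Algebra.commutes _ _

lemma pp_single (k : G) (c : ℚ) : pp b (MonoidAlgebra.single k c) = (c : ℂ) • lm b k := by
  rw [pp, MonoidAlgebra.liftNCRingHom_single, Algebra.smul_def]; rfl

lemma pp_comm (y : MonoidAlgebra ℚ G) (i j : Fin n) : pp b y * ee b i j = ee b i j * pp b y := by
  induction y using MonoidAlgebra.induction_linear with
  | zero => simp
  | add y z hy hz => rw [map_add, add_mul, mul_add, hy, hz]
  | single k c =>
    rw [pp_single, smul_mul_assoc, mul_smul_comm]
    congr 1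
    refine op_ext b fun ⟨l, g⟩ => ?_
    rw [mul_apply_eq_comp, mul_apply_eq_comp, lm_b, ee_b, ee_b]
    split_ifs
    · rw [lm_b]
    · rw [map_zero]

omit [Group G] in
lemma ee_mul (i j k l : Fin n) : ee b i j * ee b k l = if j = k then ee b i l else 0 := by
  refine op_ext b fun ⟨m, g⟩ => ?_
  rw [mul_apply_eq_comp, ee_b]
  by_cases h : m = l <;> by_cases h' : j = k <;> simp [h, h', ee_b, Ne.symm]

/-- the representation of matrices -/
noncomputable def rr : Matrix (Fin n) (Fin n) (MonoidAlgebra ℚ G) →+* (H →L[ℂ] H) where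
  toFun Y := ∑ i, ∑ j, ee b i j * pp b (Y i j)
  map_one' := op_ext b fun ⟨m, g⟩ => by
    simp [Matrix.one_apply, apply_ite (pp b), ee_b]
  map_mul' Y Y' := by
    simp only [Matrix.mul_apply, map_sum, map_mul, Finset.mul_sum, Finset.sum_mul]
    rw [Finset.sum_comm]
    conv_rhs => rw [Finset.sum_comm]
    refine Finset.sum_congr rfl fun l _ => ?_
    rw [Finset.sum_comm]
    refine Finset.sum_congr rfl fun k _ => Finset.sum_congr rfl fun i _ => ?_
    have : ∀ j, ee b i j * pp b (Y i j) * (ee b k l * pp b (Y' k l)) =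
        if j = k then ee b i l * (pp b (Y i k) * pp b (Y' k l)) else 0 := by
      intro j
      rw [mul_assoc, ← mul_assoc (pp b _), pp_comm, ← mul_assoc, ← mul_assoc, ee_mul]
      split_ifs with h
      · rw [h, mul_assoc]
      · rw [zero_mul, zero_mul]
    simp [this]
  map_zero' := by simp
  map_add' Y Y' := by simp [mul_add, Finset.sum_add_distrib]

lemma co_rr (Y : Matrix (Fin n) (Fin n) (MonoidAlgebra ℚ G)) (i j : Fin n) (h g : G) :
    co b (rr b Y) (i, h) (j, g) = ((Y i j).coeff (h * g⁻¹) : ℂ) := by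
  classical
  have key : ∀ i' j' (y : MonoidAlgebra ℚ G), ⟪b (i, h), (ee b i' j' * pp b y) (b (j, g))⟫_ℂ =
      if j' = j then if i' = i then (y.coeff (h * g⁻¹) : ℂ) else 0 else 0 := by
    intro i' j' y
    induction y using MonoidAlgebra.induction_linear with
    | zero => simp
    | add y z hy hz =>
      rw [map_add, mul_add, add_apply, inner_add_right, hy, hz]
      split_ifs <;> simp
    | single k c =>
      rw [pp_single, mul_smul_comm, smul_apply, mul_apply_eq_comp, lm_b, ee_b,
        inner_smul_right, MonoidAlgebra.coeff_single, Finsupp.single_apply]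
      by_cases h1 : j = j'
      · by_cases h2 : i' = i <;> by_cases h3 : k = h * g⁻¹ <;>
          simp [h1, h2, h3, inner_b, Ne.symm, b.orthonormal.1]
        intro h4
        exact absurd (by rw [h4, mul_inv_cancel_right]) h3
      · simp [h1, Ne.symm h1]
  change ⟪_, (∑ i, ∑ j, ee b i j * pp b (Y i j)) _⟫_ℂ = _
  simp only [sum_apply, inner_sum, key]
  simp

/-- operators commuting with the right action -/
def MM : StarSubalgebra ℝ (H →L[ℂ] H) where
  carrier := {T | ∀ i j g h k, co b T (i, g * k) (j, h * k) = co b T (i, g) (j, h)}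
  mul_mem' := by
    intro S T hS hT i j g h k
    refine (hasSum_co b S T _ _).unique ?_
    rw [← (Equiv.prodCongr (Equiv.refl (Fin n)) (Equiv.mulRight k)).hasSum_iff]
    convert hasSum_co b S T (i, g) (j, h) using 2 with x
    exact congrArg₂ (· * ·) (hS i x.1 g x.2 k) (hT x.1 j x.2 h k)
  add_mem' := by
    intro S T hS hT i j g h k
    have h1 := hS i j g h k
    have h2 := hT i j g h k
    simp only [co, add_apply, inner_add_right] at *
    rw [h1, h2]
  algebraMap_mem' := by
    intro r i j g h k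
    classical
    rw [IsScalarTower.algebraMap_apply ℝ ℂ, Algebra.algebraMap_eq_smul_one]
    simp [co, inner_b]
  star_mem' := by
    intro T hT i j g h k
    rw [co_star, co_star, hT]

/-- the trace -/
noncomputable def tt : (H →L[ℂ] H) →L[ℝ] ℝ :=
  ∑ i : Fin n, Complex.reCLM.comp (((innerSL ℂ (b (i, 1))).comp
    (ContinuousLinearMap.apply ℂ H (b (i, 1)))).restrictScalars ℝ)

omit [CompleteSpace H] in
lemma tt_apply (T : H →L[ℂ] H) : tt b T = (∑ i, co b T (i, 1) (i, 1)).re := by
  rw [tt, sum_apply, Complex.re_sum]; rfl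

lemma tt_comm (S : H →L[ℂ] H) (hS : S ∈ MM b) (T : H →L[ℂ] H) (hT : T ∈ MM b) :
    tt b (S * T) = tt b (T * S) := by
  have key : ∀ S T : H →L[ℂ] H, ∀ i, co b (S * T) (i, 1) (i, 1) =
      ∑ j, ∑' k, co b S (i, 1) (j, k) * co b T (j, k) (i, 1) := fun S T i => by
    rw [← (hasSum_co b S T _ _).tsum_eq, (hasSum_co b S T _ _).summable.tsum_prod, tsum_fintype]
  simp only [tt_apply, key]
  rw [Finset.sum_comm]
  refine congrArg _ (Finset.sum_congr rfl fun j _ => Finset.sum_congr rfl fun i _ => ?_)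
  rw [← (Equiv.inv G).tsum_eq]
  refine tsum_congr fun k => ?_
  have h1 := hS i j 1 k⁻¹ k
  have h2 := hT j i k⁻¹ 1 k
  simp only [one_mul, inv_mul_cancel] at h1 h2
  rw [Equiv.inv_apply, ← h1, ← h2, mul_comm]

lemma tt_star (T : H →L[ℂ] H) : tt b (star T) = tt b T := by
  simp only [tt_apply, co_star, Complex.re_sum, Complex.conj_re]

lemma rr_mem (Y : Matrix (Fin n) (Fin n) (MonoidAlgebra ℚ G)) : rr b Y ∈ MM b :=
  fun i j g h k => by rw [co_rr, co_rr, mul_inv_rev, mul_assoc, mul_inv_cancel_left]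

lemma tt_rr (Y : Matrix (Fin n) (Fin n) (MonoidAlgebra ℚ G)) : tt b (rr b Y) = tr1 Y := by
  simp [tt_apply, co_rr, tr1]

lemma rr_smul (c : ℚ) (Y : Matrix (Fin n) (Fin n) (MonoidAlgebra ℚ G)) :
    rr b (c • Y) = (c : ℝ) • rr b Y := by
  refine co_ext b fun ⟨i, h⟩ ⟨j, g⟩ => ?_
  have := co_rr b Y i j h g
  rw [co_rr, ← algebraMap_smul ℂ (c : ℝ), co, smul_apply, inner_smul_right,
    ← co, this]
  simp

lemma isUnit_one_add {R : Type} [Ring R] [Algebra ℚ R] {Z : R} {lam : ℚ} (hl : 0 ≤ lam)
    (h : Z * Z = lam • Z) : IsUnit (1 + Z) := by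
  have e : ∀ c : ℚ, c * (1 + lam) = 1 → Z - c • Z - c • lam • Z = 0 := fun c hc => by
    rw [smul_smul, sub_sub, ← add_smul, ← mul_one_add, hc, one_smul, sub_self]
  have := e (1 + lam)⁻¹ (inv_mul_cancel₀ (by positivity))
  refine ⟨⟨1 + Z, 1 - (1 + lam)⁻¹ • Z, ?_, ?_⟩, rfl⟩
  · rw [mul_sub, mul_one, add_mul, one_mul, mul_smul_comm, h, ← sub_eq_zero, ← this]; abel
  · rw [sub_mul, one_mul, mul_add, mul_one, smul_mul_assoc, h, ← sub_eq_zero, ← this]; abel

lemma key' [Nontrivial (H →L[ℂ] H)] {X Z : Matrix (Fin n) (Fin n) (MonoidAlgebra ℚ G)}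
    (hX : IsUnit X) {lam : ℚ} (hl : 0 ≤ lam) (h : Z * Z = lam • Z) (h0 : 0 ≤ tr1 Z) :
    logDet b (rr b X) + tr1 Z / (1 + lam) ≤ logDet b (rr b (X * (1 + Z))) := by
  obtain ⟨u, rfl⟩ := hX
  have := key (MM b) (tt b) (tt_comm b) (tt_star b) (rr_mem b u) (rr_mem b ↑u⁻¹) (rr_mem b Z)
    (by rw [← map_mul, u.mul_inv, map_one]) (by rw [← map_mul, u.inv_mul, map_one])
    (lam := lam) (by exact_mod_cast hl) (by rw [← map_mul, h, rr_smul])
    (by rw [tt_rr]; exact_mod_cast h0)
  have e : ∀ T, logDet b T = 1 / 2 * tt b (cfc Real.log (star T * T)) := fun T => by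
    rw [logDet, opTrace, tt_apply, Complex.re_sum]; rfl
  rw [tt_rr, mul_div_assoc] at this
  rw [e, e, map_mul, map_add, map_one]
  linarith

end D1

open D1 R120 in
theorem det1 : Det1Stmt := by
  intro G _ n A ⟨Z, lam, l, hl, hZ, h0, hN, hA⟩
  classical
  have hu : ∀ l : List (Matrix (Fin n) (Fin n) (MonoidAlgebra ℚ G)),
      (∀ N ∈ l, N * N = 0 ∧ tr1 N = 0) → IsUnit (l.map fun N => 1 + N).prod := fun l hN =>
    List.prod_isUnit fun m hm => by
      obtain ⟨N, hN', rfl⟩ := List.mem_map.1 hm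
      exact isUnit_one_add le_rfl (by rw [(hN N hN').1, zero_smul])
  have h1 : IsUnit (A.map (MonoidAlgebra.mapRingHom G (Int.castRingHom ℚ))) :=
    ((isUnit_one_add hl hZ).mul_right_iff).1 (hA ▸ hu l hN)
  refine ⟨h1, ?_⟩
  let b : HilbertBasis (Fin n × G) ℂ (lp (fun _ : Fin n × G => ℂ) 2) :=
    HilbertBasis.ofRepr (LinearIsometryEquiv.refl _ _)
  have : Nontrivial (lp (fun _ : Fin n × G => ℂ) 2 →L[ℂ] lp (fun _ : Fin n × G => ℂ) 2) := by
    by_contra hc
    rw [not_nontrivial_iff_subsingleton] at hc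
    have := tt_rr b Z
    rw [Subsingleton.elim (rr b Z) 0, map_zero] at this
    exact h0.ne' (by exact_mod_cast this.symm)
  refine ⟨_, _, _, inferInstance, b, rr b (A.map (MonoidAlgebra.mapRingHom G (Int.castRingHom ℚ))),
    fun i j g h => (co_rr b _ i j h g).trans (by simp), ?_⟩
  have h2 : ∀ l : List (Matrix (Fin n) (Fin n) (MonoidAlgebra ℚ G)),
      (∀ N ∈ l, N * N = 0 ∧ tr1 N = 0) → logDet b (rr b (l.map fun N => 1 + N).prod) ≤ 0 := by
    intro l
    induction l using List.reverseRecOn with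
    | nil => intro _; simp [logDet, opTrace]
    | append_singleton l N ih =>
      intro hN
      obtain ⟨a1, a2⟩ := hN N (by simp)
      have a3 : tr1 (-N) = 0 := by simpa [tr1] using a2
      have := key' b (hu _ hN) (Z := -N) le_rfl (by rw [neg_mul_neg, a1, zero_smul]) a3.ge
      rw [a3, List.map_append, List.prod_append, List.map_singleton, List.prod_singleton,
        mul_assoc, show (1 + N) * (1 + -N) = 1 by
          rw [mul_add, mul_one, mul_neg, add_mul, one_mul, a1]; abel, mul_one] at this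
      have a4 := ih fun N hN' => hN N (by simp [hN'])
      rw [List.map_append, List.prod_append, List.map_singleton, List.prod_singleton]
      simp only [Rat.cast_zero, zero_div, add_zero] at this
      exact this.trans a4
  have h3 := key' b h1 hl hZ h0.le
  rw [hA] at h3
  have h4 : (0 : ℝ) < tr1 Z / (1 + lam) := by positivity
  linarith [h2 l hN]

end Crest.Agent.KP
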