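import Crest.Agent.KP.Stmts

/-! KP, task DET2. -/

set_option autoImplicit false

namespace Crest.Agent.KP

open Finset

namespace D2

lemma core {R : Type} [Ring R] {p i j ρ : ℕ} {a b₀ d g F : R} {m : ℤ}
    (hd : 1 - a * b₀ = p * d) (hF : F * F = 2 ^ j * F)
    (hz : F * ((1 - b₀ * a) * g) * F = m * (F * F)) (hm : IsCoprime m p)
    (hρ : p ^ (i + 1) = 2 ^ j * ρ + 1) :
    ∃ b c x x' : R, a * b - 1 = (p ^ (i + 1) : ℕ) * c ∧
      x * ((1 - b * a) * g) + x' * (1 + ρ * F) = 1 := by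
  set s := ∑ l ∈ range i, (1 - a * b₀) ^ l with hs
  set b := b₀ * (1 + s * (1 - a * b₀)) with hb
  have h1 : a * b - 1 = (p ^ (i + 1) : ℕ) * -d ^ (i + 1) := by
    have := mul_neg_geom_sum (1 - a * b₀) (i + 1)
    rw [sub_sub_cancel, sum_range_succ', pow_zero, add_comm] at this
    simp only [pow_succ, ← Finset.sum_mul] at this
    rw [hb, ← mul_assoc, this, ← pow_succ, hd, (Nat.cast_commute p d).mul_pow]
    push_cast
    noncomm_ring
  have hπ : ((p : R)) ^ (i + 1) = 2 ^ j * ρ + 1 := by exact_mod_cast congrArg (Nat.cast : ℕ → R) hρ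
  have c1 : ∀ z : R, (ρ : R) * z = z * ρ := fun z => (Nat.cast_commute ρ z).eq
  have c2 : ∀ z : R, (p : R) * z = z * p := fun z => (Nat.cast_commute p z).eq
  have c3 : ∀ z : R, (2 : R) ^ j * z = z * 2 ^ j := fun z =>
    ((Commute.ofNat_left 2 z).pow_left j).eq
  set y := (1 - b * a) * g with hy
  set u := 1 + (ρ : R) * F with hu
  have hFF : (ρ : R) * (F * F) = p ^ (i + 1) * F - F := by
    rw [hF, hπ, ← mul_assoc, c1, add_mul, one_mul, add_sub_cancel_right]
  have h2 : ∀ k, (p : R) ^ (i + 1 - k) ∈ Ideal.span {y, u} := by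
    have hJ : (1 : R) ∈ Ideal.span {y, u} ⊔ Ideal.span {(p : R)} := by
      set J := Ideal.span {y, u} ⊔ Ideal.span {(p : R)}
      have my : y ∈ J := Ideal.mem_sup_left (Ideal.subset_span (by simp))
      have mu : u ∈ J := Ideal.mem_sup_left (Ideal.subset_span (by simp))
      have mp : ∀ z, (p : R) * z ∈ J := fun z => by
        rw [c2]; exact J.mul_mem_left _ (Ideal.mem_sup_right (Ideal.subset_span rfl))
      have e1 : F * y * u - F * y + p * (ρ * (F * (b₀ * s * d * a * g) * F)) =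
          m * (p ^ (i + 1) * F - F) := by
        rw [← hFF, ← mul_assoc (m : R), ← c1, mul_assoc (ρ : R), ← hz, hu, mul_add, mul_one,
          add_sub_cancel_left, c1 F, ← mul_assoc, ← c1, ← mul_assoc (p : R), ← c1 p,
          mul_assoc (ρ : R), ← mul_add, c2, hy, hb, hd, c2 d]
        congr 1
        rw [mul_assoc _ F (p : R), ← c2 F, ← mul_assoc _ (p : R), ← add_mul, mul_assoc F _ (p : R),
          ← mul_add, mul_assoc _ g (p : R), ← c2 g, ← mul_assoc _ (p : R), ← add_mul,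
          mul_assoc _ a (p : R), ← c2 a]
        congr 3
        noncomm_ring
      have m1 : (m : R) * (p ^ (i + 1) * F - F) ∈ J := e1 ▸
        J.add_mem (J.sub_mem (J.mul_mem_left _ mu) (J.mul_mem_left _ my)) (mp _)
      obtain ⟨α, β, h⟩ := hm
      have h' : (α : R) * m + β * p = 1 := by exact_mod_cast congrArg (Int.cast : ℤ → R) h
      have m2 : (p : R) ^ (i + 1) * F - F ∈ J := by
        rw [← one_mul (_ - F), ← h', add_mul, mul_assoc, mul_assoc]
        exact J.add_mem (J.mul_mem_left _ m1) (J.mul_mem_left _ (mp _))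
      have m3 : F ∈ J := by
        rw [pow_succ', mul_assoc] at m2
        simpa using J.sub_mem (mp (p ^ i * F)) m2
      simpa [hu] using J.sub_mem mu (J.mul_mem_left ρ m3)
    obtain ⟨v, hv, w, hw, hvw⟩ := Submodule.mem_sup.1 hJ
    obtain ⟨r, rfl⟩ := Submodule.mem_span_singleton.1 hw
    intro k
    induction k with
    | zero =>
      have : (p : R) ^ (i + 1) = (p ^ (i + 1) - ρ * F) * u := by
        rw [hu, mul_add, mul_one, sub_mul, mul_assoc (ρ : R), c1 F, ← mul_assoc F, ← c1 (F * F),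
          hFF, mul_sub, ← mul_assoc (ρ : R), c1 (_ ^ _), mul_assoc, c1 F]
        abel
      rw [Nat.sub_zero, this]
      exact Ideal.mul_mem_left _ _ (Ideal.subset_span (by simp))
    | succ k ih =>
      by_cases hk : k < i + 1
      · rw [← mul_one (_ ^ _), ← hvw, mul_add, smul_eq_mul, ← mul_assoc,
          ((Nat.cast_commute p r).pow_left _).eq, mul_assoc, ← pow_succ,
          show i + 1 - (k + 1) + 1 = i + 1 - k by omega]
        exact Ideal.add_mem _ (Ideal.mul_mem_left _ _ hv) (Ideal.mul_mem_left _ _ ih)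
      · rwa [show i + 1 - (k + 1) = i + 1 - k by omega]
  have h3 := h2 (i + 1)
  rw [Nat.sub_self, pow_zero] at h3
  obtain ⟨x, x', h⟩ := Submodule.mem_span_pair.1 h3
  exact ⟨b, _, x, x', h1, h⟩

lemma matr {R : Type} [Ring R] [Algebra ℚ R] {π : ℕ} (hπ : π ≠ 0) {a b c g w x x' : R}
    (h1 : a * b - 1 = π * c) (h2 : x * ((1 - b * a) * g) + x' * (1 + w) = 1)
    (h3 : (π - w) * (1 + w) = π) :
    !![a, c, -(c * a * g * (π - w)); π, b, (1 - b * a) * g * (π - w); -x, 0, x'] *
      (1 + !![0, 0, 0; 0, 0, 0; 0, 0, w]) =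
    (([!![0, (π : ℚ)⁻¹ • a, 0; 0, 0, 0; 0, 0, 0], !![0, -((π : ℚ)⁻¹ • 1), 0; 0, 0, 0; 0, 0, 0],
      !![0, 0, 0; π, 0, 0; 0, 0, 0], !![0, -((π : ℚ)⁻¹ • 1), 0; 0, 0, 0; 0, 0, 0],
      !![0, (π : ℚ)⁻¹ • b, 0; 0, 0, 0; 0, 0, 0], !![0, 0, 0; 0, 0, 0; -x, 0, 0],
      !![0, 0, (1 - b * a) * g; 0, 0, 0; 0, 0, 0]] : List (Matrix (Fin 3) (Fin 3) R)).map
        fun N => 1 + N).prod := by
  have hq : (π : ℚ) ≠ 0 := Nat.cast_ne_zero.2 hπ
  have e0 : ∀ z : R, (π : R) * z = (π : ℚ) • z := fun z => by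
    rw [Nat.cast_smul_eq_nsmul, nsmul_eq_mul]
  have e0' : ∀ z : R, z * (π : R) = (π : ℚ) • z := fun z => by
    rw [← e0, (Nat.cast_commute π z).eq]
  have e1 : c = (π : ℚ)⁻¹ • (a * b) - (π : ℚ)⁻¹ • 1 := by
    rw [← smul_sub, h1, e0, inv_smul_smul₀ hq]
  have e2 : x' * (1 + w) = 1 - x * ((1 - b * a) * g) := eq_sub_of_add_eq' h2
  simp only [List.map_cons, List.map_nil, List.prod_cons, List.prod_nil, Matrix.one_fin_three,
    Matrix.of_add_of, Matrix.cons_add_cons, Matrix.empty_add_empty, Matrix.mul_fin_three,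
    add_zero, zero_add, mul_zero, zero_mul, mul_one, one_mul, neg_mul, mul_assoc _ (π - w), h3,
    e2]
  congr 1
  simp only [e0, e0', e1, smul_mul_assoc, mul_smul_comm, one_mul, mul_one, smul_add, smul_neg,
    smul_sub, smul_inv_smul₀ hq, mul_neg, mul_add, sub_mul, mul_sub, mul_assoc]
  congr <;> abel

variable {G : Type} [Group G]

/-- the lamps -/
abbrev NN (G : Type) : Type := Multiplicative (G →₀ ZMod 2)

/-- the shift action -/
noncomputable def sh : G →* MulAut (NN G) where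
  toFun g := (Finsupp.domCongr (Equiv.mulLeft g)).toMultiplicative
  map_one' := by ext x y; simp; rfl
  map_mul' g h := by ext x y; simp; rfl

/-- a lamp -/
noncomputable def dl (k : G) : NN G := Multiplicative.ofAdd (Finsupp.single k 1)

lemma sh_dl (g k : G) : sh g (dl k) = dl (g * k) := by simp [sh, dl]

omit [Group G] in
lemma dl_sq (k : G) : dl k * dl k = 1 := by
  rw [dl, ← ofAdd_add, ← Finsupp.single_add]; exact congrArg _ (Finsupp.single_zero k)

lemma fg (h : Group.FG G) : Group.FG (NN G ⋊[sh] G) := by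
  obtain ⟨S, hS, hf⟩ := Group.fg_iff.1 h
  refine Group.fg_iff.2 ⟨insert (SemidirectProduct.inl (dl 1)) (SemidirectProduct.inr '' S), ?_,
    (hf.image _).insert _⟩
  set H := Subgroup.closure (insert (SemidirectProduct.inl (dl 1))
    (SemidirectProduct.inr '' S) : Set (NN G ⋊[sh] G))
  have h1 : ∀ g, SemidirectProduct.inr g ∈ H := fun g =>
    Subgroup.closure_mono (Set.subset_insert _ _) (by
      rw [← MonoidHom.map_closure, hS]; exact ⟨g, trivial, rfl⟩)
  have h2 : ∀ k, SemidirectProduct.inl (dl k) ∈ H := fun k => by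
    rw [← mul_one k, ← sh_dl, SemidirectProduct.inl_aut]
    exact mul_mem (mul_mem (h1 k) (Subgroup.subset_closure (Set.mem_insert _ _))) (h1 _)
  have h3 : ∀ n : G →₀ ZMod 2, SemidirectProduct.inl (Multiplicative.ofAdd n) ∈ H := by
    intro n
    induction n using Finsupp.induction_linear with
    | zero => rw [ofAdd_zero, map_one]; exact one_mem _
    | add a b ha hb => rw [ofAdd_add, map_mul]; exact mul_mem ha hb
    | single k c =>
      have : ∀ c : ZMod 2, c = 0 ∨ c = 1 := by decide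
      rcases this c with rfl | rfl
      · rw [Finsupp.single_zero, ofAdd_zero, map_one]; exact one_mem _
      · exact h2 k
  rw [eq_top_iff]
  intro x _
  rw [← SemidirectProduct.inl_left_mul_inr_right x]
  exact mul_mem (h3 _) (h1 _)

lemma exists_F (K : Finset G) (hK : 1 ∉ K) : ∃ F : MonoidAlgebra ℤ (NN G ⋊[sh] G),
    F * F = 2 ^ (#K + 1) * F ∧ F.coeff 1 = 1 ∧
      ∀ k ∈ K, F * MonoidAlgebra.of ℤ _ (SemidirectProduct.inr k) * F = 0 := by
  classical
  let s : G → ℤ := fun k => if k = 1 then -1 else 1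
  let F₀ : MonoidAlgebra ℤ (NN G) := ∏ k ∈ insert 1 K, (1 + MonoidAlgebra.single (dl k) (s k))
  let ι := MonoidAlgebra.mapDomainRingHom ℤ (SemidirectProduct.inl : NN G →* NN G ⋊[sh] G)
  refine ⟨ι F₀, ?_, ?_, fun k hk => ?_⟩
  · rw [← map_mul, ← map_ofNat ι 2, ← map_pow, ← map_mul, ← Finset.prod_mul_distrib,
      ← Finset.card_insert_of_notMem hK, ← Finset.prod_const, ← Finset.prod_mul_distrib]
    refine congrArg _ (Finset.prod_congr rfl fun k _ => ?_)
    have : MonoidAlgebra.single (dl k) (s k) * MonoidAlgebra.single (dl k) (s k) = 1 := by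
      rw [MonoidAlgebra.single_mul_single, dl_sq, MonoidAlgebra.one_def]
      congr 1
      simp only [s]
      split_ifs <;> rfl
    linear_combination this
  · have : (ι F₀).coeff (SemidirectProduct.inl 1) = F₀.coeff 1 :=
      Finsupp.mapDomain_apply SemidirectProduct.inl_injective _ _
    rw [map_one] at this
    rw [this]
    simp only [F₀, Finset.prod_one_add, MonoidAlgebra.prod_single, MonoidAlgebra.coeff_sum,
      Finsupp.finsetSum_apply, MonoidAlgebra.coeff_single]
    rw [Finset.sum_eq_single ∅ _ (by simp)]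
    · simp
    · intro T _ hT
      obtain ⟨k, hk⟩ := Finset.nonempty_iff_ne_empty.2 hT
      refine Finsupp.single_eq_of_ne fun h => ?_
      have := DFunLike.congr_fun (congrArg Multiplicative.toAdd h) k
      simp [dl, toAdd_prod, Finsupp.finsetSum_apply, Finsupp.single_apply, hk] at this
  · let σ := MonoidAlgebra.mapDomainRingHom ℤ (sh k).toMonoidHom
    have h1 : ∀ z, MonoidAlgebra.of ℤ _ (SemidirectProduct.inr k) * ι z =
        ι (σ z) * MonoidAlgebra.of ℤ _ (SemidirectProduct.inr k) := by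
      intro z
      induction z using MonoidAlgebra.induction_linear with
      | zero => simp
      | add a b ha hb => simp only [map_add, mul_add, add_mul, ha, hb]
      | single n c =>
        simp [ι, σ, MonoidAlgebra.single_mul_single, SemidirectProduct.inl_aut]
    have h2 : (1 + MonoidAlgebra.single (dl k) (s k)) ∣ F₀ :=
      Finset.dvd_prod_of_mem _ (Finset.mem_insert_of_mem hk)
    have h3 := map_dvd σ (Finset.dvd_prod_of_mem
      (fun k => 1 + MonoidAlgebra.single (dl k) (s k)) (Finset.mem_insert_self 1 K))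
    have h4 : (1 + MonoidAlgebra.single (dl k) (s k)) *
        σ (1 + MonoidAlgebra.single (dl 1) (s 1)) = 0 := by
      have hk1 : k ≠ 1 := fun h => hK (h ▸ hk)
      have e1 : σ (MonoidAlgebra.single (dl 1) (s 1)) = -MonoidAlgebra.single (dl k) 1 := by
        rw [show s 1 = -1 from if_pos rfl, MonoidAlgebra.single_neg, map_neg]
        simp [σ, sh_dl]
      have e2 : MonoidAlgebra.single (dl k) (1 : ℤ) * MonoidAlgebra.single (dl k) 1 = 1 := by
        rw [MonoidAlgebra.single_mul_single, dl_sq, mul_one, MonoidAlgebra.one_def]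
      rw [map_add, map_one, e1, show s k = 1 from if_neg hk1]
      linear_combination -e2
    rw [mul_assoc, h1, ← mul_assoc, ← map_mul,
      show F₀ * σ F₀ = 0 from zero_dvd_iff.1 (h4 ▸ mul_dvd_mul h2 h3), map_zero, zero_mul]

end D2

open D2 in
theorem det2 : Det2Stmt := by
  intro p G _ hp hodd hG a b hab hba
  classical
  have := Fact.mk hp
  let red := MonoidAlgebra.mapRingHom G (Int.castRingHom (ZMod p))
  have hsurj : Function.Surjective red :=
    MonoidAlgebra.map_surjective _ (ZMod.ringHom_surjective (Int.castRingHom (ZMod p)))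
  obtain ⟨a, rfl⟩ := hsurj a
  obtain ⟨b₀, rfl⟩ := hsurj b
  obtain ⟨d, hd⟩ : ∃ d, 1 - a * b₀ = p * d := by
    refine ⟨.ofCoeff ((1 - a * b₀).coeff.mapRange (· / p) (by simp)), ?_⟩
    ext g
    have h : red (1 - a * b₀) = 0 := by rw [map_sub, map_mul, hab, map_one, sub_self]
    have h1 := congrArg (fun z => z.coeff g) h
    simp only [red, MonoidAlgebra.coeff_mapRingHom] at h1
    rw [← nsmul_eq_mul, MonoidAlgebra.coeff_smul_apply, nsmul_eq_mul]
    exact (Int.mul_ediv_cancel' ((ZMod.intCast_zmod_eq_zero_iff_dvd _ p).1 h1)).symm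
  obtain ⟨g₀, hg₀⟩ : ∃ g₀, ¬ (p : ℤ) ∣ (1 - b₀ * a).coeff g₀ := by
    by_contra hc
    push Not at hc
    refine hba (sub_eq_zero.1 ?_).symm
    rw [← map_mul, ← map_one red, ← map_sub]
    ext g
    exact (MonoidAlgebra.coeff_mapRingHom _ _ _).trans
      ((ZMod.intCast_zmod_eq_zero_iff_dvd _ p).2 (hc g))
  set z := (1 - b₀ * a) * MonoidAlgebra.of ℤ G g₀⁻¹ with hz
  obtain ⟨F, f1, f2, f3⟩ := exists_F (z.coeff.support.erase 1) (Finset.notMem_erase _ _)
  set j := #(z.coeff.support.erase 1) + 1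
  let ι := MonoidAlgebra.mapDomainRingHom ℤ (SemidirectProduct.inr : G →* NN G ⋊[sh] G)
  have f4 : F * ι z * F = (z.coeff 1 : ℤ) * (F * F) := by
    conv_lhs => rw [← z.sum_coeff_single, Finsupp.sum, map_sum, Finset.mul_sum, Finset.sum_mul]
    have e : ∀ k, F * ι (MonoidAlgebra.single k (z.coeff k)) * F =
        z.coeff k • (F * MonoidAlgebra.of ℤ _ (SemidirectProduct.inr k) * F) := fun k => by
      rw [← smul_mul_assoc, ← mul_smul_comm]; simp [ι]
    simp only [e]
    rw [Finset.sum_eq_single 1, map_one SemidirectProduct.inr, map_one (MonoidAlgebra.of ℤ _),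
      mul_one, zsmul_eq_mul]
    · intro k hk hk1
      rw [f3 k (Finset.mem_erase.2 ⟨hk1, hk⟩), smul_zero]
    · intro h
      rw [Finsupp.notMem_support_iff.1 h, zero_smul]
  have f5 : IsCoprime (z.coeff 1) p := by
    rw [hz, MonoidAlgebra.of_apply, MonoidAlgebra.coeff_mul_single_apply, inv_inv, one_mul,
      mul_one]
    exact ((Nat.prime_iff_prime_int.1 hp).irreducible.coprime_iff_not_dvd.2 hg₀).symm
  obtain ⟨i, hi⟩ : ∃ i, Nat.totient (2 ^ j) = i + 1 :=
    Nat.exists_eq_succ_of_ne_zero (Nat.totient_pos.2 (by positivity)).ne'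
  obtain ⟨ρ, hρ⟩ : ∃ ρ, p ^ (i + 1) = 2 ^ j * ρ + 1 := by
    have h1 := Nat.ModEq.pow_totient (Nat.Coprime.pow_right j (Nat.coprime_two_right.2 hodd))
    obtain ⟨ρ, h⟩ := (Nat.modEq_iff_dvd' (Nat.one_le_pow _ _ hp.pos)).1 h1.symm
    exact ⟨ρ, by rw [← h, hi, Nat.sub_add_cancel (Nat.one_le_pow _ _ hp.pos)]⟩
  have hρ0 : 0 < ρ := Nat.pos_of_ne_zero fun h => by
    have := Nat.one_lt_pow (Nat.succ_ne_zero i) hp.one_lt
    rw [hρ, h] at this
    simp at this
  obtain ⟨b, c, x, x', h1, h2⟩ := core (a := ι a) (b₀ := ι b₀) (d := ι d)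
    (g := ι (MonoidAlgebra.of ℤ G g₀⁻¹))
    (by rw [← map_mul, ← map_one ι, ← map_sub, hd, map_mul, map_natCast]) f1
    (by rw [← map_mul, ← map_one ι, ← map_sub, ← map_mul, f4]) f5 hρ
  set g := ι (MonoidAlgebra.of ℤ G g₀⁻¹)
  let f := MonoidAlgebra.mapRingHom (NN G ⋊[sh] G) (Int.castRingHom ℚ)
  have hw : f (ρ * F) * f (ρ * F) = ((2 : ℚ) ^ j * ρ) • f (ρ * F) := by
    rw [← map_mul, mul_assoc, ← mul_assoc F, ← (Nat.cast_commute ρ F).eq, mul_assoc, f1]
    simp only [map_mul, map_natCast, map_pow, map_ofNat, Algebra.smul_def, ← mul_assoc]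
    congr 1
    exact_mod_cast congrArg (Nat.cast : ℕ → MonoidAlgebra ℚ (NN G ⋊[sh] G))
      (show ρ * ρ * 2 ^ j = 2 ^ j * ρ * ρ by ring)
  refine ⟨_, _, !![ι a, c, -(c * ι a * g * ((p ^ (i + 1) : ℕ) - ρ * F));
    (p ^ (i + 1) : ℕ), b, (1 - b * ι a) * g * ((p ^ (i + 1) : ℕ) - ρ * F); -x, 0, x'], fg hG,
    !![0, 0, 0; 0, 0, 0; 0, 0, f (ρ * F)], 2 ^ j * ρ, _, by positivity, ?_, ?_, ?_,
    Eq.trans ?_ (matr (π := p ^ (i + 1)) (pow_ne_zero _ hp.ne_zero) (a := f (ι a)) (b := f b)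
      (c := f c) (g := f g) (w := f (ρ * F)) (x := f x) (x' := f x') ?_ ?_ ?_)⟩
  · simp only [Matrix.mul_fin_three, hw]
    ext i j : 1
    fin_cases i <;> fin_cases j <;> simp
  · simp [tr1, Fin.sum_univ_three, f, ← nsmul_eq_mul, f2, hρ0]
  · simp [tr1, Fin.sum_univ_three]
    refine ⟨?_, ?_, ?_, ?_, ?_⟩ <;> ext i j : 1 <;> fin_cases i <;> fin_cases j <;> rfl
  · congr 1
    ext i j : 1
    fin_cases i <;> fin_cases j <;> simp [f]
  · simpa using congrArg f h1
  · simpa using congrArg f h2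
  · rw [mul_add, mul_one, sub_mul, hw, hρ, Algebra.smul_def]
    simp only [map_mul, map_pow, map_ofNat, map_natCast]
    push_cast
    rw [add_mul, one_mul]
    abel

end Crest.Agent.KP
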