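import Crest.Agent.KP.Stmts

/-!
# KP / EUL: Euler's formula for planar maps, and the count of irregular links
-/

set_option autoImplicit false
set_option linter.unusedSectionVars false

namespace Crest.Agent.KP

open Finset Module

namespace EulAux

variable {T : Type} [Fintype T] [DecidableEq T] (φ : Equiv.Perm T) (α : T → T) (cut : Finset T)

/-- Vertices of the map. -/
def vs : Setoid T := Relation.EqvGen.setoid fun a b => ∃ t, t ∉ cut ∧ a = φ t ∧ b = α t

theorem vs_rel {t : T} (ht : t ∉ cut) :
    Quotient.mk (vs φ α cut) (φ t) = Quotient.mk (vs φ α cut) (α t) :=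
  Quotient.sound (Relation.EqvGen.rel _ _ ⟨t, ht, rfl, rfl⟩)

theorem vs_lift (u : T → ZMod 2) (hu : ∀ t, t ∉ cut → u (φ t) = u (α t)) :
    ∃ w : Quotient (vs φ α cut) → ZMod 2, ∀ t, w (Quotient.mk _ t) = u t := by
  refine ⟨Quotient.lift u fun a b h => ?_, fun t => rfl⟩
  induction h with
  | rel a b h => obtain ⟨t, ht, rfl, rfl⟩ := h; exact hu t ht
  | refl => rfl
  | symm _ _ _ ih => exact ih.symm
  | trans _ _ _ _ _ ih1 ih2 => exact ih1.trans ih2

theorem add_self2 (x : ZMod 2) : x + x = 0 := CharTwo.add_self_eq_zero x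

/-- Euler's inequality. -/
theorem euler [Nonempty T] [Fintype (Quotient (vs φ α cut))] (hP : PlanarC φ α cut)
    (hc : ∀ t, ∃ k : ℕ, (φ ^ k) t ∈ cut) (P : Finset T)
    (hPz : ∀ z : T → ZMod 2, ∑ t, z t = 0 → (∀ t, α t = t → z t = 0) →
      (∀ t ∈ P, z (α t) = z t) → ∀ t, z (α t) = z t) :
    Fintype.card T + 1 ≤
      Fintype.card (Quotient (vs φ α cut)) + #cut + #{t : T | α t = t} + #P := by
  set U : Finset T := {t : T | α t = t} with hU
  let δ : (T → ZMod 2) →ₗ[ZMod 2] (T → ZMod 2) :=
    { toFun := fun y t => y t + y (φ t)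
      map_add' := fun y y' => by funext t; simp only [Pi.add_apply]; ring
      map_smul' := fun c y => by funext t; simp only [Pi.smul_apply, smul_eq_mul, RingHom.id_apply]; ring }
  let L : (T → ZMod 2) →ₗ[ZMod 2] (cut → ZMod 2) × (U → ZMod 2) × (P → ZMod 2) :=
    { toFun := fun y => (fun t => y (φ t), fun t => δ y t, fun t => δ y t + δ y (α t))
      map_add' := fun y y' => by
        ext t <;> simp only [Pi.add_apply, Prod.fst_add, Prod.snd_add, map_add]
        ring
      map_smul' := fun c y => by
        ext t <;> simp only [Pi.smul_apply, smul_eq_mul, RingHom.id_apply, Prod.smul_fst,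
          Prod.smul_snd, map_smul]
        ring }
  let Θ : (Quotient (vs φ α cut) → ZMod 2) →ₗ[ZMod 2] (T → ZMod 2) :=
    { toFun := fun w t => w (Quotient.mk _ t) + w (Quotient.mk _ (α t))
      map_add' := fun y y' => by funext t; simp only [Pi.add_apply]; ring
      map_smul' := fun c y => by funext t; simp only [Pi.smul_apply, smul_eq_mul, RingHom.id_apply]; ring }
  have h1 : finrank (ZMod 2) (LinearMap.range L) + finrank (ZMod 2) (LinearMap.ker L) =
      Fintype.card T := by
    rw [LinearMap.finrank_range_add_finrank_ker]; simp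
  have h2 : finrank (ZMod 2) (LinearMap.range L) ≤ #cut + (#U + #P) := by
    refine (Submodule.finrank_le _).trans (le_of_eq ?_)
    simp [Module.finrank_prod]
  have h3 : finrank (ZMod 2) (LinearMap.range Θ) + finrank (ZMod 2) (LinearMap.ker Θ) =
      Fintype.card (Quotient (vs φ α cut)) := by
    rw [LinearMap.finrank_range_add_finrank_ker]; simp
  have h4 : 0 < finrank (ZMod 2) (LinearMap.ker Θ) := by
    rw [Module.finrank_pos_iff_exists_ne_zero]
    refine ⟨⟨fun _ => 1, ?_⟩, ?_⟩
    · rw [LinearMap.mem_ker]; funext t; exact add_self2 1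
    · intro h
      have := congrFun (congrArg Subtype.val h) (Quotient.mk _ (Classical.arbitrary T))
      exact one_ne_zero this
  have hδ : ∀ (y : T → ZMod 2) t, y (φ t) = y t + δ y t := fun y t => by
    change y (φ t) = y t + (y t + y (φ t))
    rw [← add_assoc, add_self2, zero_add]
  have hmem : ∀ y ∈ LinearMap.ker L, δ y ∈ LinearMap.range Θ := by
    intro y hy
    rw [LinearMap.mem_ker] at hy
    have e1 : ∀ t ∈ cut, y (φ t) = 0 := fun t ht => congrFun (congrArg Prod.fst hy) ⟨t, ht⟩
    have e2 : ∀ t, α t = t → δ y t = 0 := fun t ht =>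
      congrFun (congrArg (fun x => x.2.1) hy) ⟨t, by simp [hU, ht]⟩
    have e3 : ∀ t ∈ P, δ y (α t) = δ y t := fun t ht => by
      have : δ y t + δ y (α t) = 0 := congrFun (congrArg (fun x => x.2.2) hy) ⟨t, ht⟩
      have h5 := add_self2 (δ y t)
      exact add_left_cancel (this.trans h5.symm)
    have e4 : ∑ t, δ y t = 0 := by
      change ∑ t, (y t + y (φ t)) = 0
      rw [Finset.sum_add_distrib, Equiv.sum_comp φ y, add_self2]
    obtain ⟨u, hu1, hu2⟩ := hP (δ y) y (hPz _ e4 e2 e3) e2 (hδ y) e1
    obtain ⟨w, hw⟩ := vs_lift φ α cut u fun t ht => (hu1 t ht).trans (hu2 t).symm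
    refine ⟨w, ?_⟩
    funext t
    change w _ + w _ = _
    rw [hw, hw, hu2, ← add_assoc, add_self2, zero_add]
  have h5 : finrank (ZMod 2) (LinearMap.ker L) ≤ finrank (ZMod 2) (LinearMap.range Θ) := by
    refine LinearMap.finrank_le_finrank_of_injective
      (f := (δ.domRestrict (LinearMap.ker L)).codRestrict (LinearMap.range Θ)
        fun y => hmem y.1 y.2) ?_
    rw [injective_iff_map_eq_zero]
    intro y hy
    have hy0 : δ y.1 = 0 := congrArg Subtype.val hy
    have hy1 := y.2
    rw [LinearMap.mem_ker] at hy1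
    have e1 : ∀ t ∈ cut, y.1 (φ t) = 0 := fun t ht => congrFun (congrArg Prod.fst hy1) ⟨t, ht⟩
    have e2 : ∀ t, y.1 (φ t) = y.1 t := fun t => by rw [hδ y.1 t, hy0]; simp
    have e3 : ∀ (k : ℕ) t, y.1 ((φ ^ k) t) = y.1 t := by
      intro k
      induction k with
      | zero => intro t; rfl
      | succ k ih => intro t; rw [pow_succ', Equiv.Perm.mul_apply, e2, ih]
    apply Subtype.ext
    funext t
    obtain ⟨k, hk⟩ := hc t
    rw [← e3 k t, ← e2]
    exact e1 _ hk
  omega

/-- Counting vertices by their degrees. -/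
theorem count {Q : Type} [Fintype Q] [DecidableEq Q] (c : T → Q) (hc : Function.Surjective c) :
    6 * Fintype.card Q + #{s : T | 3 ≤ #{s' : T | c s' = c s}} ≤
      3 * Fintype.card T + 3 * #{s : T | #{s' : T | c s' = c s} = 1} := by
  have key : ∀ (p : ℕ → Prop) [DecidablePred p], #{s : T | p #{s' : T | c s' = c s}} =
      ∑ q : Q, if p #{s' : T | c s' = q} then #{s' : T | c s' = q} else 0 := by
    intro p _
    rw [Finset.card_eq_sum_card_fiberwise (f := c) (t := univ) (fun _ _ => by simp)]
    refine Finset.sum_congr rfl fun q _ => ?_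
    split_ifs with h
    · congr 1; ext s
      simp only [Finset.mem_filter, Finset.mem_univ, true_and]
      constructor
      · exact fun h' => h'.2
      · rintro rfl; exact ⟨h, rfl⟩
    · rw [Finset.card_eq_zero, Finset.filter_eq_empty_iff]
      rintro s hs rfl
      exact h (by simpa using hs)
  have h0 := key fun _ => True
  simp only [Finset.filter_true, Finset.card_univ, if_true] at h0
  rw [key (fun n => 3 ≤ n), key (fun n => n = 1), h0, ← Finset.card_univ, Finset.card_eq_sum_ones,
    Finset.mul_sum, Finset.mul_sum, Finset.mul_sum, ← Finset.sum_add_distrib,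
    ← Finset.sum_add_distrib]
  refine Finset.sum_le_sum fun q _ => ?_
  have hpos : 0 < #{s' : T | c s' = q} := by
    obtain ⟨s, hs⟩ := hc q
    exact Finset.card_pos.2 ⟨s, by simpa using hs⟩
  split_ifs <;> omega

theorem exists_half (hα : ∀ t, α (α t) = t) :
    ∃ P : Finset T, 2 * #P + #{t : T | α t = t} ≤ Fintype.card T ∧
      (∀ t ∈ P, α t ∉ P) ∧ ∀ t, α t = t ∨ t ∈ P ∨ α t ∈ P := by
  let e := Fintype.equivFin T
  refine ⟨univ.filter fun t => e t < e (α t), ?_, ?_, ?_⟩
  · set P : Finset T := univ.filter fun t => e t < e (α t) with hPdef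
    have hinj : Function.Injective α := Function.Involutive.injective hα
    have h1 : Disjoint P (P.image α) := by
      rw [Finset.disjoint_left]
      intro t ht ht'
      obtain ⟨s, hs, rfl⟩ := Finset.mem_image.1 ht'
      simp only [hPdef, Finset.mem_filter, Finset.mem_univ, true_and, hα] at ht hs
      exact lt_asymm ht hs
    have h2 : Disjoint (P ∪ P.image α) (univ.filter fun t : T => α t = t) := by
      rw [Finset.disjoint_left]
      intro t ht ht'
      simp only [Finset.mem_filter, Finset.mem_univ, true_and] at ht'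
      rcases Finset.mem_union.1 ht with ht | ht
      · simp [hPdef, ht'] at ht
      · obtain ⟨s, hs, rfl⟩ := Finset.mem_image.1 ht
        rw [hα] at ht'
        simp only [hPdef, Finset.mem_filter, Finset.mem_univ, true_and] at hs
        rw [← ht'] at hs
        exact lt_irrefl _ hs
    have h3 := Finset.card_le_univ ((P ∪ P.image α) ∪ (univ.filter fun t : T => α t = t))
    rw [Finset.card_union_of_disjoint h2, Finset.card_union_of_disjoint h1,
      Finset.card_image_of_injective _ hinj] at h3
    omega
  · intro t ht ht'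
    simp only [Finset.mem_filter, Finset.mem_univ, true_and, hα] at ht ht'
    exact lt_asymm ht ht'
  · intro t
    simp only [Finset.mem_filter, Finset.mem_univ, true_and, hα]
    rcases lt_trichotomy (e t) (e (α t)) with h | h | h
    · exact Or.inr (Or.inl h)
    · exact Or.inl (e.injective h).symm
    · exact Or.inr (Or.inr h)

theorem single_le [DecidableEq (Quotient (vs φ α cut))] (hα : ∀ t, α (α t) = t) (hne : ∀ t, t ∉ cut → α t ≠ t → φ t ≠ α t) :
    #{s : T | #{s' : T | Quotient.mk (vs φ α cut) s' = Quotient.mk (vs φ α cut) s} = 1} ≤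
      #cut + #{t : T | α t = t} := by
  refine le_trans (Finset.card_le_card (t := cut.image α ∪ (univ.filter fun t : T => α t = t)) fun s hs => ?_)
    ((Finset.card_union_le _ _).trans (Nat.add_le_add_right Finset.card_image_le _))
  simp only [Finset.mem_filter, Finset.mem_univ, true_and] at hs
  by_cases h : α s ∈ cut
  · exact Finset.mem_union_left _ (Finset.mem_image.2 ⟨α s, h, hα s⟩)
  · refine Finset.mem_union_right _ ?_
    simp only [Finset.mem_filter, Finset.mem_univ, true_and]
    by_contra h'
    have h1 := vs_rel φ α cut h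
    rw [hα] at h1
    have h2 : φ (α s) = s := Finset.card_le_one.1 hs.le _ (by simpa using h1) _ (by simp)
    exact hne (α s) h (by rw [hα]; exact fun h'' => h' h''.symm) (by rw [hα]; exact h2)

end EulAux

open EulAux in
theorem eul : EulStmt := by
  classical
  intro T _ _ φ α cut hα hP hc hne
  rcases isEmpty_or_nonempty T with hT | hT
  · refine ⟨⟨∅, fun t => isEmptyElim t, by simp⟩, fun _ => ?_⟩
    rw [Finset.eq_empty_of_isEmpty cut]; simp
  obtain ⟨P, hP1, hP2, hP3⟩ := exists_half α hα
  have hcount := count (Quotient.mk (vs φ α cut)) Quotient.mk_surjective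
  have hsingle := single_le φ α cut hα hne
  constructor
  · have he := euler φ α cut hP hc P fun z _ h1 h2 t => by
      rcases hP3 t with h | h | h
      · rw [h]
      · exact h2 t h
      · have := h2 _ h
        rw [hα] at this
        exact this.symm
    set D3 : Finset T :=
      {s : T | 3 ≤ #{s' : T | Quotient.mk (vs φ α cut) s' = Quotient.mk (vs φ α cut) s}} with hD3
    set U : Finset T := {t : T | α t = t} with hU
    refine ⟨cut ∪ (U ∪ (U ∪ (cut.image α ∪ D3)).image φ.symm), fun t ht => ?_, ?_⟩
    · simp only [Finset.mem_union, not_or] at ht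
      obtain ⟨h1, h2, h3⟩ := ht
      have h4 : φ t ∉ U ∪ (cut.image α ∪ D3) := fun h =>
        h3 (Finset.mem_image.2 ⟨φ t, h, by simp⟩)
      simp only [Finset.mem_union, not_or] at h4
      obtain ⟨h4, h5, h6⟩ := h4
      have h2' : α t ≠ t := by simpa [hU] using h2
      have h4' : α (φ t) ≠ φ t := by simpa [hU] using h4
      have h5' : α (φ t) ∉ cut := fun h => h5 (Finset.mem_image.2 ⟨_, h, hα _⟩)
      refine ⟨h1, Or.inr ⟨h2', h4', ?_, h5'⟩⟩
      by_contra h7
      apply h6
      simp only [hD3, Finset.mem_filter, Finset.mem_univ, true_and]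
      have a1 := hne t h1 h2'
      have a2 : φ t ≠ φ (α (φ t)) := fun h => a1 (by
        have := φ.injective h
        rw [← hα (φ t), ← this])
      have a3 := vs_rel φ α cut h5'
      rw [hα] at a3
      have a4 := vs_rel φ α cut h1
      exact Finset.two_lt_card_iff.2 ⟨φ t, α t, φ (α (φ t)), by simp,
        Finset.mem_filter.2 ⟨Finset.mem_univ _, a4.symm⟩,
        Finset.mem_filter.2 ⟨Finset.mem_univ _, a3⟩, a1, a2, fun h => h7 h.symm⟩
    · have b1 := Finset.card_union_le cut (U ∪ (U ∪ (cut.image α ∪ D3)).image φ.symm)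
      have b2 := Finset.card_union_le U ((U ∪ (cut.image α ∪ D3)).image φ.symm)
      have b3 : #((U ∪ (cut.image α ∪ D3)).image φ.symm) ≤ #(U ∪ (cut.image α ∪ D3)) :=
        Finset.card_image_le
      have b4 := Finset.card_union_le U (cut.image α ∪ D3)
      have b5 := Finset.card_union_le (cut.image α) D3
      have b6 : #(cut.image α) ≤ #cut := Finset.card_image_le
      omega
  · intro hfree hcut
    obtain ⟨p, hp⟩ : P.Nonempty := by
      rcases hP3 (Classical.arbitrary T) with h | h | h
      · exact absurd h (hfree _)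
      · exact ⟨_, h⟩
      · exact ⟨_, h⟩
    have he := euler φ α cut hP hc (P.erase p) fun z h0 h1 h2 => by
      have h3 : ∀ t, t ≠ p → t ≠ α p → z (α t) = z t := by
        intro t ht1 ht2
        rcases hP3 t with h | h | h
        · rw [h]
        · exact h2 t (Finset.mem_erase.2 ⟨ht1, h⟩)
        · have := h2 _ (Finset.mem_erase.2 ⟨fun h' => ht2 (by rw [← h', hα]), h⟩)
          rw [hα] at this
          exact this.symm
      have h4 : ∑ t ∈ (univ.erase p).erase (α p), z t = 0 := by
        refine Finset.sum_involution (fun t _ => α t) (fun t ht => ?_) (fun t _ _ => hfree t)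
          (fun t ht => ?_) (fun t _ => hα t)
        · simp only [Finset.mem_erase, Finset.mem_univ, and_true] at ht
          rw [h3 t ht.2 ht.1, add_self2]
        · simp only [Finset.mem_erase, Finset.mem_univ, and_true] at ht ⊢
          exact ⟨fun h => ht.2 (by rw [← hα t, h, hα]), fun h => ht.1 (by rw [← h, hα])⟩
      have h5 : z (α p) = z p := by
        rw [← Finset.add_sum_erase _ _ (Finset.mem_univ p),
          ← Finset.add_sum_erase _ _ (show α p ∈ univ.erase p by simp [hfree p]), h4,
          add_zero] at h0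
        exact add_left_cancel (h0.trans (add_self2 (z p)).symm)
      intro t
      by_cases ht1 : t = p
      · rw [ht1, h5]
      by_cases ht2 : t = α p
      · rw [ht2, hα, h5]
      · exact h3 t ht1 ht2
    have h6 := Finset.card_erase_add_one hp
    have h7 : #{t : T | α t = t} = 0 := by simpa using hfree
    omega

end Crest.Agent.KP
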