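import Crest.Agent.KP.Stmts

/-!
# KP: the five final statements from the sub-task propositions
-/

set_option autoImplicit false

namespace Crest.Agent.KP

open Crest.Topology Crest.GroupTheory Crest.AlgebraR.GroupRingDet

namespace Fin5

lemma fg_G {X R : Type} [Fintype X] (P : TriPres X R) : Group.FG P.G :=
  Group.fg_of_surjective (f := PresentedGroup.mk (Set.range P.rel))
    (PresentedGroup.mk_surjective _)

lemma fp_G {X R : Type} [Fintype X] [Fintype R] (P : TriPres X R) :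
    Group.IsFinitelyPresented P.G := inferInstance

/-- Group algebras of residually finite groups over finite rings are directly finite. -/
lemma directlyFinite {K G : Type} [Ring K] [Finite K] [Group G] [Group.ResiduallyFinite G]
    (a b : MonoidAlgebra K G) (hab : a * b = 1) : b * a = 1 := by
  classical
  set e : MonoidAlgebra K G := b * a - 1 with he
  set s : Finset G := e.coeff.support with hs
  have hsep : ∀ x : {x : G × G // x ∈ s.offDiag}, ∃ H : FiniteIndexNormalSubgroup G,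
      x.1.1⁻¹ * x.1.2 ∉ H := fun x =>
    Group.exists_finiteIndexNormalSubgroup_notMem _ fun h =>
      (Finset.mem_offDiag.1 x.2).2.2 (eq_of_inv_mul_eq_one h)
  choose H hH using hsep
  let N : Subgroup G := ⨅ x, (H x).toSubgroup
  have hN : N.Normal := Subgroup.normal_iInf_normal fun x => (H x).isNormal'
  have hF : N.FiniteIndex := Subgroup.finiteIndex_iInf fun x => (H x).isFiniteIndex'
  let π : G →* G ⧸ N := QuotientGroup.mk' N
  have hinj : Set.InjOn π (s : Set G) := by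
    intro x hx y hy hxy
    by_contra hne
    have h1 : x⁻¹ * y ∈ N := QuotientGroup.eq.1 hxy
    exact hH ⟨(x, y), Finset.mem_offDiag.2 ⟨hx, hy, hne⟩⟩ (Subgroup.mem_iInf.1 h1 _)
  let Φ := MonoidAlgebra.mapDomainRingHom K π
  have hfin : Finite (MonoidAlgebra K (G ⧸ N)) :=
    Finite.of_injective (fun x : MonoidAlgebra K (G ⧸ N) => (x.coeff : G ⧸ N → K))
      fun x y h => by ext g; exact congrFun h g
  have h1 : Φ a * Φ b = 1 := by rw [← map_mul, hab, map_one]
  have h2 : Φ e = 0 := by rw [he, map_sub, map_mul, map_one, mul_eq_one_symm h1, sub_self]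
  have h3 : Finsupp.mapDomain π e.coeff = Finsupp.mapDomain π 0 := by
    rw [Finsupp.mapDomain_zero]
    exact congrArg MonoidAlgebra.coeff h2
  have h4 : e.coeff = 0 :=
    Finsupp.mapDomain_injOn (s : Set G) hinj (by simp [hs]) (by simp) h3
  rw [← sub_eq_zero, ← he]
  ext g
  simp [h4]

lemma odd_char (m : ℕ) (hm : 2 ≤ m) (hM : MainStmt) :
    Nat.Prime (Nat.minFac (m.factorial ^ 2 + 1)) ∧ Odd (Nat.minFac (m.factorial ^ 2 + 1)) ∧
    ∃ (K : Type) (_ : Field K) (G : Type) (_ : Group G),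
      Nat.card K = Nat.minFac (m.factorial ^ 2 + 1) ^ 4 ∧
      Group.FG G ∧ (∃ g : G, g ≠ 1 ∧ IsOfFinOrder g) ∧
      ∃ a b : MonoidAlgebra K G, a * b = 1 ∧ b * a ≠ 1 := by
  have hpos : 0 < m.factorial ^ 2 := pow_pos (Nat.factorial_pos m) 2
  have hp : Nat.Prime (Nat.minFac (m.factorial ^ 2 + 1)) := Nat.minFac_prime (by omega)
  have hev : Even (m.factorial ^ 2) :=
    (Nat.even_pow' (by norm_num)).2 (even_iff_two_dvd.2 (Nat.dvd_factorial (by norm_num) hm))
  refine ⟨hp, Odd.of_dvd_nat hev.add_one (Nat.minFac_dvd _), ?_⟩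
  generalize Nat.minFac (m.factorial ^ 2 + 1) = p at hp
  have : Fact p.Prime := ⟨hp⟩
  obtain ⟨X, R, _, _, P, C, -, a, b, hab, hba⟩ := hM p hp
  have := fg_G P
  let G := P.G × Equiv.Perm (Fin 2)
  let Φ : MonoidAlgebra (ZMod p) P.G →+* MonoidAlgebra (GaloisField p 4) G :=
    (MonoidAlgebra.mapRingHom G (algebraMap (ZMod p) (GaloisField p 4))).comp
      (MonoidAlgebra.mapDomainRingHom (ZMod p) (MonoidHom.inl P.G (Equiv.Perm (Fin 2))))
  have hΦ : Function.Injective Φ :=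
    (MonoidAlgebra.map_injective _ (algebraMap (ZMod p) (GaloisField p 4)).injective).comp
      (MonoidAlgebra.mapDomain_injective fun x y h => congrArg Prod.fst h)
  refine ⟨GaloisField p 4, inferInstance, G, inferInstance, GaloisField.card p 4 (by norm_num),
    inferInstance, ⟨(1, Equiv.swap 0 1), ?_, ?_⟩, Φ a, Φ b, ?_, ?_⟩
  · intro h
    have h1 : Equiv.swap (0 : Fin 2) 1 = 1 := congrArg Prod.snd h
    exact absurd h1 (by decide)
  · refine isOfFinOrder_iff_pow_eq_one.2 ⟨2, by norm_num, ?_⟩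
    refine Prod.ext (one_pow 2) ?_
    change Equiv.swap (0 : Fin 2) 1 ^ 2 = 1
    decide
  · rw [← map_mul, hab, map_one]
  · rw [← map_mul]
    intro h
    exact hba (hΦ (h.trans (map_one Φ).symm))

end Fin5

open Fin5

/-- Statement of S0274. -/
theorem fin274 (hM : MainStmt) (hA : AlgStmt) (h1 : Top1Stmt) (h2 : Top2Stmt) :
    ∃ (G : Type) (_ : Group G), Group.IsFinitelyPresented G ∧ (∀ g : G, IsOfFinOrder g → g = 1) ∧
      HasFiniteClassifyingComplex G 2 ∧
      ∃ a b : MonoidAlgebra (ZMod 2) G, a * b = 1 ∧ b * a ≠ 1 := by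
  obtain ⟨X, R, _, _, P, C, hI, hab⟩ := hM 2 Nat.prime_two
  obtain ⟨-, -, hA3, hA4⟩ := hA X R P
  have hH := (hA3 C hI).1
  exact ⟨P.G, inferInstance, fp_G P, hA4 hH, h1 X R P (h2 X R P hH), hab⟩

/-- Statement of S0267. -/
theorem fin267 (hM : MainStmt) (hA : AlgStmt) (h1 : Top1Stmt) (h2 : Top2Stmt) :
    ∃ (G : Type) (_ : Group G), Group.IsFinitelyPresented G ∧ (∀ g : G, IsOfFinOrder g → g = 1) ∧
      HasFiniteClassifyingComplex G 2 ∧
      ∃ a b : MonoidAlgebra (ZMod 2) G, a ≠ 0 ∧ b ≠ 0 ∧ a * b = 0 := by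
  obtain ⟨G, _, hfp, htf, hK, a, b, hab, hba⟩ := fin274 hM hA h1 h2
  refine ⟨G, inferInstance, hfp, htf, hK, 1 - b * a, b, fun h => hba (sub_eq_zero.1 h).symm,
    fun h => ?_, ?_⟩
  · rw [h, mul_zero] at hab
    exact zero_ne_one hab
  · rw [sub_mul, one_mul, mul_assoc, hab, mul_one, sub_self]

/-- Statement of S0275. -/
theorem fin275 (hM : MainStmt) :
    Nat.Prime (Nat.minFac ((Nat.choose 1200 600).factorial ^ 2 + 1)) ∧
    Odd (Nat.minFac ((Nat.choose 1200 600).factorial ^ 2 + 1)) ∧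
    ∃ (K : Type) (_ : Field K) (G : Type) (_ : Group G),
      Nat.card K = Nat.minFac ((Nat.choose 1200 600).factorial ^ 2 + 1) ^ 4 ∧
      Group.FG G ∧ (∃ g : G, g ≠ 1 ∧ IsOfFinOrder g) ∧
      ∃ a b : MonoidAlgebra K G, a * b = 1 ∧ b * a ≠ 1 := by
  refine odd_char (Nat.choose 1200 600) ?_ hM
  have h1 : Nat.choose (600 + 1) 600 ≤ Nat.choose 1200 600 :=
    Nat.choose_le_choose 600 (by norm_num)
  rw [Nat.choose_succ_self_right] at h1
  exact le_trans (by norm_num) h1

/-- Statement of S0276. -/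
theorem fin276 (hM : MainStmt) (hD1 : Det1Stmt) (hD2 : Det2Stmt) :
    ∃ (G : Type) (_ : Group G) (n : ℕ) (A : Matrix (Fin n) (Fin n) (MonoidAlgebra ℤ G))
      (H : Type) (_ : NormedAddCommGroup H) (_ : InnerProductSpace ℂ H) (_ : CompleteSpace H)
      (b : HilbertBasis (Fin n × G) ℂ H) (T : H →L[ℂ] H),
      Group.FG G ∧ 1 ≤ n ∧ IsUnit (A.map (MonoidAlgebra.mapRingHom G (Int.castRingHom ℚ))) ∧
      IsRegularRepOperator b A T ∧ logDet b T < 0 := by
  obtain ⟨X, R, _, _, P, C, -, a, b, hab, hba⟩ := hM 3 Nat.prime_three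
  obtain ⟨G, _, A, hG, hA⟩ := hD2 3 P.G Nat.prime_three (by decide) (fg_G P) a b hab hba
  obtain ⟨hU, H, _, _, _, β, T, hT, hlog⟩ := hD1 G 3 A hA
  exact ⟨G, inferInstance, 3, A, H, inferInstance, inferInstance, inferInstance, β, T, hG,
    by norm_num, hU, hT, hlog⟩

/-- Statement of S0303. -/
theorem fin303 (hM : MainStmt) (hA : AlgStmt) (hH : HypStmt) :
    ∃ (G : Type) (_ : Group G),
      (∀ g : G, IsOfFinOrder g → g = 1) ∧ Crest.GroupTheory.IsHyperbolicGroup G ∧
        ¬ Group.ResiduallyFinite G := by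
  obtain ⟨X, R, _, _, P, C, hI, a, b, hab, hba⟩ := hM 2 Nat.prime_two
  obtain ⟨-, -, hA3, hA4⟩ := hA X R P
  obtain ⟨h2, hL⟩ := hA3 C hI
  exact ⟨P.G, inferInstance, hA4 h2, hH X R P C hL, fun _ => hba (directlyFinite a b hab)⟩

end Crest.Agent.KP
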