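import Mathlib

/-!
# KP / GLO, part 1: cutting the cycles of a permutation into pieces of controlled length
-/

set_option autoImplicit false

namespace Crest.Agent.KP.Glo

open Finset

variable {T : Type} [DecidableEq T]

section dist

variable (φ : Equiv.Perm T) (C : Finset T) (hC : ∀ t, ∃ k : ℕ, (φ ^ k) t ∈ C)

/-- Number of steps to the next element of `C`. -/
noncomputable def dist (t : T) : ℕ := Nat.find (hC t)

/-- The next element of `C`. -/
noncomputable def nxt (t : T) : T := (φ ^ dist φ C hC t) t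

lemma nxt_mem (t : T) : nxt φ C hC t ∈ C := Nat.find_spec (hC t)

lemma dist_min (t : T) {k : ℕ} (hk : k < dist φ C hC t) : (φ ^ k) t ∉ C := Nat.find_min (hC t) hk

lemma dist_le (t : T) {k : ℕ} (hk : (φ ^ k) t ∈ C) : dist φ C hC t ≤ k := Nat.find_min' (hC t) hk

lemma dist_eq (t : T) {k : ℕ} (hk : (φ ^ k) t ∈ C) (hlt : ∀ i, i < k → (φ ^ i) t ∉ C) :
    dist φ C hC t = k := by
  refine le_antisymm (dist_le φ C hC t hk) ?_
  by_contra h
  exact hlt _ (not_le.mp h) (nxt_mem φ C hC t)

lemma dist_of_mem {t : T} (ht : t ∈ C) : dist φ C hC t = 0 :=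
  dist_eq φ C hC t (by simpa using ht) (fun i hi => absurd hi (Nat.not_lt_zero i))

lemma nxt_of_mem {t : T} (ht : t ∈ C) : nxt φ C hC t = t := by
  simp [nxt, dist_of_mem φ C hC ht]

lemma dist_pow (t : T) {k : ℕ} (hk : k ≤ dist φ C hC t) :
    dist φ C hC ((φ ^ k) t) = dist φ C hC t - k := by
  apply dist_eq
  · rw [← Equiv.Perm.mul_apply, ← pow_add, Nat.sub_add_cancel hk]
    exact nxt_mem φ C hC t
  · intro i hi
    rw [← Equiv.Perm.mul_apply, ← pow_add]
    exact dist_min φ C hC t (by omega)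

lemma nxt_pow (t : T) {k : ℕ} (hk : k ≤ dist φ C hC t) :
    nxt φ C hC ((φ ^ k) t) = nxt φ C hC t := by
  unfold nxt
  rw [dist_pow φ C hC t hk, ← Equiv.Perm.mul_apply, ← pow_add, Nat.sub_add_cancel hk]

lemma dist_pos {t : T} (ht : t ∉ C) : 0 < dist φ C hC t := by
  rcases Nat.eq_zero_or_pos (dist φ C hC t) with h | h
  · have := nxt_mem φ C hC t
    simp [nxt, h] at this
    exact absurd this ht
  · exact h

lemma nxt_step {t : T} (ht : t ∉ C) : nxt φ C hC (φ t) = nxt φ C hC t := by
  have := nxt_pow φ C hC t (k := 1) (dist_pos φ C hC ht)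
  simpa using this

include hC in
lemma ind (P : T → Prop) (h0 : ∀ j ∈ C, P j) (h1 : ∀ t, t ∉ C → P (φ t) → P t) : ∀ t, P t := by
  have : ∀ k : ℕ, ∀ t, (φ ^ k) t ∈ C → P t := by
    intro k
    induction k with
    | zero => intro t ht; exact h0 t (by simpa using ht)
    | succ k ih =>
      intro t ht
      by_cases htC : t ∈ C
      · exact h0 t htC
      · exact h1 t htC (ih _ (by rwa [pow_succ, Equiv.Perm.mul_apply] at ht))
  intro t
  obtain ⟨k, hk⟩ := hC t
  exact this k t hk

lemma eq_of_nxt_dist {a b : T} (h1 : nxt φ C hC a = nxt φ C hC b)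
    (h2 : dist φ C hC a = dist φ C hC b) : a = b := by
  unfold nxt at h1
  rw [h2] at h1
  exact (φ ^ _).injective h1

variable [Fintype T]

lemma dist_lt_len (t : T) :
    dist φ C hC t + 1 ≤ #{s : T | nxt φ C hC s = nxt φ C hC t} := by
  have : #(Finset.range (dist φ C hC t + 1)) ≤ #{s : T | nxt φ C hC s = nxt φ C hC t} := by
    apply Finset.card_le_card_of_injOn (fun i => (φ ^ i) t)
    · intro i hi
      have hi' : i ≤ dist φ C hC t := by simpa [Nat.lt_succ_iff] using hi
      simpa using nxt_pow φ C hC t hi'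
    · intro i hi j hj hij
      have hi' : i ≤ dist φ C hC t := by simpa [Nat.lt_succ_iff] using hi
      have hj' : j ≤ dist φ C hC t := by simpa [Nat.lt_succ_iff] using hj
      have h1 := dist_pow φ C hC t hi'
      have h2 := dist_pow φ C hC t hj'
      simp only at hij
      rw [hij] at h1
      omega
  simpa using this

lemma len_le (D : ℕ) (hD : ∀ t, dist φ C hC t < D) (j : T) :
    #{s : T | nxt φ C hC s = j} ≤ D := by
  have : #{s : T | nxt φ C hC s = j} ≤ #(Finset.range D) := by
    apply Finset.card_le_card_of_injOn (fun s => dist φ C hC s)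
    · intro s _
      simpa using hD s
    · intro a ha b hb hab
      have ha' : nxt φ C hC a = j := by simpa using ha
      have hb' : nxt φ C hC b = j := by simpa using hb
      exact eq_of_nxt_dist φ C hC (ha'.trans hb'.symm) hab
  simpa using this

/-- First return map to `C` (identity off `C`). -/
noncomputable def ret (t : T) : T := if t ∈ C then nxt φ C hC (φ t) else t

omit [Fintype T] in
lemma ret_aux {a b : T} (ha : a ∈ C)
    (h : nxt φ C hC (φ a) = nxt φ C hC (φ b))
    (hle : dist φ C hC (φ a) ≤ dist φ C hC (φ b)) : a = b := by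
  obtain ⟨e, he⟩ := Nat.exists_eq_add_of_le hle
  have h1 : φ a = (φ ^ e) (φ b) := by
    unfold nxt at h
    rw [he, pow_add, Equiv.Perm.mul_apply] at h
    exact (φ ^ _).injective h
  rcases e with _ | e
  · exact φ.injective (by simpa using h1)
  · exfalso
    have h2 : a = (φ ^ e) (φ b) := by
      apply φ.injective
      rw [h1, pow_succ', Equiv.Perm.mul_apply]
    exact dist_min φ C hC (φ b) (k := e) (by omega) (h2 ▸ ha)

omit [Fintype T] in
lemma ret_inj : Function.Injective (ret φ C hC) := by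
  intro a b hab
  unfold ret at hab
  by_cases ha : a ∈ C <;> by_cases hb : b ∈ C <;> simp only [ha, hb, if_true, if_false] at hab
  · rcases le_total (dist φ C hC (φ a)) (dist φ C hC (φ b)) with h | h
    · exact ret_aux φ C hC ha hab h
    · exact (ret_aux φ C hC hb hab.symm h).symm
  · exact absurd (hab ▸ nxt_mem φ C hC (φ a)) hb
  · exact absurd (hab ▸ nxt_mem φ C hC (φ b)) ha
  · exact hab

/-- The permutation that closes up every piece. -/
noncomputable def close : Equiv.Perm T :=
  φ * (Equiv.ofBijective (ret φ C hC) (Finite.injective_iff_bijective.mp (ret_inj φ C hC))).symm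

lemma close_ret (t : T) : close φ C hC (ret φ C hC t) = φ t := by
  unfold close
  rw [Equiv.Perm.mul_apply]
  congr 1
  exact (Equiv.ofBijective (ret φ C hC) _).symm_apply_apply t

lemma close_of_not_mem {t : T} (ht : t ∉ C) : close φ C hC t = φ t := by
  have := close_ret φ C hC t
  rwa [ret, if_neg ht] at this

lemma close_nxt {j : T} (hj : j ∈ C) : close φ C hC (nxt φ C hC (φ j)) = φ j := by
  have := close_ret φ C hC j
  rwa [ret, if_pos hj] at this

lemma exists_ret {j : T} (hj : j ∈ C) : ∃ j' ∈ C, nxt φ C hC (φ j') = j := by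
  obtain ⟨j', hj'⟩ := (Finite.injective_iff_surjective.mp (ret_inj φ C hC)) j
  by_cases h : j' ∈ C
  · exact ⟨j', h, by rwa [ret, if_pos h] at hj'⟩
  · rw [ret, if_neg h] at hj'
    exact absurd (hj' ▸ hj) h

lemma nxt_close (t : T) : nxt φ C hC (close φ C hC t) = nxt φ C hC t := by
  by_cases ht : t ∈ C
  · obtain ⟨j', hj', h⟩ := exists_ret φ C hC ht
    have h2 := close_nxt φ C hC hj'
    rw [h] at h2
    rw [h2, h, nxt_of_mem φ C hC ht]
  · rw [close_of_not_mem φ C hC ht, nxt_step φ C hC ht]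

lemma nxt_eq_iff (a b : T) : nxt φ C hC a = nxt φ C hC b ↔ (close φ C hC).SameCycle a b := by
  have h1 : ∀ t, (close φ C hC).SameCycle t (nxt φ C hC t) := by
    apply ind φ C hC
    · intro j hj
      rw [nxt_of_mem φ C hC hj]
    · intro t ht h
      rw [nxt_step φ C hC ht, ← close_of_not_mem φ C hC ht] at h
      exact Equiv.Perm.sameCycle_apply_left.mp h
  constructor
  · intro h
    exact (h1 a).trans (h ▸ (h1 b).symm)
  · intro h
    obtain ⟨k, hk⟩ := h.exists_nat_pow_eq
    subst hk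
    induction k with
    | zero => simp
    | succ k ih =>
      rw [pow_succ', Equiv.Perm.mul_apply, nxt_close]
      exact ih ⟨k, by simp⟩

end dist

/-- Seams. -/
theorem seams [Fintype T] (φ : Equiv.Perm T) (cut : Finset T) (Δ : ℕ) (hΔ : 1 ≤ Δ) :
    ∃ (Sm : Finset T) (φ' : Equiv.Perm T) (f : T → T),
      cut ⊆ Sm ∧ (∀ t, ∃ k : ℕ, (φ ^ k) t ∈ Sm) ∧ (∀ t, t ∉ Sm → φ' t = φ t) ∧
      (∀ t, f t ∈ Sm) ∧ (∀ j ∈ Sm, f j = j) ∧ (∀ t, f (φ' t) = f t) ∧
      (∀ a b, f a = f b ↔ φ'.SameCycle a b) ∧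
      (∀ j ∈ Sm, ∃ j' ∈ Sm, φ j = φ' j') ∧
      (∀ j, #{t : T | f t = j} ≤ 2 * Δ) ∧
      ∀ j ∈ Sm, Δ ≤ #{t : T | f t = j} ∨ (j ∈ cut ∧ ∃ j' ∈ cut, φ' j = φ j') ∨
        (φ' j = φ j ∧ ∃ m, 0 < m ∧ m ≤ #{t : T | f t = j} ∧ (φ ^ m) j = j ∧
          ∀ i : ℕ, (φ ^ i) j ∉ cut) := by
  classical
  let rep : T → T := fun t => (Quotient.mk (Equiv.Perm.SameCycle.setoid φ) t).out
  have rep_sc : ∀ t, φ.SameCycle (rep t) t := fun t =>
    Quotient.mk_out (s := Equiv.Perm.SameCycle.setoid φ) t
  have rep_eq : ∀ a b, φ.SameCycle a b → rep a = rep b := fun a b h => by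
    have : Quotient.mk (Equiv.Perm.SameCycle.setoid φ) a =
        Quotient.mk (Equiv.Perm.SameCycle.setoid φ) b := Quotient.sound h
    simp only [rep, this]
  let C0 : Finset T :=
    cut ∪ Finset.univ.filter (fun t : T => (∀ s ∈ cut, ¬ φ.SameCycle t s) ∧ rep t = t)
  have hC0 : ∀ t, ∃ k : ℕ, (φ ^ k) t ∈ C0 := by
    intro t
    by_cases h : ∃ s ∈ cut, φ.SameCycle t s
    · obtain ⟨s, hs, hts⟩ := h
      obtain ⟨k, hk⟩ := hts.exists_nat_pow_eq
      exact ⟨k, by rw [hk]; exact Finset.mem_union_left _ hs⟩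
    · push Not at h
      obtain ⟨k, hk⟩ := (rep_sc t).symm.exists_nat_pow_eq
      refine ⟨k, ?_⟩
      rw [hk]
      apply Finset.mem_union_right
      simp only [Finset.mem_filter, Finset.mem_univ, true_and]
      exact ⟨fun s hs h' => h s hs ((rep_sc t).symm.trans h'), rep_eq _ _ (rep_sc t)⟩
  let near : T → Prop := fun j => ∃ s ∈ C0, ∃ i, 1 ≤ i ∧ i < Δ ∧ (φ ^ i) s = j
  let Sm : Finset T := {t : T | t ∈ C0 ∨ (Δ ∣ dist φ C0 hC0 t ∧ ¬ near t)}
  have memSm : ∀ t, t ∈ Sm ↔ t ∈ C0 ∨ (Δ ∣ dist φ C0 hC0 t ∧ ¬ near t) := fun t => by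
    simp [Sm]
  have hsub : C0 ⊆ Sm := fun t ht => (memSm t).mpr (Or.inl ht)
  have hSm : ∀ t, ∃ k : ℕ, (φ ^ k) t ∈ Sm := fun t => by
    obtain ⟨k, hk⟩ := hC0 t
    exact ⟨k, hsub hk⟩
  have hdvd : ∀ j ∈ Sm, Δ ∣ dist φ C0 hC0 j := fun j hj => by
    rcases (memSm j).mp hj with h | h
    · rw [dist_of_mem φ C0 hC0 h]; exact dvd_zero _
    · exact h.1
  -- going back from a seam through non-`C0` elements meets no seam
  have hback : ∀ j ∈ Sm, ∀ s i, 1 ≤ i → i < Δ → (φ ^ i) s = j → (∀ e, e < i → (φ ^ e) s ∉ C0) →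
      s ∉ Sm := by
    intro j hj s i hi1 hi2 hs hno hsS
    have hle : i ≤ dist φ C0 hC0 s := by
      by_contra hlt
      exact hno _ (not_le.mp hlt) (nxt_mem φ C0 hC0 s)
    have h1 := dist_pow φ C0 hC0 s hle
    rw [hs] at h1
    have h2 := hdvd j hj
    have h3 := hdvd s hsS
    have h4 : dist φ C0 hC0 s = dist φ C0 hC0 j + i := by omega
    rw [h4] at h3
    have h5 : Δ ∣ i := (Nat.dvd_add_right h2).mp h3
    exact absurd (Nat.le_of_dvd hi1 h5) (by omega)
  refine ⟨Sm, close φ Sm hSm, nxt φ Sm hSm, Finset.subset_union_left.trans hsub, hSm,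
    fun t ht => close_of_not_mem φ Sm hSm ht, nxt_mem φ Sm hSm,
    fun j hj => nxt_of_mem φ Sm hSm hj, nxt_close φ Sm hSm, nxt_eq_iff φ Sm hSm,
    fun j hj => ⟨_, nxt_mem φ Sm hSm (φ j), (close_nxt φ Sm hSm hj).symm⟩, ?_, ?_⟩
  · apply len_le
    intro t
    by_cases hD : dist φ C0 hC0 t < 2 * Δ
    · exact lt_of_le_of_lt (dist_le φ Sm hSm t (hsub (nxt_mem φ C0 hC0 t))) hD
    · have hmod : dist φ C0 hC0 t % Δ < Δ := Nat.mod_lt _ hΔ
      set k := dist φ C0 hC0 t % Δ + Δ with hk
      have hkle : k ≤ dist φ C0 hC0 t := by omega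
      refine lt_of_le_of_lt (dist_le φ Sm hSm t (k := k) ?_) (by omega)
      refine (memSm _).mpr (Or.inr ⟨?_, ?_⟩)
      · rw [dist_pow φ C0 hC0 t hkle, hk, ← Nat.sub_sub]
        exact Nat.dvd_sub (Nat.dvd_sub_mod _) (dvd_refl _)
      · rintro ⟨s, hs, i, hi1, hi2, hi⟩
        have : s = (φ ^ (k - i)) t := by
          apply (φ ^ i).injective
          rw [hi, ← Equiv.Perm.mul_apply, ← pow_add]
          congr 2
          omega
        exact dist_min φ C0 hC0 t (k := k - i) (by omega) (this ▸ hs)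
  · intro j hj
    by_cases hn : near j
    · right
      have hjC : j ∈ C0 := by
        rcases (memSm j).mp hj with h | h
        · exact h
        · exact absurd hn h.2
      have hex : ∃ i, ∃ s ∈ C0, 1 ≤ i ∧ i < Δ ∧ (φ ^ i) s = j := by
        obtain ⟨s, hs, i, h⟩ := hn
        exact ⟨i, s, hs, h⟩
      obtain ⟨s, hs, hi1, hi2, hi⟩ := Nat.find_spec hex
      set i := Nat.find hex with hidef
      have hmin : ∀ e, 1 ≤ e → e < i → (φ ^ e) s ∉ C0 := by
        intro e he1 he2 hmem
        refine Nat.find_min hex (m := i - e) (by omega) ⟨_, hmem, by omega, by omega, ?_⟩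
        rw [← Equiv.Perm.mul_apply, ← pow_add, Nat.sub_add_cancel he2.le, hi]
      have hd : dist φ Sm hSm (φ s) = i - 1 := by
        apply dist_eq
        · rw [← Equiv.Perm.mul_apply, ← pow_succ, Nat.sub_add_cancel hi1, hi]
          exact hj
        · intro e he
          refine hback j hj _ (i - 1 - e) (by omega) (by omega) ?_ ?_
          · rw [← Equiv.Perm.mul_apply, ← pow_add, ← Equiv.Perm.mul_apply, ← pow_succ, ← hi]
            congr 2
            omega
          · intro e' he'
            rw [← Equiv.Perm.mul_apply, ← pow_add, ← Equiv.Perm.mul_apply, ← pow_succ]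
            exact hmin _ (by omega) (by omega)
      have hnx : nxt φ Sm hSm (φ s) = j := by
        rw [nxt, hd, ← Equiv.Perm.mul_apply, ← pow_succ, Nat.sub_add_cancel hi1, hi]
      have hcl : close φ Sm hSm j = φ s := by
        rw [← hnx]; exact close_nxt φ Sm hSm (hsub hs)
      have hsc : φ.SameCycle s j := ⟨i, by simpa using hi⟩
      by_cases hjc : j ∈ cut
      · left
        refine ⟨hjc, s, ?_, hcl⟩
        rcases Finset.mem_union.mp hs with h | h
        · exact h
        · simp only [Finset.mem_filter, Finset.mem_univ, true_and] at h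
          exact absurd hsc (h.1 j hjc)
      · right
        have hj2 : (∀ s ∈ cut, ¬ φ.SameCycle j s) ∧ rep j = j := by
          rcases Finset.mem_union.mp hjC with h | h
          · exact absurd h hjc
          · simpa using h
        have hsj : s = j := by
          rcases Finset.mem_union.mp hs with h | h
          · exact absurd hsc.symm (hj2.1 s h)
          · simp only [Finset.mem_filter, Finset.mem_univ, true_and] at h
            rw [← h.2, ← hj2.2]
            exact rep_eq _ _ hsc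
        subst hsj
        refine ⟨hcl, i, hi1, ?_, hi, fun e he => hj2.1 _ he ⟨e, by simp⟩⟩
        have := dist_lt_len φ Sm hSm (φ s)
        rw [hd, hnx, Nat.sub_add_cancel hi1] at this
        exact this
    · left
      let s := (φ ^ (Δ - 1)).symm j
      have hs : (φ ^ (Δ - 1)) s = j := (φ ^ (Δ - 1)).apply_symm_apply j
      have hno : ∀ e, e < Δ - 1 → (φ ^ e) s ∉ C0 := by
        intro e he hmem
        refine hn ⟨_, hmem, Δ - 1 - e, by omega, by omega, ?_⟩
        rw [← Equiv.Perm.mul_apply, ← pow_add, Nat.sub_add_cancel he.le, hs]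
      have hd : dist φ Sm hSm s = Δ - 1 := by
        apply dist_eq
        · rw [hs]; exact hj
        · intro e he
          refine hback j hj _ (Δ - 1 - e) (by omega) (by omega) ?_ ?_
          · rw [← Equiv.Perm.mul_apply, ← pow_add, Nat.sub_add_cancel he.le, hs]
          · intro e' he'
            rw [← Equiv.Perm.mul_apply, ← pow_add]
            exact hno _ (by omega)
      have hnx : nxt φ Sm hSm s = j := by rw [nxt, hd, hs]
      have := dist_lt_len φ Sm hSm s
      rw [hd, hnx, Nat.sub_add_cancel hΔ] at this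
      exact this

end Crest.Agent.KP.Glo
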