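import Crest.Agent.KP.Stmts
import Crest.Agent.KP.GloSeam

/-!
# KP / GLO: from the local property `Good` to the global isoperimetric inequality
-/

set_option autoImplicit false

namespace Crest.Agent.KP

open Finset

namespace Glo

variable {S V : Type} {lb : Lab S} {L : V → Finset S} {Γ : LGraph lb L}

/-- Restriction of a map to a union of faces. -/
noncomputable def restr {T : Type} [DecidableEq T] (M : RMap Γ T) (P : Finset T)
    (hP : ∀ t, M.φ t ∈ P ↔ t ∈ P) : RMap Γ {t // t ∈ P} where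
  φ := M.φ.subtypePerm hP
  α t := if h : M.α t.1 ∈ P then ⟨M.α t.1, h⟩ else t
  αα t := by
    by_cases h : M.α t.1 ∈ P
    · have h2 : M.α (M.α t.1) ∈ P := by rw [M.αα]; exact t.2
      simp only [h, dif_pos, h2]
      exact Subtype.ext (M.αα _)
    · simp only [h, dif_neg, not_false_eq_true]
  d t := M.d t.1
  valid t := M.valid t.1
  cut := M.cut.subtype _
  link t ht := M.link t.1 (by simpa using ht)
  glue t ht := by
    by_cases h : M.α t.1 ∈ P
    · simp only [h, dif_pos] at ht ⊢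
      exact M.glue t.1 (fun h' => ht (Subtype.ext h'))
    · simp only [h, dif_neg, not_false_eq_true, ne_eq, not_true_eq_false] at ht

lemma restr_good [DecidableEq V] {c0 : V} {g Λ K : ℕ} {c : ℝ} (hG : Good Γ c0 g Λ K c)
    {T : Type} [Fintype T] [DecidableEq T] (M : RMap Γ T) (B P : Finset T)
    (hP : ∀ t, M.φ t ∈ P ↔ t ∈ P) (hB : ∀ t, t ∉ B → Reg M.φ M.α M.cut t)
    (hB' : ∀ t, ∃ k : ℕ, (M.φ ^ k) t ∈ B) (h1 : #{t ∈ B | t ∈ P} ≤ K) (h2 : g ≤ #P)
    (h3 : #P ≤ K * g) (h4 : Λ * g * #{t ∈ M.cut | t ∈ P ∧ (M.d (M.φ t)).1 ≠ c0} ≤ #P) :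
    c * #P ≤ #{t ∈ P | M.α t = t ∨ M.α t ∉ P} := by
  have hcard : Fintype.card {t // t ∈ P} = #P := Fintype.card_coe P
  have hφ : ∀ t : {t // t ∈ P}, ((restr M P hP).φ t).1 = M.φ t.1 := fun t => rfl
  have hαin : ∀ t : {t // t ∈ P}, M.α t.1 ∈ P → ((restr M P hP).α t).1 = M.α t.1 := by
    intro t h
    simp only [restr, h, dif_pos]
  have hαout : ∀ t : {t // t ∈ P}, M.α t.1 ∉ P → (restr M P hP).α t = t := by
    intro t h
    simp only [restr, h, dif_neg, not_false_eq_true]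
  have hcut : ∀ t : {t // t ∈ P}, t ∈ (restr M P hP).cut ↔ t.1 ∈ M.cut := by
    intro t
    simp only [restr, Finset.mem_subtype]
  have key := hG.2 {t // t ∈ P} (restr M P hP) (B.subtype _) ?_ ?_ ?_ (hcard ▸ h2) (hcard ▸ h3) ?_
  · rw [hcard] at key
    refine key.trans ?_
    have : #{t : {t // t ∈ P} | (restr M P hP).α t = t} ≤ #{t ∈ P | M.α t = t ∨ M.α t ∉ P} := by
      apply Finset.card_le_card_of_injOn (fun t => t.1)
      · intro t ht
        have ht' : (restr M P hP).α t = t := by simpa using ht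
        have : M.α t.1 = t.1 ∨ M.α t.1 ∉ P := by
          by_cases h : M.α t.1 ∈ P
          · left
            rw [← hαin t h, ht']
          · exact Or.inr h
        simpa using this
      · intro a _ b _ h
        exact Subtype.ext h
    exact_mod_cast this
  · intro t ht
    have ht' : t.1 ∉ B := by simpa using ht
    obtain ⟨hc, hr⟩ := hB t.1 ht'
    refine ⟨fun h => hc ((hcut t).mp h), ?_⟩
    rcases hr with ⟨ha, hb⟩ | ⟨ha, hb, hd, he⟩
    · left
      constructor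
      · apply Subtype.ext
        rw [hαin t (by rw [ha]; exact t.2), ha]
      · apply Subtype.ext
        rw [hαin _ (by rw [hφ, hb]; exact (hP _).mpr t.2), hφ, hb]
    · by_cases h : M.α t.1 ∈ P
      · have h' : M.α (M.φ t.1) ∈ P := by
          rw [← hP, hd]; exact h
        right
        refine ⟨fun e => ha ?_, fun e => hb ?_, ?_, fun e => he ?_⟩
        · rw [← hαin t h, e]
        · rw [← hφ, ← hαin _ h', e]
        · apply Subtype.ext
          rw [hφ, hαin _ h', hφ, hd, hαin t h]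
        · have := (hcut _).mp e
          rwa [hαin _ h'] at this
      · have h' : M.α (M.φ t.1) ∉ P := by
          rw [← hP, hd]; exact h
        left
        exact ⟨hαout t h, hαout _ h'⟩
  · intro t
    obtain ⟨k, hk⟩ := hB' t.1
    refine ⟨k, ?_⟩
    have : (((restr M P hP).φ ^ k) t).1 = (M.φ ^ k) t.1 := by
      clear hk
      induction k with
      | zero => rfl
      | succ k ih => rw [pow_succ', pow_succ', Equiv.Perm.mul_apply, Equiv.Perm.mul_apply, hφ, ih]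
    rw [Finset.mem_subtype, this]
    exact hk
  · rw [Finset.card_subtype]
    exact h1
  · rw [hcard]
    refine le_trans (Nat.mul_le_mul_left _ ?_) h4
    apply Finset.card_le_card_of_injOn (fun t => t.1)
    · intro t ht
      have ht' : t ∈ (restr M P hP).cut ∧ ((restr M P hP).d ((restr M P hP).φ t)).1 ≠ c0 := by
        simpa using ht
      have h5 : (M.d (M.φ t.1)).1 ≠ c0 := ht'.2
      simpa using ⟨(hcut t).mp ht'.1, h5⟩
    · intro a _ b _ h
      exact Subtype.ext h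

/-- An uncut cycle has length at least the girth. -/
lemma girth_le {g : ℕ} (hg : Γ.Girth g) {T : Type} (M : RMap Γ T) (j : T) (m : ℕ) (hm : 0 < m)
    (hj : (M.φ ^ m) j = j) (hc : ∀ i : ℕ, (M.φ ^ i) j ∉ M.cut) : g ≤ m := by
  by_contra hlt
  refine hg m (fun i => M.d ((M.φ ^ i) j)) hm (not_le.mp hlt) ⟨fun i _ => M.valid _, ?_⟩ ?_
  · intro i _
    have := M.link _ (hc i)
    simpa only [pow_succ', Equiv.Perm.mul_apply] using this
  · have := (M.link _ (hc (m - 1))).1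
    rw [← Equiv.Perm.mul_apply, ← pow_succ', Nat.sub_add_cancel hm, hj] at this
    simpa using this.symm

lemma planar_mono {T : Type} {φ : Equiv.Perm T} {α : T → T} {cut Sm : Finset T}
    (h : PlanarC φ α cut) (hs : cut ⊆ Sm) : PlanarC φ α Sm := by
  intro z y h1 h2 h3 h4
  obtain ⟨u, hu1, hu2⟩ := h z y h1 h2 h3 (fun t ht => h4 t (hs ht))
  exact ⟨u, fun t ht => hu1 t (fun h' => ht (hs h')), hu2⟩

lemma planar_close {T : Type} [DecidableEq T] {φ φ' : Equiv.Perm T} {α f : T → T}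
    {Sm : Finset T} (h : PlanarC φ α Sm) (hSm : ∀ t, ∃ k : ℕ, (φ ^ k) t ∈ Sm)
    (hoff : ∀ t, t ∉ Sm → φ' t = φ t) (hfj : ∀ j ∈ Sm, f j = j) (hfφ : ∀ t, f (φ' t) = f t)
    (him : ∀ j ∈ Sm, ∃ j' ∈ Sm, φ j = φ' j') : PlanarC φ' α ∅ := by
  intro z y h1 h2 h3 _
  have z2 : ∀ a : ZMod 2, a + a = 0 := by decide
  have hzero : ∀ t ∈ Sm, y (φ t) + y (φ' (f (φ t))) = 0 := by
    intro t ht
    obtain ⟨j', hj', e⟩ := him t ht
    rw [e, hfφ, hfj j' hj', z2]
  obtain ⟨u, hu1, hu2⟩ := h z (fun t => y t + y (φ' (f t))) h1 h2 (by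
    intro t
    by_cases ht : t ∈ Sm
    · rw [hzero t ht, hfj t ht, h3]
      have := z2 (y t + z t)
      linear_combination -this
    · rw [← hoff t ht, hfφ, h3]
      ring) hzero
  have hw : ∀ t, u t + y t = u (f t) + y (f t) := by
    apply ind φ Sm hSm
    · intro j hj
      rw [hfj j hj]
    · intro t ht ih
      rw [hu1 t ht, ← hoff t ht, hfφ, h3] at ih
      have := z2 (z t)
      linear_combination ih - this
  refine ⟨u, fun t _ => ?_, hu2⟩
  have e1 := hw t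
  have e2 := hw (φ' t)
  rw [hfφ, h3] at e2
  have := z2 (z t)
  linear_combination e2 - e1 - this

lemma card_pre_le {T J : Type} [Fintype T] [DecidableEq J] (f : T → J) (R : Finset J) (D : ℕ)
    (h : ∀ j, #{t : T | f t = j} ≤ D) : #{t : T | f t ∈ R} ≤ D * #R := by
  apply Finset.card_le_mul_card_image_of_maps_to (f := f)
  · intro a ha
    simpa using ha
  · intro b _
    refine le_trans (Finset.card_le_card ?_) (h b)
    intro t ht
    simp only [Finset.mem_filter, Finset.mem_univ, true_and] at ht ⊢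
    exact ht.2

lemma le_card_pre {T J : Type} [Fintype T] [DecidableEq J] (f : T → J) (R : Finset J) (D : ℕ)
    (h : ∀ j ∈ R, D ≤ #{t : T | f t = j}) : D * #R ≤ #{t : T | f t ∈ R} := by
  apply Finset.mul_card_image_le_card_of_maps_to (f := f)
  · intro a ha
    simpa using ha
  · intro b hb
    refine le_trans (h b hb) (Finset.card_le_card ?_)
    intro t ht
    simp only [Finset.mem_filter, Finset.mem_univ, true_and] at ht ⊢
    exact ⟨ht ▸ hb, ht⟩

lemma sum_disj_le {T J : Type} [DecidableEq T] [DecidableEq J] (X : Finset T) (k : T → J)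
    (G : Finset J) (Y : J → Finset T) (hY : ∀ κ, ∀ t ∈ Y κ, t ∈ X ∧ k t = κ) :
    ∑ κ ∈ G, #(Y κ) ≤ #X := by
  calc ∑ κ ∈ G, #(Y κ) ≤ ∑ κ ∈ G, #{t ∈ X | k t = κ} := by
        apply Finset.sum_le_sum
        intro κ _
        apply Finset.card_le_card
        intro t ht
        exact Finset.mem_filter.mpr (hY κ t ht)
    _ = #{t ∈ X | k t ∈ G} := Finset.sum_card_fiberwise_eq_card_filter X G k
    _ ≤ #X := Finset.card_filter_le _ _

lemma core [DecidableEq V] (hE : EulStmt) (hM : MinStmt) {ε : ℝ} {K₁ K₂ : ℕ}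
    (hSep : ∀ (J : Type) [Fintype J] [DecidableEq J] (H : SimpleGraph J),
      ¬ HasKMinor H 8 → ∃ (S : Finset J) (cl : J → J), (#S : ℝ) ≤ ε * Fintype.card J ∧
        (∀ a b, a ∉ S → b ∉ S → H.Adj a b → cl a = cl b) ∧
        ∀ κ, #{a : J | a ∉ S ∧ cl a = κ} ≤ K₁)
    {c0 : V} {g Λ : ℕ} {c : ℝ} (hc : 0 < c) (hΛ : 1 ≤ Λ) (hg : 1 ≤ g) (hK₂ : 0 < K₂)
    (hG : Good Γ c0 g Λ (max (2 * K₁ * Λ) K₂) c)
    {T : Type} [Fintype T] [DecidableEq T] (M : RMap Γ T) (hP : PlanarC M.φ M.α M.cut) :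
    ∃ n s sh N' e b : ℕ, s ≤ #M.cut ∧ sh ≤ s ∧
      ((∀ t ∈ M.cut, (M.d (M.φ t)).1 = c0) → sh = 0) ∧ g * n ≤ N' + g * s ∧
      Fintype.card T ≤ N' + 2 * (Λ * g) * s ∧ (e : ℝ) ≤ ε * n ∧
      b ≤ 12 * (n + #{t : T | M.α t = t}) ∧
      (N' : ℝ) ≤ 2 * (Λ * g) * e + (#{t : T | M.α t = t} + 2 * (Λ * g) * (e + sh)) / c +
        (2 * (Λ * g) * K₁ / K₂) * b ∧
      ((∀ t, M.α t ≠ t) → n ≠ 1) ∧ (n = 0 → IsEmpty T) := by
  classical
  have hΔ : 1 ≤ Λ * g := Nat.mul_pos hΛ hg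
  have hgΔ : g ≤ Λ * g := Nat.le_mul_of_pos_left g hΛ
  obtain ⟨Sm, φ', f, hcut, hSm, hoff, hfm, hfj, hfφ, hfsc, him, hup, hlow⟩ :=
    seams M.φ M.cut (Λ * g) hΔ
  have hff : ∀ t, f (f t) = f t := fun t => hfj _ (hfm t)
  let M' : RMap Γ T :=
    { φ := φ', α := M.α, αα := M.αα, d := M.d, valid := M.valid
      cut := Sm.filter (fun j => ¬ (φ' j = M.φ j ∧ j ∉ M.cut))
      link := by
        intro t ht
        have : φ' t = M.φ t ∧ t ∉ M.cut := by
          by_cases h : t ∈ Sm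
          · by_contra h'
            exact ht (Finset.mem_filter.mpr ⟨h, h'⟩)
          · exact ⟨hoff t h, fun h' => h (hcut h')⟩
        rw [this.1]
        exact M.link t this.2
      glue := M.glue }
  have hP1 : PlanarC M.φ M.α Sm := planar_mono hP hcut
  have hP2 : PlanarC φ' M.α ∅ := planar_close hP1 hSm hoff hfj hfφ him
  obtain ⟨⟨B, hB, hBc⟩, hn1⟩ := hE T M.φ M.α Sm M.αα hP1 hSm (by
    intro t ht hα h
    have h1 := M.link t (fun h' => ht (hcut h'))
    have h2 := M.glue t hα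
    rw [h] at h1
    exact h1.2 (Prod.ext h1.1 h2.1))
  have hSmB : Sm ⊆ B := by
    intro t ht
    by_contra h
    exact (hB t h).1 ht
  have hB1 : ∀ t, t ∉ B → Reg M'.φ M'.α M'.cut t := by
    intro t ht
    obtain ⟨h1, h2⟩ := hB t ht
    refine ⟨fun h => h1 (Finset.mem_filter.mp h).1, ?_⟩
    change (M.α t = t ∧ M.α (φ' t) = φ' t) ∨ (M.α t ≠ t ∧ M.α (φ' t) ≠ φ' t ∧
      φ' (M.α (φ' t)) = M.α t ∧ M.α (φ' t) ∉ M'.cut)
    rw [hoff t h1]
    rcases h2 with h2 | ⟨ha, hb, hd, he⟩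
    · exact Or.inl h2
    · exact Or.inr ⟨ha, hb, by rw [hoff _ he, hd], fun h => he (Finset.mem_filter.mp h).1⟩
  have hB2 : ∀ t, ∃ k : ℕ, (M'.φ ^ k) t ∈ B := by
    intro t
    obtain ⟨k, hk⟩ := ((hfsc t (f t)).mp (hff t).symm).exists_nat_pow_eq
    exact ⟨k, hSmB (by change (φ' ^ k) t ∈ Sm; rw [hk]; exact hfm t)⟩
  let F : T → {j // j ∈ Sm} := fun t => ⟨f t, hfm t⟩
  have hFeq : ∀ a b, F a = F b ↔ f a = f b := fun a b => Subtype.ext_iff
  have hmin := hM T {j // j ∈ Sm} φ' M.α F M.αα hP2 (fun a b => (hFeq a b).trans (hfsc a b))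
  obtain ⟨Se, cl, hSe, hcl, hclK⟩ := hSep _ _ hmin
  have hFup : ∀ j, #{t : T | F t = j} ≤ 2 * (Λ * g) := by
    intro j
    refine le_trans (le_of_eq ?_) (hup j.1)
    congr 1
    ext t
    simp [F, Subtype.ext_iff]
  let short : Finset T := Sm.filter (fun j => #{t : T | f t = j} < Λ * g ∧ j ∈ M.cut)
  let Sh : Finset T := short.filter (fun j => (M.d (φ' j)).1 ≠ c0)
  have hlong : ∀ j ∈ Sm, j ∉ short → g ≤ #{t : T | f t = j} := by
    intro j hj hs
    rcases hlow j hj with h | h | ⟨_, m, hm, hm2, hm3, hm4⟩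
    · exact hgΔ.trans h
    · refine hgΔ.trans ?_
      by_contra h'
      exact hs (Finset.mem_filter.mpr ⟨hj, not_le.mp h', h.1⟩)
    · exact (girth_le hG.1 M j m hm hm3 hm4).trans hm2
  have hlong' : ∀ j ∈ M'.cut, j ∉ Sh → (M.d (φ' j)).1 ≠ c0 → Λ * g ≤ #{t : T | f t = j} := by
    intro j hj hs hr
    obtain ⟨hj1, hj2⟩ := Finset.mem_filter.mp hj
    rcases hlow j hj1 with h | h | ⟨h, m, _, _, _, hm4⟩
    · exact h
    · by_contra h'
      exact hs (Finset.mem_filter.mpr ⟨Finset.mem_filter.mpr ⟨hj1, not_le.mp h', h.1⟩, hr⟩)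
    · exact absurd ⟨h, by simpa using hm4 0⟩ hj2
  let rem : T → Prop := fun t => F t ∈ Se ∨ f t ∈ Sh
  let P : {j // j ∈ Sm} → Finset T := fun κ => {t : T | ¬ rem t ∧ cl (F t) = κ}
  have memP : ∀ κ t, t ∈ P κ ↔ ¬ rem t ∧ cl (F t) = κ := fun κ t => by simp [P]
  have hPf : ∀ κ a b, f a = f b → a ∈ P κ → b ∈ P κ := by
    intro κ a b h ha
    rw [memP] at ha ⊢
    simp only [rem] at ha ⊢
    rw [← (hFeq a b).mpr h, ← h]
    exact ha
  have hPφ : ∀ κ t, M'.φ t ∈ P κ ↔ t ∈ P κ := fun κ t =>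
    ⟨hPf κ _ _ (hfφ t), hPf κ _ _ (hfφ t).symm⟩
  have hPcard : ∀ κ, #(P κ) ≤ 2 * (Λ * g) * K₁ := by
    intro κ
    refine le_trans (Finset.card_le_card ?_) ((card_pre_le F {a | a ∉ Se ∧ cl a = κ} _ hFup).trans
      (Nat.mul_le_mul_left _ (hclK κ)))
    intro t ht
    rw [memP] at ht
    simp only [Finset.mem_filter, Finset.mem_univ, true_and]
    exact ⟨fun h => ht.1 (Or.inl h), ht.2⟩
  have hclus : ∀ κ, g ≤ #(P κ) → (#(P κ) : ℝ) ≤
      #{t ∈ P κ | M.α t = t ∨ rem (M.α t)} / c +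
        (2 * (Λ * g) * K₁ / K₂) * #{t ∈ B | t ∈ P κ} := by
    intro κ hκ
    have hK₂' : (0 : ℝ) < K₂ := by exact_mod_cast hK₂
    by_cases hb : #{t ∈ B | t ∈ P κ} ≤ K₂
    · have h1 := restr_good hG M' B (P κ) (hPφ κ) hB1 hB2 (hb.trans (le_max_right _ _)) hκ
        ((hPcard κ).trans (by
          calc 2 * (Λ * g) * K₁ = (2 * K₁ * Λ) * g := by ring
            _ ≤ _ := Nat.mul_le_mul_right _ (le_max_left _ _))) (by
          refine (le_card_pre f _ _ ?_).trans (Finset.card_le_card ?_)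
          · intro j hj
            obtain ⟨hj1, hj2, hj3⟩ := Finset.mem_filter.mp hj
            refine hlong' j hj1 (fun h => ((memP κ j).mp hj2).1 (Or.inr ?_)) hj3
            rwa [hfj j (Finset.mem_filter.mp hj1).1]
          · intro t ht
            simp only [Finset.mem_filter, Finset.mem_univ, true_and] at ht
            exact hPf κ _ _ (hff t) ht.2.1)
      have h2 : #{t ∈ P κ | M'.α t = t ∨ M'.α t ∉ P κ} ≤
          #{t ∈ P κ | M.α t = t ∨ rem (M.α t)} := by
        apply Finset.card_le_card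
        intro t ht
        obtain ⟨ht1, ht2⟩ := Finset.mem_filter.mp ht
        refine Finset.mem_filter.mpr ⟨ht1, ?_⟩
        rcases ht2 with h | h
        · exact Or.inl h
        · right
          by_contra hr
          apply h
          have ht3 := (memP κ t).mp ht1
          refine (memP κ _).mpr ⟨hr, ?_⟩
          change cl (F (M.α t)) = κ
          rw [← ht3.2]
          by_cases hFF : F t = F (M.α t)
          · rw [hFF]
          · refine (hcl _ _ (fun h' => ht3.1 (Or.inl h')) (fun h' => hr (Or.inl h')) ?_).symm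
            exact (SimpleGraph.fromRel_adj _ _ _).mpr ⟨hFF, Or.inl ⟨t, rfl, rfl⟩⟩
      have h3 : (#(P κ) : ℝ) ≤ #{t ∈ P κ | M.α t = t ∨ rem (M.α t)} / c := by
        rw [le_div_iff₀ hc, mul_comm]
        exact h1.trans (by exact_mod_cast h2)
      have h4 : (0 : ℝ) ≤ (2 * (Λ * g) * K₁ / K₂) * #{t ∈ B | t ∈ P κ} := by positivity
      linarith
    · have h1 : (K₂ : ℝ) ≤ #{t ∈ B | t ∈ P κ} := by exact_mod_cast (not_le.mp hb).le
      have h2 : (#(P κ) : ℝ) ≤ 2 * (Λ * g) * K₁ := by exact_mod_cast hPcard κ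
      have h3 : (2 * (Λ * g) * K₁ / K₂ : ℝ) * K₂ ≤
          (2 * (Λ * g) * K₁ / K₂) * #{t ∈ B | t ∈ P κ} :=
        mul_le_mul_of_nonneg_left h1 (by positivity)
      rw [div_mul_cancel₀ _ hK₂'.ne'] at h3
      have h4 : (0 : ℝ) ≤ #{t ∈ P κ | M.α t = t ∨ rem (M.α t)} / c := by positivity
      linarith
  let G : Finset {j // j ∈ Sm} := {κ | g ≤ #(P κ)}
  have hSeT : #{t : T | F t ∈ Se} ≤ 2 * (Λ * g) * #Se := card_pre_le F Se _ hFup
  have hShT : #{t : T | f t ∈ Sh} ≤ 2 * (Λ * g) * #Sh := card_pre_le f Sh _ hup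
  have hcover : #{t : T | f t ∉ short} ≤ 2 * (Λ * g) * #Se + ∑ κ ∈ G, #(P κ) := by
    refine le_trans (Finset.card_le_card
      (t := Finset.univ.filter (fun t => F t ∈ Se) ∪ G.biUnion P) ?_)
      ((Finset.card_union_le _ _).trans (add_le_add hSeT Finset.card_biUnion_le))
    intro t ht
    have ht' : f t ∉ short := by simpa using ht
    by_cases h : F t ∈ Se
    · exact Finset.mem_union_left _ (by simpa using h)
    · have htP : t ∈ P (cl (F t)) := by
        refine (memP _ _).mpr ⟨?_, rfl⟩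
        rintro (h' | h')
        · exact h h'
        · exact ht' (Finset.mem_filter.mp h').1
      refine Finset.mem_union_right _ (Finset.mem_biUnion.mpr ⟨cl (F t), ?_, htP⟩)
      simp only [G, Finset.mem_filter, Finset.mem_univ, true_and]
      refine (hlong _ (hfm t) ht').trans (Finset.card_le_card ?_)
      intro a ha
      have ha' : f a = f t := by simpa using ha
      exact hPf _ _ _ ha'.symm htP
  have hsumU : ∑ κ ∈ G, #{t ∈ P κ | M.α t = t ∨ rem (M.α t)} ≤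
      #{t : T | M.α t = t} + 2 * (Λ * g) * (#Se + #Sh) := by
    refine (sum_disj_le {t : T | M.α t = t ∨ rem (M.α t)} (fun t => cl (F t)) G _ ?_).trans ?_
    · intro κ t ht
      obtain ⟨h1, h2⟩ := Finset.mem_filter.mp ht
      exact ⟨by simpa using h2, ((memP κ t).mp h1).2⟩
    · rw [Finset.filter_or]
      refine (Finset.card_union_le _ _).trans (Nat.add_le_add_left ?_ _)
      have : #{t : T | rem (M.α t)} ≤ #{t : T | rem t} := by
        apply Finset.card_le_card_of_injOn M.α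
        · intro t ht
          simpa using ht
        · intro a _ b _ h
          rw [← M.αα a, h, M.αα]
      refine this.trans ?_
      simp only [rem]
      rw [Finset.filter_or, mul_add]
      exact (Finset.card_union_le _ _).trans (add_le_add hSeT hShT)
  have hsumB : ∑ κ ∈ G, #{t ∈ B | t ∈ P κ} ≤ #B := by
    refine sum_disj_le B (fun t => cl (F t)) G _ ?_
    intro κ t ht
    obtain ⟨h1, h2⟩ := Finset.mem_filter.mp ht
    exact ⟨h1, ((memP κ t).mp h2).2⟩
  refine ⟨#Sm, #short, #Sh, #{t : T | f t ∉ short}, #Se, #B, ?_, Finset.card_filter_le _ _, ?_, ?_,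
    ?_, by simpa using hSe, hBc, ?_, hn1, ?_⟩
  · apply Finset.card_le_card
    intro j hj
    exact (Finset.mem_filter.mp hj).2.2
  · intro hr
    rw [Finset.card_eq_zero, Finset.filter_eq_empty_iff]
    intro j hj
    obtain ⟨hj1, hj2, hj3⟩ := Finset.mem_filter.mp hj
    rcases hlow j hj1 with h | ⟨_, j', hj', h⟩ | ⟨_, m, _, _, _, hm4⟩
    · omega
    · rw [h]
      exact not_not.mpr (hr j' hj')
    · exact absurd hj3 (by simpa using hm4 0)
  · have h1 := le_card_pre f (Sm \ short) g (fun j hj =>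
      hlong j (Finset.mem_sdiff.mp hj).1 (Finset.mem_sdiff.mp hj).2)
    have h2 : #{t : T | f t ∈ Sm \ short} ≤ #{t : T | f t ∉ short} := by
      apply Finset.card_le_card
      intro t ht
      simp only [Finset.mem_filter, Finset.mem_univ, true_and] at ht ⊢
      exact (Finset.mem_sdiff.mp ht).2
    have h3 : #Sm ≤ #(Sm \ short) + #short := Finset.card_le_card_sdiff_add_card
    calc g * #Sm ≤ g * (#(Sm \ short) + #short) := Nat.mul_le_mul_left _ h3
      _ = g * #(Sm \ short) + g * #short := by ring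
      _ ≤ _ := Nat.add_le_add_right (h1.trans h2) _
  · have h1 := card_pre_le f short _ hup
    have h2 := Finset.card_filter_add_card_filter_not (s := (Finset.univ : Finset T))
      (fun t => f t ∈ short)
    rw [Finset.card_univ] at h2
    omega
  · have h1 : (#{t : T | f t ∉ short} : ℝ) ≤ 2 * (Λ * g) * #Se + ∑ κ ∈ G, (#(P κ) : ℝ) := by
      exact_mod_cast hcover
    have h2 : ∑ κ ∈ G, (#(P κ) : ℝ) ≤ ∑ κ ∈ G, (#{t ∈ P κ | M.α t = t ∨ rem (M.α t)} / c +
        (2 * (Λ * g) * K₁ / K₂ : ℝ) * #{t ∈ B | t ∈ P κ}) :=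
      Finset.sum_le_sum (fun κ hκ => hclus κ (by simpa [G] using hκ))
    rw [Finset.sum_add_distrib, ← Finset.sum_div, ← Finset.mul_sum] at h2
    have h3 : ∑ κ ∈ G, (#{t ∈ P κ | M.α t = t ∨ rem (M.α t)} : ℝ) ≤
        #{t : T | M.α t = t} + 2 * (Λ * g) * (#Se + #Sh) := by exact_mod_cast hsumU
    have h4 : ∑ κ ∈ G, (#{t ∈ B | t ∈ P κ} : ℝ) ≤ #B := by exact_mod_cast hsumB
    have h5 := div_le_div_of_nonneg_right h3 hc.le
    have h6 := mul_le_mul_of_nonneg_left h4
      (show (0 : ℝ) ≤ 2 * (Λ * g) * K₁ / K₂ by positivity)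
    linarith
  · intro h0
    rw [Finset.card_eq_zero] at h0
    exact ⟨fun t => by simpa [h0] using hfm t⟩

end Glo

theorem glo (hE : EulStmt) (hM : MinStmt) (hS : SepStmt) : GloStmt := by
  intro c Λ hc hΛ
  have hΛ' : (1 : ℝ) ≤ Λ := by exact_mod_cast hΛ
  have hε : (0 : ℝ) < 1 / (16 * Λ * (1 + 1 / c)) := by positivity
  obtain ⟨K₁, hSep⟩ := hS 8 _ hε
  refine ⟨max (2 * K₁ * Λ) (192 * K₁ * Λ + 1), ?_⟩
  intro S V _ lb L Γ c0 g hg hG
  have hg' : (1 : ℝ) ≤ g := by exact_mod_cast hg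
  have main : ∀ (T : Type) [Fintype T] [DecidableEq T] (M : RMap Γ T), PlanarC M.φ M.α M.cut →
      ∃ n s sh N' : ℕ, s ≤ #M.cut ∧ sh ≤ s ∧
      ((∀ t ∈ M.cut, (M.d (M.φ t)).1 = c0) → sh = 0) ∧ g * n ≤ N' + g * s ∧
      Fintype.card T ≤ N' + 2 * (Λ * g) * s ∧
      (N' : ℝ) ≤ g * n / 4 + (1 / c + g / 8) * #{t : T | M.α t = t} + 2 * (Λ * g) / c * sh ∧
      ((∀ t, M.α t ≠ t) → n ≠ 1) ∧ (n = 0 → IsEmpty T) := by
    intro T _ _ M hP
    obtain ⟨n, s, sh, N', e, b, h1, h2, h3, h4, h5, h6, h7, h8, h9, h10⟩ :=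
      Glo.core hE hM hSep hc hΛ hg (Nat.succ_pos _) hG M hP
    refine ⟨n, s, sh, N', h1, h2, h3, h4, h5, ?_, h9, h10⟩
    set U : ℝ := ((#{t : T | M.α t = t} : ℕ) : ℝ) with hU
    have hU0 : 0 ≤ U := Nat.cast_nonneg _
    have h7' : (b : ℝ) ≤ 12 * (n + U) := by rw [hU]; exact_mod_cast h7
    have a1 : 2 * (Λ * g) * (1 + 1 / c) * (e : ℝ) ≤ g * n / 8 := by
      calc 2 * (Λ * g) * (1 + 1 / c) * (e : ℝ)
          ≤ 2 * (Λ * g) * (1 + 1 / c) * (1 / (16 * Λ * (1 + 1 / c)) * n) :=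
            mul_le_mul_of_nonneg_left h6 (by positivity)
        _ = g * n / 8 := by field_simp; ring
    have a2 : (2 * (Λ * g) * K₁ / ((192 * K₁ * Λ + 1 : ℕ) : ℝ)) ≤ g / 96 := by
      rw [div_le_div_iff₀ (by positivity) (by norm_num)]
      push_cast
      nlinarith
    have a3 : (2 * (Λ * g) * K₁ / ((192 * K₁ * Λ + 1 : ℕ) : ℝ)) * b ≤ g / 96 * (12 * (n + U)) :=
      mul_le_mul a2 h7' (Nat.cast_nonneg _) (by positivity)
    have a4 : 2 * (Λ * g) * (e : ℝ) + (U + 2 * (Λ * g) * (e + sh)) / c =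
        2 * (Λ * g) * (1 + 1 / c) * e + 1 / c * U + 2 * (Λ * g) / c * sh := by ring
    rw [a4] at h8
    nlinarith
  constructor
  · refine ⟨⌈(4 / 3 * (g / 4 + (1 / c + g / 8) + 2 * (Λ * g) / c) + 2 * (Λ * g) : ℝ)⌉₊, ?_⟩
    intro T _ _ M hP
    obtain ⟨n, s, sh, N', h1, h2, -, h4, h5, h6, -, -⟩ := main T M hP
    set U : ℝ := ((#{t : T | M.α t = t} : ℕ) : ℝ) with hU
    set k : ℝ := ((#M.cut : ℕ) : ℝ) with hk
    have hU0 : 0 ≤ U := Nat.cast_nonneg _
    have hk0 : 0 ≤ k := Nat.cast_nonneg _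
    have h1' : (s : ℝ) ≤ k := by rw [hk]; exact_mod_cast h1
    have h2' : (sh : ℝ) ≤ s := by exact_mod_cast h2
    have h4' : (g : ℝ) * n ≤ N' + g * s := by exact_mod_cast h4
    have h5' : (Fintype.card T : ℝ) ≤ N' + 2 * (Λ * g) * s := by exact_mod_cast h5
    have b1 : (g : ℝ) * s ≤ g * (U + k) := mul_le_mul_of_nonneg_left (by linarith) (by positivity)
    have b2 : (1 / c + g / 8 : ℝ) * U ≤ (1 / c + g / 8) * (U + k) :=
      mul_le_mul_of_nonneg_left (by linarith) (by positivity)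
    have b3 : (2 * (Λ * g) / c : ℝ) * sh ≤ 2 * (Λ * g) / c * (U + k) :=
      mul_le_mul_of_nonneg_left (by linarith) (by positivity)
    have b4 : (2 * (Λ * g) : ℝ) * s ≤ 2 * (Λ * g) * (U + k) :=
      mul_le_mul_of_nonneg_left (by linarith) (by positivity)
    have b5 : (Fintype.card T : ℝ) ≤
        (4 / 3 * (g / 4 + (1 / c + g / 8) + 2 * (Λ * g) / c) + 2 * (Λ * g)) * (U + k) := by
      linarith
    have b6 := b5.trans (mul_le_mul_of_nonneg_right (Nat.le_ceil _) (by positivity))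
    rw [hU, hk] at b6
    exact_mod_cast b6
  · intro T _ _ M hP hα hcut hr
    obtain ⟨n, s, sh, N', h1, -, h3, h4, -, h6, h7, h8⟩ := main T M hP
    have hU : #{t : T | M.α t = t} = 0 := by
      rw [Finset.card_eq_zero, Finset.filter_eq_empty_iff]
      exact fun t _ => hα t
    rw [hU, h3 hr] at h6
    have h4' : (g : ℝ) * n ≤ N' + g * s := by exact_mod_cast h4
    have hs : (s : ℝ) ≤ 1 := by exact_mod_cast h1.trans hcut
    have hn : (n : ℝ) < 2 := by
      by_contra hn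
      have hn' : (2 : ℝ) ≤ n := not_lt.mp hn
      push_cast at h6
      nlinarith
    have hn2 : n < 2 := by exact_mod_cast hn
    have := h7 hα
    exact h8 (by omega)

end Crest.Agent.KP
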