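import Mathlib

/-! KP, task HYP: an area inequality in a graph-like metric space gives the four-point condition. -/

set_option autoImplicit false

namespace Crest.Agent.KP.Hyp

variable {V : Type*} [PseudoMetricSpace V]

/-- There is a chain with unit steps from `a` to `b` inside `Q` with at most `r` steps. -/
inductive Reach (Q : V → Prop) : V → V → ℝ → Prop
  | refl (a : V) (r : ℝ) : Q a → 0 ≤ r → Reach Q a a r
  | step (a b c : V) (r : ℝ) : Q a → dist a b ≤ 1 → Reach Q b c r → Reach Q a c (r + 1)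

namespace Reach

variable {Q Q' : V → Prop} {a b c : V} {r s : ℝ}

theorem left (h : Reach Q a b r) : Q a := by cases h <;> assumption

theorem right (h : Reach Q a b r) : Q b := by induction h <;> assumption

theorem nonneg (h : Reach Q a b r) : 0 ≤ r := by
  induction h with
  | refl => assumption
  | step => positivity

theorem mono (h : Reach Q a b r) (hQ : ∀ x, Q x → Q' x) (hr : r ≤ s) : Reach Q' a b s := by
  induction h generalizing s with
  | refl a r h1 h2 => exact refl a s (hQ a h1) (h2.trans hr)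
  | step a b c r h1 h2 _ ih =>
    simpa using step a b c (s - 1) (hQ a h1) h2 (ih (by linarith))

theorem trans (h : Reach Q a b r) (h' : Reach Q b c s) : Reach Q a c (r + s) := by
  induction h with
  | refl a r _ h2 => exact h'.mono (fun _ h => h) (by linarith)
  | step a b d r h1 h2 _ ih => exact (step a b c _ h1 h2 (ih h')).mono (fun _ h => h) (by linarith)

theorem symm (h : Reach Q a b r) : Reach Q b a r := by
  induction h with
  | refl a r h1 h2 => exact refl a r h1 h2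
  | step a b c r h1 h2 h3 ih =>
    simpa using ih.trans (step b a a 0 h3.left (dist_comm a b ▸ h2) (refl a 0 h1 le_rfl))

end Reach

/-- `γ 0, …, γ n` is a geodesic. -/
def Geo (γ : ℕ → V) (n : ℕ) : Prop := ∀ i j, i ≤ j → j ≤ n → dist (γ i) (γ j) = j - i

theorem Geo.abs {γ : ℕ → V} {n : ℕ} (h : Geo γ n) {i j : ℕ} (hi : i ≤ n) (hj : j ≤ n) :
    dist (γ i) (γ j) = |(i : ℝ) - j| := by
  rcases le_total i j with h1 | h1
  · rw [h i j h1 hj, abs_sub_comm, abs_of_nonneg (sub_nonneg.2 (Nat.cast_le.2 h1))]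
  · rw [dist_comm, h j i h1 hi, abs_of_nonneg (sub_nonneg.2 (Nat.cast_le.2 h1))]

theorem Geo.rev {γ : ℕ → V} {n : ℕ} (h : Geo γ n) (m : ℕ) :
    Geo (fun k => γ (n - k)) (n - m) := fun i j h1 h2 => by
  rw [dist_comm, h _ _ (by omega) (by omega), Nat.cast_sub (by omega), Nat.cast_sub (by omega)]
  ring

theorem geo_of_step {γ : ℕ → V} {n : ℕ} (h : ∀ i, dist (γ i) (γ (i + 1)) ≤ 1)
    (hn : dist (γ 0) (γ n) = n) : Geo γ n := by
  have key : ∀ i j, i ≤ j → dist (γ i) (γ j) ≤ j - i := fun i j hij => by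
    induction j, hij using Nat.le_induction with
    | base => simp
    | succ j _ ih => push_cast; linarith [dist_triangle (γ i) (γ j) (γ (j + 1)), h j]
  intro i j h1 h2
  have a1 := key 0 i (Nat.zero_le _)
  have a2 := key j n h2
  have a3 := dist_triangle4 (γ 0) (γ i) (γ j) (γ n)
  refine le_antisymm (key i j h1) ?_
  push_cast at a1
  linarith

theorem Geo.reach {γ : ℕ → V} {n : ℕ} (h : Geo γ n) {Q : V → Prop} (hQ : ∀ k ≤ n, Q (γ k))
    {i j : ℕ} (hi : i ≤ n) (hj : j ≤ n) : Reach Q (γ i) (γ j) (dist (γ i) (γ j)) := by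
  wlog hij : i ≤ j generalizing i j
  · rw [dist_comm]; exact (this hj hi (by omega)).symm
  induction j, hij using Nat.le_induction with
  | base => exact .refl _ _ (hQ i hi) dist_nonneg
  | succ j hij ih =>
    have h1 : dist (γ j) (γ (j + 1)) = 1 := by rw [h j (j + 1) (by omega) hj]; simp
    refine ((ih (by omega)).trans (.step _ _ _ 0 (hQ j (by omega)) h1.le
      (.refl _ _ (hQ _ hj) le_rfl))).mono (fun _ h => h) ?_
    rw [h i j hij (by omega), h i _ (by omega) hj]
    push_cast; linarith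

/-- Any two points are joined by a geodesic. -/
def Geod (V : Type*) [PseudoMetricSpace V] : Prop :=
  ∀ a b : V, ∃ (n : ℕ) (γ : ℕ → V), γ 0 = a ∧ γ n = b ∧ Geo γ n

/-- The area inequality. -/
def Area (V : Type*) [PseudoMetricSpace V] (C : ℝ) : Prop :=
  ∀ (f g : V → ℝ), (∀ x y, f x - f y ≤ dist x y) → (∀ x y, g x - g y ≤ dist x y) →
    ∀ (Q Q' : V → Prop) (a b : V) (n m r : ℝ), Reach Q a b n → Reach Q' b a m →
      (∀ x, Q x → f x = 0) → (∀ x y, Q' x → dist x y ≤ 1 → f x = r ∨ g x = g y) →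
      r * (g b - g a) ≤ C * (n + m)

theorem Geod.ball (hG : Geod V) (a b : V) :
    Reach (fun x => dist a x ≤ dist a b) a b (dist a b) := by
  obtain ⟨n, γ, rfl, rfl, h⟩ := hG a b
  refine h.reach (fun k hk => ?_) (Nat.zero_le _) le_rfl
  rw [h 0 k (Nat.zero_le _) hk, h 0 n (Nat.zero_le _) le_rfl]
  gcongr

/-- Quadratic divergence. -/
theorem diverge {C : ℝ} (hA : Area V C) {γ : ℕ → V} {n : ℕ} (h : Geo γ n) {i k j : ℕ} (hik : i ≤ k)
    (hkj : k ≤ j) (hj : j ≤ n) {r m : ℝ} (hr : 0 ≤ r)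
    (hm : Reach (fun x => 3 * r + 1 ≤ dist x (γ k)) (γ j) (γ i) m) :
    r * (2 * r) ≤ C * (dist (γ i) (γ j) + m) := by
  set S : Set V := γ '' Set.Iic n
  have hS : S.Nonempty := ⟨γ 0, 0, Nat.zero_le n, rfl⟩
  have a1 := hm.left
  have a2 := hm.right
  rw [dist_comm, h k j hkj hj] at a1
  rw [h i k hik (by omega)] at a2
  have key := hA (fun x => min r (Metric.infDist x S)) (fun x => max (-r) (min r (dist (γ 0) x - k)))
    (fun x y => by
      have := Metric.infDist_le_infDist_add_dist (x := x) (y := y) (s := S)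
      have := dist_nonneg (x := x) (y := y)
      simp only [min_def]; split_ifs <;> linarith)
    (fun x y => by
      have := dist_triangle_right (γ 0) x y
      have := dist_nonneg (x := x) (y := y)
      simp only [min_def, max_def]; split_ifs <;> linarith)
    (· ∈ S) _ _ _ _ _ r (h.reach (fun k hk => ⟨k, hk, rfl⟩) (by omega : i ≤ n) hj) hm
    (fun x hx => by rw [Metric.infDist_zero_of_mem hx, min_eq_right hr])
    (fun x y hx hxy => by
      by_contra hn
      push Not at hn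
      obtain ⟨_, ⟨l, hl, rfl⟩, h2⟩ := (Metric.infDist_lt_iff hS).1
        (lt_of_not_ge fun h => hn.1 (min_eq_left h))
      have b1 := dist_triangle x (γ l) (γ k)
      have b2 := abs_dist_sub_le x (γ l) (γ 0)
      have b3 := abs_dist_sub_le x y (γ 0)
      rw [h.abs hl (by omega)] at b1
      rw [dist_comm (γ l), h 0 l (Nat.zero_le _) hl, dist_comm x (γ 0), abs_le] at b2
      rw [dist_comm x (γ 0), dist_comm y, abs_le] at b3
      apply hn.2
      push_cast at b2
      rcases abs_cases ((l : ℝ) - k) with b4 | b4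
      · rw [min_eq_left (by linarith), min_eq_left (by linarith)]
      · rw [max_eq_left (min_le_of_right_le (by linarith)),
          max_eq_left (min_le_of_right_le (by linarith))])
  simp only [h 0 i (Nat.zero_le _) (by omega), h 0 j (Nat.zero_le _) hj, Nat.cast_zero,
    sub_zero] at key
  rw [min_eq_left (by linarith), max_eq_right (by linarith),
    max_eq_left (min_le_of_right_le (by linarith))] at key
  linarith

/-- Morse lemma. -/
theorem morse (hG : Geod V) {C : ℝ} (hC : 0 ≤ C) (hA : Area V C) {c : Set V}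
    (hc : ∀ s ∈ c, ∀ t ∈ c, Reach (· ∈ c) s t (3 * dist s t)) {γ : ℕ → V} {n : ℕ} (h : Geo γ n)
    (h0 : γ 0 ∈ c) (hn : γ n ∈ c) {i : ℕ} (hi : i ≤ n) : ∃ s ∈ c, dist (γ i) s ≤ 180 * C + 5 := by
  have hc0 : c.Nonempty := ⟨_, h0⟩
  obtain ⟨k, hk, hmax⟩ := (Finset.range (n + 1)).exists_max_image
    (fun i => Metric.infDist (γ i) c) ⟨0, by simp⟩
  simp only [Finset.mem_range, Nat.lt_add_one_iff] at hk hmax
  set R := Metric.infDist (γ k) c with hR
  suffices R ≤ 180 * C + 4 by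
    obtain ⟨s, hs, h1⟩ := (Metric.infDist_lt_iff hc0).1
      (show Metric.infDist (γ i) c < 180 * C + 5 by linarith [hmax i hi])
    exact ⟨s, hs, h1.le⟩
  by_contra hlt
  push Not at hlt
  have far : ∀ s ∈ c, R ≤ dist s (γ k) := fun s hs => dist_comm s _ ▸ Metric.infDist_le_dist_of_mem hs
  have T1 := Nat.le_ceil (2 * R + 1)
  have T2 := (Nat.ceil_lt_add_one (show 0 ≤ 2 * R + 1 by linarith)).le
  generalize ⌈2 * R + 1⌉₊ = T at T1 T2
  have foot : ∀ l ≤ n, (γ l ∈ c ∨ dist (γ l) (γ k) = T) → ∃ s ∈ c, dist (γ l) s ≤ R + 1 ∧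
      Reach (fun x => R ≤ dist x (γ k)) (γ l) s (R + 1) := fun l hl h1 => by
    rcases h1 with h1 | h1
    · exact ⟨_, h1, by simp; linarith, .refl _ _ (far _ h1) (by linarith)⟩
    · obtain ⟨s, hs, h2⟩ := (Metric.infDist_lt_iff hc0).1
        (show Metric.infDist (γ l) c < R + 1 by linarith [hmax l hl])
      refine ⟨s, hs, h2.le, (hG.ball _ _).mono (fun x hx => ?_) h2.le⟩
      linarith [dist_triangle (γ l) x (γ k)]
  obtain ⟨u, hu, u1, u2⟩ := foot (k - T) (by omega) (by
    rcases le_total T k with h1 | h1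
    · right; rw [h _ _ (by omega) hk, Nat.cast_sub h1]; ring
    · left; rwa [Nat.sub_eq_zero_of_le h1])
  obtain ⟨v, hv, v1, v2⟩ := foot (min (k + T) n) (by omega) (by
    rcases le_total (k + T) n with h1 | h1
    · right; rw [min_eq_left h1, dist_comm, h _ _ (by omega) h1]; simp
    · left; rwa [min_eq_right h1])
  have d1 : dist (γ (k - T)) (γ (min (k + T) n)) ≤ 2 * T := by
    rw [h _ _ (by omega) (by omega), sub_le_iff_le_add]
    exact_mod_cast (by omega : min (k + T) n ≤ 2 * T + (k - T))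
  have d2 := dist_triangle4 v (γ (min (k + T) n)) (γ (k - T)) u
  rw [dist_comm v (γ _), dist_comm (γ (min _ _)) (γ _)] at d2
  have key := diverge hA h (r := (R - 1) / 3) (by omega : k - T ≤ k) (by omega) (by omega)
    (by linarith) (((v2.trans ((hc v hv u hu).mono far le_rfl)).trans u2.symm).mono
      (fun x hx => by linarith) le_rfl)
  have : C * (dist (γ (k - T)) (γ (min (k + T) n)) + (R + 1 + 3 * dist v u + (R + 1))) ≤
      C * (40 * (R - 1)) := by gcongr; linarith
  nlinarith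

theorem proj (hG : Geod V) {C : ℝ} (hC : 0 ≤ C) (hA : Area V C) {σ : ℕ → V} {N : ℕ} (h : Geo σ N)
    {z : V} (hz : ∀ i ≤ N, dist (σ N) z ≤ dist (σ i) z) :
    N + dist (σ N) z ≤ dist (σ 0) z + (1080 * C + 32) := by
  obtain ⟨K, τ, t0, rfl, ht⟩ := hG (σ N) z
  obtain ⟨L, γ, g0, g1, hg⟩ := hG (σ 0) (τ K)
  have q1 : ∀ i ≤ N, ∀ j ≤ K, dist (σ N) (τ j) ≤ dist (σ i) (τ j) := fun i hi j hj => by
    have a1 := hz i hi
    have a2 := dist_triangle (σ i) (τ j) (τ K)
    rw [← t0, ht 0 K (Nat.zero_le _) le_rfl] at a1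
    rw [ht j K hj le_rfl] at a2
    rw [← t0, ht 0 j (Nat.zero_le _) hj]
    linarith
  have q2 : ∀ s ∈ σ '' Set.Iic N ∪ τ '' Set.Iic K, ∀ t ∈ σ '' Set.Iic N ∪ τ '' Set.Iic K,
      Reach (· ∈ σ '' Set.Iic N ∪ τ '' Set.Iic K) s t (3 * dist s t) := by
    have r1 := fun i j => @h.reach _ _ _ _ (· ∈ σ '' Set.Iic N ∪ τ '' Set.Iic K)
      (fun k hk => Or.inl ⟨k, hk, rfl⟩) i j
    have r2 := fun i j => @ht.reach _ _ _ _ (· ∈ σ '' Set.Iic N ∪ τ '' Set.Iic K)
      (fun k hk => Or.inr ⟨k, hk, rfl⟩) i j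
    have r3 : ∀ i ≤ N, ∀ j ≤ K, Reach (· ∈ σ '' Set.Iic N ∪ τ '' Set.Iic K) (σ i) (τ j)
        (3 * dist (σ i) (τ j)) := fun i hi j hj => by
      refine ((r1 i N hi le_rfl).trans (t0 ▸ r2 0 j (Nat.zero_le _) hj)).mono (fun _ h => h) ?_
      linarith [q1 i hi j hj, dist_triangle_right (σ i) (σ N) (τ j)]
    rintro _ (⟨i, hi, rfl⟩ | ⟨i, hi, rfl⟩) _ (⟨j, hj, rfl⟩ | ⟨j, hj, rfl⟩)
    · exact (r1 i j hi hj).mono (fun _ h => h) (by linarith [dist_nonneg (x := σ i) (y := σ j)])
    · exact r3 i hi j hj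
    · rw [dist_comm]; exact (r3 j hj i hi).symm
    · exact (r2 i j hi hj).mono (fun _ h => h) (by linarith [dist_nonneg (x := τ i) (y := τ j)])
  have q3 := fun i (hi : i ≤ L) => morse hG hC hA q2 hg (Or.inl ⟨0, Nat.zero_le N, g0.symm⟩)
    (Or.inr ⟨K, le_refl K, g1.symm⟩) hi
  have q4 : ∀ l ≤ L, (∃ j ≤ K, dist (γ l) (τ j) ≤ 180 * C + 5) →
      ∃ l ≤ L, dist (γ l) (σ N) ≤ 540 * C + 16 := fun l => by
    induction l with
    | zero =>
      rintro hl ⟨j, hj, h1⟩
      have := q1 0 (Nat.zero_le _) j hj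
      refine ⟨0, hl, ?_⟩
      rw [g0] at h1 ⊢
      linarith [dist_triangle_right (σ 0) (σ N) (τ j)]
    | succ l ih =>
      rintro hl ⟨j, hj, h1⟩
      obtain ⟨_, ⟨i, hi, rfl⟩ | ⟨i, hi, rfl⟩, h2⟩ := q3 l (by omega)
      · have a1 := q1 i hi j hj
        have a2 := dist_triangle4 (σ i) (γ l) (γ (l + 1)) (τ j)
        rw [hg l (l + 1) (by omega) hl, dist_comm _ (γ l)] at a2
        push_cast at a2
        exact ⟨l + 1, hl, by linarith [dist_triangle_right (γ (l + 1)) (σ N) (τ j)]⟩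
      · exact ih (by omega) ⟨i, hi, h2⟩
  obtain ⟨l, hl, h1⟩ := q4 L le_rfl ⟨K, le_rfl, by rw [g1, dist_self]; linarith⟩
  have a1 := dist_triangle (γ 0) (γ l) (σ N)
  have a2 := dist_triangle_left (σ N) (γ L) (γ l)
  have a3 := h 0 N (Nat.zero_le _) le_rfl
  rw [← g0] at a3 ⊢
  rw [← g1, hg 0 L (Nat.zero_le _) le_rfl]
  rw [hg 0 l (Nat.zero_le _) hl] at a1
  rw [hg l L hl le_rfl] at a2
  push_cast at *
  linarith

theorem proj' (hG : Geod V) {C : ℝ} (hC : 0 ≤ C) (hA : Area V C) {γ : ℕ → V} {n : ℕ} (h : Geo γ n)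
    (z : V) : ∃ j ≤ n, j + dist (γ j) z ≤ dist (γ 0) z + (1080 * C + 32) ∧
      n - j + dist (γ j) z ≤ dist (γ n) z + (1080 * C + 32) := by
  obtain ⟨j, hj, hmin⟩ := (Finset.range (n + 1)).exists_min_image (fun i => dist (γ i) z)
    ⟨0, by simp⟩
  simp only [Finset.mem_range, Nat.lt_add_one_iff] at hj hmin
  refine ⟨j, hj, proj hG hC hA (fun a b h1 h2 => h a b h1 (h2.trans hj))
    fun i hi => hmin i (hi.trans hj), ?_⟩
  have := proj hG hC hA (h.rev j) (z := z) fun i _ => by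
    rw [Nat.sub_sub_self hj]; exact hmin _ (by omega)
  rwa [Nat.sub_sub_self hj, Nat.cast_sub hj] at this

theorem four_point (hG : Geod V) {C : ℝ} (hC : 0 ≤ C) (hA : Area V C) (w x y z : V) :
    min ((dist x w + dist y w - dist x y) / 2) ((dist y w + dist z w - dist y z) / 2) -
      (1620 * C + 48) ≤ (dist x w + dist z w - dist x z) / 2 := by
  obtain ⟨n, γ, rfl, rfl, h⟩ := hG x z
  obtain ⟨i, hi, a1, a2⟩ := proj' hG hC hA h w
  obtain ⟨j, hj, b1, b2⟩ := proj' hG hC hA h y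
  have c1 := dist_triangle (γ 0) (γ i) w
  have c2 := dist_triangle (γ n) (γ i) w
  have c3 := dist_triangle4 y (γ j) (γ i) w
  rw [h 0 i (Nat.zero_le _) hi] at c1
  rw [dist_comm _ (γ i), h i n hi le_rfl] at c2
  rw [h.abs hj hi, dist_comm y (γ j)] at c3
  rw [h 0 n (Nat.zero_le _) le_rfl, dist_comm y (γ n), sub_le_iff_le_add, min_le_iff]
  push_cast at *
  rcases abs_cases ((j : ℝ) - i) with d | d
  · left; linarith
  · right; linarith

end Crest.Agent.KP.Hyp
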