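import Crest.Agent.KP.Alg
import Crest.Agent.KP.HypGeo

/-! KP, task HYP: a linear isoperimetric inequality gives hyperbolicity. -/

set_option autoImplicit false

namespace Crest.Agent.KP

open Crest.GroupTheory

namespace Hyp

variable {X R : Type} (P : TriPres X R)

theorem ev_nil : P.ev [] = 1 := rfl
theorem ev_cons (y : X × Bool) (l : List (X × Bool)) : P.ev (y :: l) = P.lt y * P.ev l := by
  simp [TriPres.ev]
theorem ev_append (l l' : List (X × Bool)) : P.ev (l ++ l') = P.ev l * P.ev l' := by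
  simp [TriPres.ev]

theorem ev_inv (l : List (X × Bool)) : ∃ l', l'.length = l.length ∧ P.ev l' = (P.ev l)⁻¹ := by
  induction l with
  | nil => exact ⟨[], rfl, by simp [ev_nil]⟩
  | cons y l ih =>
    obtain ⟨l', h1, h2⟩ := ih
    refine ⟨l' ++ [(y.1, !y.2)], by simp [h1], ?_⟩
    rw [ev_append, ev_cons, ev_cons, h2, ev_nil, mul_one, mul_inv_rev]
    obtain ⟨x, _ | _⟩ := y <;> simp [TriPres.lt]

theorem wl_eq (g : P.G) : wordLength (Set.range P.gen) g =
    sInf {n : ℕ | ∃ l : List (X × Bool), l.length = n ∧ P.ev l = g} := by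
  unfold wordLength
  congr 1
  ext n
  constructor
  · rintro ⟨l, rfl, h, rfl⟩
    induction l with
    | nil => exact ⟨[], rfl, rfl⟩
    | cons a l ih =>
      obtain ⟨l', h1, h2⟩ := ih fun x hx => h x (List.mem_cons_of_mem _ hx)
      rcases h a List.mem_cons_self with ⟨x, rfl⟩ | ⟨x, hx⟩
      · exact ⟨(x, true) :: l', by simp [h1], by rw [ev_cons, h2]; simp [TriPres.lt]⟩
      · exact ⟨(x, false) :: l', by simp [h1], by rw [ev_cons, h2]; simp [TriPres.lt, hx]⟩
  · rintro ⟨l, rfl, rfl⟩
    refine ⟨l.map P.lt, by simp, fun x hx => ?_, rfl⟩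
    obtain ⟨⟨y, _ | _⟩, -, rfl⟩ := List.mem_map.1 hx
    · exact Or.inr ⟨y, by simp [TriPres.lt]⟩
    · exact Or.inl ⟨y, rfl⟩

theorem wl_le (l : List (X × Bool)) : wordLength (Set.range P.gen) (P.ev l) ≤ l.length := by
  rw [wl_eq]; exact Nat.sInf_le ⟨l, rfl, rfl⟩

theorem closure_gen : Subgroup.closure (Set.range P.gen) = ⊤ := PresentedGroup.closure_range_of _

theorem wl_spec (g : P.G) :
    ∃ l : List (X × Bool), l.length = wordLength (Set.range P.gen) g ∧ P.ev l = g := by
  rw [wl_eq]
  refine Nat.sInf_mem (s := {n : ℕ | ∃ l : List (X × Bool), l.length = n ∧ P.ev l = g}) ?_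
  have hg : g ∈ Subgroup.closure (Set.range P.gen) := by rw [closure_gen]; trivial
  induction hg using Subgroup.closure_induction with
  | mem x hx => obtain ⟨y, rfl⟩ := hx; exact ⟨_, [(y, true)], rfl, by simp [TriPres.ev, TriPres.lt]⟩
  | one => exact ⟨_, [], rfl, rfl⟩
  | mul x y _ _ h1 h2 =>
    obtain ⟨_, l, rfl, rfl⟩ := h1
    obtain ⟨_, l', rfl, rfl⟩ := h2
    exact ⟨_, l ++ l', rfl, ev_append P _ _⟩
  | inv x _ h =>
    obtain ⟨_, l, rfl, rfl⟩ := h
    obtain ⟨l', -, h2⟩ := ev_inv P l
    exact ⟨_, l', rfl, h2⟩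

theorem wd_le {a b : P.G} {l : List (X × Bool)} (h : a * P.ev l = b) :
    wordDist (Set.range P.gen) a b ≤ l.length := by
  rw [wordDist, ← h, inv_mul_cancel_left]; exact Nat.cast_le.2 (wl_le P l)

theorem wd_spec (a b : P.G) :
    ∃ l : List (X × Bool), wordDist (Set.range P.gen) a b = l.length ∧ a * P.ev l = b := by
  obtain ⟨l, h1, h2⟩ := wl_spec P (a⁻¹ * b)
  exact ⟨l, by rw [wordDist, h1], by rw [h2, mul_inv_cancel_left]⟩

/-- The word metric. -/
noncomputable local instance pm : PseudoMetricSpace P.G where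
  dist := wordDist (Set.range P.gen)
  dist_self a := le_antisymm (by simpa using wd_le P (a := a) (l := []) (mul_one a))
    (Nat.cast_nonneg _)
  dist_comm := by
    have key : ∀ a b, wordDist (Set.range P.gen) a b ≤ wordDist (Set.range P.gen) b a :=
      fun a b => by
        obtain ⟨l, h1, h2⟩ := wd_spec P b a
        obtain ⟨l', h3, h4⟩ := ev_inv P l
        rw [h1, ← h3]
        exact wd_le P (by rw [h4, ← h2, mul_inv_cancel_right])
    exact fun a b => le_antisymm (key a b) (key b a)
  dist_triangle a b c := by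
    obtain ⟨l, h1, h2⟩ := wd_spec P a b
    obtain ⟨l', h3, h4⟩ := wd_spec P b c
    have := wd_le P (a := a) (b := c) (l := l ++ l') (by rw [ev_append, ← mul_assoc, h2, h4])
    rw [h1, h3]
    simpa using this

theorem dist_lt (a : P.G) (y : X × Bool) : dist a (a * P.lt y) ≤ 1 :=
  (wd_le P (a := a) (l := [y]) (by rw [ev_cons, ev_nil, mul_one])).trans (by simp)

theorem dist_gen (a : P.G) (x : X) : dist a (a * P.gen x) ≤ 1 := dist_lt P a (x, true)

theorem geod : Geod P.G := fun a b => by
  obtain ⟨l, h1, h2⟩ := wd_spec P a b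
  have h3 : a * P.ev (l.take l.length) = b := by rwa [List.take_length]
  refine ⟨l.length, fun i => a * P.ev (l.take i), mul_one a, h3, geo_of_step (fun i => ?_) ?_⟩
  · rw [List.take_add_one, ev_append, ← mul_assoc]
    cases l[i]? with
    | none => simp [ev_nil]
    | some y => simpa [ev_cons, ev_nil] using dist_lt P _ y
  · rw [h3, List.take_zero, ev_nil, mul_one]; exact h1

theorem pathSum_append (β : P.G → X → ℝ) (g : P.G) (l l' : List (X × Bool)) :
    P.pathSum β g (l ++ l') = P.pathSum β g l + P.pathSum β (g * P.ev l) l' := by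
  induction l generalizing g with
  | nil => simp [TriPres.pathSum, ev_nil]
  | cons y l ih =>
    obtain ⟨x, _ | _⟩ := y <;>
      simp [TriPres.pathSum, ih, ev_cons, TriPres.lt, add_assoc, mul_assoc]

theorem pathSum_shift (β : P.G → X → ℝ) (a g : P.G) (l : List (X × Bool)) :
    P.pathSum (fun h => β (a * h)) g l = P.pathSum β (a * g) l := by
  induction l generalizing g with
  | nil => rfl
  | cons y l ih => obtain ⟨x, _ | _⟩ := y <;> simp [TriPres.pathSum, ih, mul_assoc]

theorem reach_word (β : P.G → X → ℝ) (F : P.G → ℝ) {Q : P.G → Prop}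
    (hF : ∀ g x, Q g → β g x = F (g * P.gen x) - F g) {a b : P.G} {r : ℝ} (h : Reach Q a b r) :
    ∃ l : List (X × Bool), l.length ≤ r ∧ a * P.ev l = b ∧ P.pathSum β a l = F b - F a := by
  induction h with
  | refl a r _ h2 => exact ⟨[], by simpa, mul_one a, by simp [TriPres.pathSum]⟩
  | step a b c r h1 h2 h3 ih =>
    obtain ⟨l, l1, l2, l3⟩ := ih
    obtain ⟨l', h4, rfl⟩ := wd_spec P a b
    have h5 : (l'.length : ℝ) ≤ 1 := h4 ▸ h2
    refine ⟨l' ++ l, by simp; linarith, by rw [ev_append, ← mul_assoc, l2], ?_⟩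
    rw [pathSum_append, l3]
    match l', h5 with
    | [], _ => simp [TriPres.pathSum, ev_nil]
    | [(x, true)], _ => simp [TriPres.pathSum, ev_cons, ev_nil, TriPres.lt, hF a x h1]
    | [(x, false)], _ =>
      have := hF _ x h3.left
      simp [TriPres.pathSum, ev_cons, ev_nil, TriPres.lt] at this ⊢
      simp [this]
    | _ :: _ :: _, h => exfalso; simp at h; linarith [Nat.cast_nonneg (α := ℝ) (List.length ‹_›)]

theorem area {C : ℝ} (h : P.LinIso C) : Area P.G |C| := by
  intro f g hf hg Q Q' a b n m r h1 h2 h3 h4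
  obtain ⟨l, l1, l2, l3⟩ := reach_word P (fun u x => f u * (g (u * P.gen x) - g u)) (fun _ => 0)
    (fun u x hu => by simp [h3 u hu]) h1
  obtain ⟨l', m1, m2, m3⟩ := reach_word P (fun u x => f u * (g (u * P.gen x) - g u))
    (fun u => r * g u) (fun u x hu => by
      rcases h4 u _ hu (dist_gen P u x) with h | h
      · rw [h, mul_sub]
      · simp [← h]) h2
  have lip : ∀ f : P.G → ℝ, (∀ x y, f x - f y ≤ dist x y) → ∀ u x, |f (u * P.gen x) - f u| ≤ 1 :=
    fun f hf u x => by
      have a1 := hf u (u * P.gen x)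
      have a2 := hf (u * P.gen x) u
      rw [dist_comm] at a2
      exact abs_le.2 ⟨by linarith [dist_gen P u x], by linarith [dist_gen P u x]⟩
  have key := h (fun u x => f (a * u) * (g (a * u * P.gen x) - g (a * u))) (fun u ρ => by
    have e : P.gen (P.c ρ) = P.gen (P.a ρ) * P.gen (P.b ρ) := by
      have := PresentedGroup.one_of_mem (rels := Set.range P.rel) ⟨ρ, rfl⟩
      rw [TriPres.rel, map_mul, map_mul, map_inv, mul_inv_eq_one] at this
      exact this.symm
    have : P.cob (fun u x => f (a * u) * (g (a * u * P.gen x) - g (a * u))) u ρ =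
        (f (a * u * P.gen (P.a ρ)) - f (a * u)) *
          (g (a * u * P.gen (P.a ρ) * P.gen (P.b ρ)) - g (a * u * P.gen (P.a ρ))) := by
      simp only [TriPres.cob, e, mul_assoc]; ring
    rw [this, abs_mul]
    exact mul_le_one₀ (lip f hf _ _) (abs_nonneg _) (lip g hg _ _)) (l ++ l')
    (mul_left_cancel (a := a) (by rw [ev_append, ← mul_assoc, l2, m2, mul_one]))
  rw [pathSum_shift P (fun u x => f u * (g (u * P.gen x) - g u)), mul_one, pathSum_append, l2, l3,
    m3, List.length_append] at key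
  have a1 : C * ((l.length + l'.length : ℕ) : ℝ) ≤ |C| * (n + m) := by
    push_cast
    gcongr
    exact le_abs_self C
  linarith [neg_abs_le (0 - 0 + (r * g a - r * g b))]

theorem main [Fintype X] {C : ℝ} (h : P.LinIso C) : IsHyperbolicGroup P.G := by
  classical
  have hS : ((Finset.univ.image P.gen : Finset P.G) : Set P.G) = Set.range P.gen := by simp
  refine ⟨Finset.univ.image P.gen, hS ▸ closure_gen P, 1620 * |C| + 48, by positivity,
    fun w x y z => ?_⟩
  rw [hS]
  exact four_point (geod P) (abs_nonneg C) (area P h) w x y z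

end Hyp

theorem hyp : HypStmt := fun _ _ _ P _ h => Hyp.main P h

end Crest.Agent.KP
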