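import Crest.Agent.KP.Loc4

/-! # LOC: the random graph has the local property -/

set_option autoImplicit false

namespace Crest.Agent.KP

open Finset Real Filter

namespace Loc

theorem ev_lin (A ε : ℝ) (hε : 0 < ε) : ∀ᶠ g : ℕ in atTop, A ≤ ε * g := by
  filter_upwards [eventually_ge_atTop ⌈A / ε⌉₊] with g hg
  have : A / ε ≤ g := (Nat.le_ceil _).trans (by exact_mod_cast hg)
  rwa [div_le_iff₀' hε] at this

theorem ev_log (A B ε : ℝ) (hA : 0 ≤ A) (hB : 0 < B) (hε : 0 < ε) :
    ∀ᶠ g : ℕ in atTop, log (A * g + B) ≤ ε * g := by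
  have hδ : 0 < ε / (2 * (A + 1)) := by positivity
  filter_upwards [ev_lin (ε / (2 * (A + 1)) * B - log (ε / (2 * (A + 1)))) (ε / 2) (by positivity)]
    with g hg
  have hx : 0 < A * g + B := by positivity
  have h1 := log_le_sub_one_of_pos (mul_pos hδ hx)
  rw [log_mul hδ.ne' hx.ne'] at h1
  have h2 : ε / (2 * (A + 1)) * A ≤ ε / 2 := by
    rw [div_mul_eq_mul_div, div_le_div_iff₀ (by positivity) (by positivity)]
    nlinarith
  have h3 : (0 : ℝ) ≤ g := by positivity
  nlinarith [mul_le_mul_of_nonneg_right h2 h3]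

theorem ev_pow (A B ε : ℝ) (hA : 0 ≤ A) (hB : 0 < B) (hε : 0 < ε) :
    ∀ᶠ g : ℕ in atTop, A * g + B ≤ ε * 2 ^ g := by
  have l2 : 0 < log 2 := log_pos (by norm_num)
  filter_upwards [ev_log A B (log 2 / 2) hA hB (by positivity),
    ev_lin (-log ε) (log 2 / 2) (by positivity)] with g h1 h2
  have hx : 0 < A * g + B := by positivity
  rw [← log_le_log_iff hx (by positivity), log_mul hε.ne' (by positivity), log_pow]
  linarith

end Loc

set_option maxHeartbeats 1600000 in
open Loc in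
theorem loc (hP : ProbStmt) (hC : CleanStmt) (hS : SheetStmt) : LocStmt := by
  classical
  intro S Col Cl _ _ _ _ lb Fr C0 hne
  obtain ⟨μ, hμ⟩ := exists_sub Fr
  obtain ⟨β, hβ⟩ := exists_bd Fr μ
  have hb0 : 0 ≤ β := (abs_nonneg _).trans hβ.2.2.2.2
  set a := -log μ with ha_def
  have ha : 0 < a := by have := log_neg hμ.1 hμ.2.1; linarith
  set θ := 1 - exp (-(a / 32)) with hθ
  have θ0 : 0 < θ := by
    have : exp (-(a / 32)) < 1 := by rw [exp_lt_one_iff]; linarith
    linarith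
  have θ1 : θ < 1 := by have := exp_pos (-(a / 32)); linarith
  have θl : log (1 - θ) = -(a / 32) := by rw [hθ, sub_sub_cancel, log_exp]
  have hS1 : 1 ≤ Fintype.card S := Fintype.card_pos
  have hS2 : (1 : ℝ) ≤ Fintype.card S := by exact_mod_cast hS1
  set d : ℝ := Fintype.card S + 1 with hd
  have d1 : 1 ≤ d := by linarith
  have ld : 0 ≤ log (2 * d) := log_nonneg (by linarith)
  refine ⟨a / 8 / (a / 2 + 7 * β), ⌈8 * log (2 * d) / a⌉₊ + 1, by positivity, by omega,
    fun K => ?_⟩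
  obtain ⟨C, hCl⟩ := hC K
  set P : ℝ := 2 + 2 * (C + C * C) with hPdef
  have P0 : 0 < P := by positivity
  set ε : ℝ := a / 16 / (2 * C + 6 * C * P + 1) with hε
  have ε0 : 0 < ε := by positivity
  obtain ⟨g, g3, g1, g2, g4, g5, g6, g7⟩ := ((eventually_ge_atTop 3).and
    ((ev_pow K 2 (θ * exp (-β)) (by positivity) (by norm_num) (by positivity)).and
    ((ev_pow 0 1 (a / 16) le_rfl (by norm_num) (by positivity)).and
    ((ev_log (2 * K) 2 ε (by positivity) (by norm_num) ε0).and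
    ((ev_log (2 * K * Fintype.card S) ((Fintype.card Cl + 1) * Fintype.card S) ε (by positivity)
      (by positivity) ε0).and
    ((ev_log (4 * K) 4 ε (by positivity) (by norm_num) ε0).and
    (ev_lin ((C + C * C) * a + 14 * β * (C + C * C) +
      2 * C * (4 * β + P * (-log θ + 2 * log (2 * C0) + 4 * β))) (a / 16)
      (by positivity)))))))).exists
  refine ⟨g, (2 * (Fintype.card S + 1)) ^ g, by omega, Nat.one_le_pow _ _ (by omega),
    fun V _ _ L col c0 hPop hV => ?_⟩
  set n := (2 * (Fintype.card S + 1)) ^ g with hn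
  have hn1 : 1 ≤ n := Nat.one_le_pow _ _ (by omega)
  have hnr : (n : ℝ) = 2 ^ g * d ^ g := by rw [hn, hd, ← mul_pow]; push_cast; ring
  have dg : 1 ≤ d ^ g := one_le_pow₀ d1
  have hF : ∀ c s, exp (-β) ≤ Fr.F1 c s := fun c s => by
    rw [← le_log_iff_exp_le (Fr.F1_pos c s)]
    exact (abs_le.1 (hβ.1 c s)).1
  have hR : ∀ c s, (((K * g : ℕ) : ℝ) + 2 * (Fintype.card S + 1) ^ g) ≤ θ * (n * Fr.F1 c s) := by
    intro c s
    have h0 : (0 : ℝ) ≤ K * g := by positivity
    calc _ ≤ (K * g + 2) * d ^ g := by push_cast; rw [← hd]; nlinarith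
      _ ≤ (θ * exp (-β) * 2 ^ g) * d ^ g := mul_le_mul_of_nonneg_right g1 (by positivity)
      _ = θ * (n * exp (-β)) := by rw [hnr]; ring
      _ ≤ _ := mul_le_mul_of_nonneg_left
          (mul_le_mul_of_nonneg_left (hF c s) (by positivity)) θ0.le
  obtain ⟨Γ, hcol, hgir, hFM⟩ := exists_FM Fr L col hP hμ θ0.le θ1.le hPop c0 g (K * g) (by
    intro v s _
    have h1 := hR (Fr.cls (col v)) s
    have h2 := hPop.low (col v) s
    have h3 : 0 < n * Fr.F1 (Fr.cls (col v)) s := by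
      have := Fr.F1_pos (Fr.cls (col v)) s
      positivity
    have : (((K * g : ℕ) : ℝ) + 2 * (Fintype.card S + 1) ^ g) < N1 L col (col v) s := by
      nlinarith
    exact_mod_cast this)
  refine ⟨Γ, hcol, hgir, fun T _ _ M B hreg hcyc hB hT1 hT2 hcut => ?_⟩
  have hsub : M.cut ⊆ B := fun t ht => by_contra fun h => (hreg t h).1 ht
  have hg3 : Γ.Girth 3 := fun k p h0 h1 => hgir k p h0 (by omega)
  have hTne : Nonempty T := Fintype.card_pos_iff.1 (by omega)
  obtain ⟨c1, c2, Bad, hBad, hcl⟩ := hCl S V lb L Γ c0 g T M B hgir g3 hsub hcyc hB hT2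
  obtain ⟨rank, ord, fw, E, D, s1, s2, s3, s4, s5, s6, s7, s8⟩ := hS S V lb L Γ c0 T M B hTne
    (fun v s hs => noloop hg3 (v, s) hs) hsub hcyc
  let H : Sheets M B c0 (K * g) :=
    ⟨rank, ord, fw, E, D, s1, s2, s3, s4, s5, s6, s7, s8, hreg, hg3, hT2, hTne⟩
  have hC0 : (1 : ℝ) ≤ C0 := by
    have h0 : 0 < Fintype.card V := Fintype.card_pos_iff.2 ⟨c0⟩
    have : 1 ≤ C0 := by
      rcases Nat.eq_zero_or_pos C0 with h | h
      · rw [h] at hV; omega
      · exact h
    exact_mod_cast this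
  have hM : ((Fintype.card (Mode Cl (K * g)) : ℝ) * Fintype.card S) =
      2 * K * Fintype.card S * g + (Fintype.card Cl + 1) * Fintype.card S := by
    simp only [Fintype.card_sum, Fintype.card_option, Fintype.card_prod, Fintype.card_fin,
      Fintype.card_bool]
    push_cast
    ring
  have hlam : lam S Cl θ β C0 (K * g) = -log θ +
      log (2 * K * Fintype.card S * g + (Fintype.card Cl + 1) * Fintype.card S) +
      2 * (log (4 * K * g + 4) + log (2 * C0)) + 4 * β := by
    unfold lam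
    rw [hM]
    push_cast
    ring_nf
  have hlam0 : 0 ≤ lam S Cl θ β C0 (K * g) := by
    rw [hlam]
    have q1 : log θ ≤ 0 := log_nonpos θ0.le θ1.le
    have q2 : 0 ≤ log (2 * K * Fintype.card S * g + (Fintype.card Cl + 1) * Fintype.card S : ℝ) := by
      apply log_nonneg
      have : (0 : ℝ) ≤ 2 * K * Fintype.card S * g := by positivity
      have : (0 : ℝ) ≤ Fintype.card Cl * Fintype.card S := by positivity
      nlinarith
    have q3 : 0 ≤ log (4 * K * g + 4 : ℝ) := by
      apply log_nonneg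
      have : (0 : ℝ) ≤ 4 * K * g := by positivity
      linarith
    have q4 : 0 ≤ log (2 * C0 : ℝ) := log_nonneg (by linarith)
    linarith
  have key := H.main_ineq Fr col hcol hμ hβ θ0 θ1 θ1 hn1 hPop hV hR hFM hlam0 c1 c2 Bad hBad hcl
  rw [θl, ← ha_def, ← hPdef, hlam] at key
  have hT : (g : ℝ) ≤ Fintype.card T := by exact_mod_cast hT1
  have hg0 : (0 : ℝ) ≤ g := by positivity
  have hT0 : (0 : ℝ) ≤ Fintype.card T := by positivity
  -- the unrooted cuts
  have u1 : (#{t ∈ M.cut | (M.d (M.φ t)).1 ≠ c0} : ℝ) * log n ≤ Fintype.card T * (a / 8) := by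
    have hc : ((⌈8 * log (2 * d) / a⌉₊ + 1 : ℕ) : ℝ) * g * #{t ∈ M.cut | (M.d (M.φ t)).1 ≠ c0} ≤
        Fintype.card T := by exact_mod_cast hcut
    have hl : log (2 * d) ≤ a / 8 * ((⌈8 * log (2 * d) / a⌉₊ + 1 : ℕ) : ℝ) := by
      have := Nat.le_ceil (8 * log (2 * d) / a)
      rw [div_le_iff₀ ha] at this
      push_cast
      nlinarith
    rw [hnr, ← mul_pow, log_pow]
    have h0 : (0 : ℝ) ≤ g * #{t ∈ M.cut | (M.d (M.φ t)).1 ≠ c0} := by positivity
    nlinarith [mul_le_mul_of_nonneg_right hl h0, mul_le_mul_of_nonneg_left hc ha.le]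
  have u2 : log (1 + 1 / (n : ℝ)) ≤ a / 16 := by
    have hn0 : (0 : ℝ) < n := by exact_mod_cast hn1
    have h1 := log_le_sub_one_of_pos (x := 1 + 1 / (n : ℝ)) (by positivity)
    have h2 : 1 / (n : ℝ) ≤ a / 16 := by
      rw [div_le_iff₀ hn0, hnr]
      have : (0 : ℝ) ≤ a / 16 * 2 ^ g := by positivity
      nlinarith
    linarith
  have u3 : 2 * C * log (2 * (((K * g : ℕ) : ℝ) + 1)) + 2 * C * P *
      log (2 * K * Fintype.card S * g + (Fintype.card Cl + 1) * Fintype.card S) +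
      4 * C * P * log (4 * K * g + 4) ≤ a / 16 * g := by
    have e : (2 * (((K * g : ℕ) : ℝ) + 1)) = 2 * K * g + 2 := by push_cast; ring
    rw [e]
    have hC0 : (0 : ℝ) ≤ C := by positivity
    have v1 := mul_le_mul_of_nonneg_left g4 (show (0 : ℝ) ≤ 2 * C by positivity)
    have v2 := mul_le_mul_of_nonneg_left g5 (show (0 : ℝ) ≤ 2 * C * P by positivity)
    have v3 := mul_le_mul_of_nonneg_left g6 (show (0 : ℝ) ≤ 4 * C * P by positivity)
    have v4 : (2 * C + 6 * C * P + 1) * ε = a / 16 := by rw [hε]; field_simp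
    have v5 : 0 ≤ ε * g := by positivity
    rw [← v4]
    nlinarith
  rw [div_mul_eq_mul_div, div_le_iff₀ (by positivity)]
  nlinarith [mul_le_mul_of_nonneg_left u2 hT0, mul_le_mul_of_nonneg_left hT ha.le]

end Crest.Agent.KP
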