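import Crest.Agent.KP.Stmts

/-! # LOC, part 1: the code (sequential sub-probability weights) -/

set_option autoImplicit false
set_option linter.unusedSectionVars false

namespace Crest.Agent.KP.Loc

open Finset

section seq
variable {Y : Type} [Fintype Y] [Inhabited Y]

/-- Extension of a finite sequence by the default value. -/
def ext {k : ℕ} (ξ : Fin k → Y) : ℕ → Y := fun i => if h : i < k then ξ ⟨i, h⟩ else default

theorem seq_sum (step : ℕ → (ℕ → Y) → Y → ℝ) (h0 : ∀ i h y, 0 ≤ step i h y)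
    (hc : ∀ i h h', (∀ l < i, h l = h' l) → step i h = step i h')
    (h1 : ∀ i h, ∑ y, step i h y ≤ 1) (k : ℕ) :
    ∑ ξ : Fin k → Y, ∏ i ∈ range k, step i (ext ξ) (ext ξ i) ≤ 1 := by
  induction k with
  | zero => simp
  | succ k ih =>
    rw [← (Fin.snocEquiv (fun _ : Fin (k + 1) => Y)).sum_comp, Fintype.sum_prod_type_right]
    refine le_trans (Finset.sum_le_sum fun ξ _ => ?_) ih
    have hlt : ∀ (y : Y) (l : ℕ), l < k →
        ext ((Fin.snocEquiv (fun _ : Fin (k + 1) => Y)) (y, ξ)) l = ext ξ l := by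
      intro y l hl
      have h2 : l < k + 1 := by omega
      simp only [ext, h2, hl, dif_pos, Fin.snocEquiv_apply]
      have : (⟨l, h2⟩ : Fin (k + 1)) = Fin.castSucc ⟨l, hl⟩ := rfl
      rw [this, Fin.snoc_castSucc]
    have hk : ∀ y : Y, ext ((Fin.snocEquiv (fun _ : Fin (k + 1) => Y)) (y, ξ)) k = y := by
      intro y
      simp only [ext, Nat.lt_succ_self, dif_pos, Fin.snocEquiv_apply]
      have : (⟨k, Nat.lt_succ_self k⟩ : Fin (k + 1)) = Fin.last k := rfl
      rw [this, Fin.snoc_last]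
    have : ∀ y : Y, ∏ i ∈ range (k + 1),
        step i (ext ((Fin.snocEquiv (fun _ : Fin (k + 1) => Y)) (y, ξ)))
          (ext ((Fin.snocEquiv (fun _ : Fin (k + 1) => Y)) (y, ξ)) i) =
        (∏ i ∈ range k, step i (ext ξ) (ext ξ i)) * step k (ext ξ) y := by
      intro y
      rw [Finset.prod_range_succ, hk, hc k _ (ext ξ) (fun l hl => hlt y l hl)]
      congr 1
      refine Finset.prod_congr rfl fun i hi => ?_
      have hi := Finset.mem_range.1 hi
      rw [hlt y i hi, hc i _ (ext ξ) (fun l hl => hlt y l (by omega))]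
    simp only [this]
    rw [← Finset.mul_sum]
    exact mul_le_of_le_one_right (Finset.prod_nonneg fun i _ => h0 _ _ _) (h1 _ _)

end seq

/-- Coding modes: uniform (`inl none`), free against a partner class, or copying an earlier label. -/
abbrev Mode (Cl : Type) (M : ℕ) : Type := Option Cl ⊕ (Fin M × Bool)

/-- Symbols: regular flag, mode, label, head of the previous edge, tail. -/
abbrev Sym (Cl S V : Type) (M : ℕ) : Type := Bool × Mode Cl M × S × V × V

/-- The mode predicted at a regular step. -/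
def nextOK {Cl : Type} {M : ℕ} : Mode Cl M → Mode Cl M → Prop
  | Sum.inl o, Sum.inl o' => o = o'
  | Sum.inr p, Sum.inr p' =>
      p.2 = p'.2 ∧ (p.2 = true → p'.1.val = p.1.val + 1) ∧ (p.2 = false → p.1.val = p'.1.val + 1)
  | _, _ => False

theorem nextOK_unique {Cl : Type} {M : ℕ} {m m₁ m₂ : Mode Cl M} (h₁ : nextOK m m₁)
    (h₂ : nextOK m m₂) : m₁ = m₂ := by
  rcases m with o | ⟨p, b⟩ <;> rcases m₁ with o₁ | ⟨p₁, b₁⟩ <;> rcases m₂ with o₂ | ⟨p₂, b₂⟩ <;>
    simp only [nextOK] at h₁ h₂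
  · rw [← h₁, ← h₂]
  · obtain ⟨rfl, h₁, h₁'⟩ := h₁
    obtain ⟨rfl, h₂, h₂'⟩ := h₂
    have : p₁ = p₂ := by
      apply Fin.ext
      cases b
      · have := h₁' rfl; have := h₂' rfl; omega
      · have := h₁ rfl; have := h₂ rfl; omega
    rw [this]

variable {S Col Cl V : Type} [Fintype S] [DecidableEq S] [DecidableEq Col] [Fintype Cl]
  [Fintype V] [DecidableEq V] {lb : Lab S} (Fr : Frame S Col Cl lb)

/-- One-class code. -/
noncomputable def nu (μ : ℝ) (c : Cl) (x y : S) : ℝ :=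
  (Fr.F2 c x y / Fr.F1 c x) ^ 2 * Fr.ψ c (lb.op y) / (μ * Fr.ψ c x)

theorem nu_nonneg {μ : ℝ} (hμ : 0 < μ) (c : Cl) (x y : S) : 0 ≤ nu Fr μ c x y := by
  have := Fr.ψ_pos c (lb.op y)
  have := Fr.ψ_pos c x
  unfold nu
  positivity

/-- `μ` is a subcriticality constant for the frame. -/
def Sub (μ : ℝ) : Prop :=
  0 < μ ∧ μ < 1 ∧ ∀ c x,
    ∑ y ∈ univ.erase x, (Fr.F2 c x y / Fr.F1 c x) ^ 2 * Fr.ψ c (lb.op y) ≤ μ * Fr.ψ c x

theorem exists_sub : ∃ μ, Sub Fr μ := by
  have key : ∀ s : Finset (Cl × S), ∃ μ : ℝ, 0 < μ ∧ μ < 1 ∧ ∀ p ∈ s,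
      ∑ y ∈ univ.erase p.2, (Fr.F2 p.1 p.2 y / Fr.F1 p.1 p.2) ^ 2 * Fr.ψ p.1 (lb.op y) ≤
        μ * Fr.ψ p.1 p.2 := by
    classical
    intro s
    induction s using Finset.induction_on with
    | empty => exact ⟨1 / 2, by norm_num, by norm_num, by simp⟩
    | insert p s _ ih =>
      obtain ⟨μ, h0, h1, h⟩ := ih
      have hp := Fr.ψ_pos p.1 p.2
      have hs := Fr.sub p.1 p.2
      set A := ∑ y ∈ univ.erase p.2, (Fr.F2 p.1 p.2 y / Fr.F1 p.1 p.2) ^ 2 * Fr.ψ p.1 (lb.op y)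
      refine ⟨max μ (A / Fr.ψ p.1 p.2), lt_max_of_lt_left h0,
        max_lt h1 ((div_lt_one hp).2 hs), fun q hq => ?_⟩
      rcases Finset.mem_insert.1 hq with rfl | hq
      · calc A = A / Fr.ψ q.1 q.2 * Fr.ψ q.1 q.2 := by field_simp
          _ ≤ _ := mul_le_mul_of_nonneg_right (le_max_right _ _) hp.le
      · exact (h q hq).trans (mul_le_mul_of_nonneg_right (le_max_left _ _) (Fr.ψ_pos _ _).le)
  obtain ⟨μ, h0, h1, h⟩ := key univ
  exact ⟨μ, h0, h1, fun c x => h (c, x) (mem_univ _)⟩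

theorem sum_nu {μ : ℝ} (hμ : Sub Fr μ) (c : Cl) (x : S) :
    ∑ y ∈ univ.erase x, nu Fr μ c x y ≤ 1 := by
  unfold nu
  rw [← Finset.sum_div, div_le_one (mul_pos hμ.1 (Fr.ψ_pos c x))]
  exact hμ.2.2 c x

open Classical in
/-- Weight of the label `y` at a regular step (`x` = label of the dart pointing back). -/
noncomputable def lw (μ : ℝ) {M : ℕ} (c : Cl) (i : ℕ) (lab : ℕ → S) (x : S) : Mode Cl M → S → ℝ
  | Sum.inl none, _ => 1 / Fintype.card S
  | Sum.inl (some τ), y => if y ≠ x then √(nu Fr μ c x y * nu Fr μ τ x y) else 0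
  | Sum.inr p, y =>
      if p.1.val < i ∧ y = cond p.2 (lab p.1.val) (lb.op (lab p.1.val)) then 1 else 0

theorem lw_nonneg (μ : ℝ) {M : ℕ} (c : Cl) (i : ℕ) (lab : ℕ → S) (x : S) (m : Mode Cl M) (y : S) :
    0 ≤ lw Fr μ c i lab x m y := by
  rcases m with (_ | τ) | p <;> simp only [lw]
  · positivity
  · split_ifs <;> positivity
  · split_ifs <;> positivity

theorem sum_lw {μ : ℝ} (hμ : Sub Fr μ) {M : ℕ} (c : Cl) (i : ℕ) (lab : ℕ → S) (x : S)
    (m : Mode Cl M) : ∑ y, lw Fr μ c i lab x m y ≤ 1 := by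
  rcases m with (_ | τ) | p <;> simp only [lw]
  · have : 0 < Fintype.card S := Fintype.card_pos_iff.2 ⟨x⟩
    simp only [sum_const, card_univ, nsmul_eq_mul]
    rw [mul_one_div_cancel (by positivity)]
  · rw [← Finset.sum_filter, Finset.filter_ne']
    have h1 := sum_nu Fr hμ c x
    have h2 := sum_nu Fr hμ τ x
    calc ∑ y ∈ univ.erase x, √(nu Fr μ c x y * nu Fr μ τ x y)
        ≤ ∑ y ∈ univ.erase x, (nu Fr μ c x y + nu Fr μ τ x y) / 2 := by
          refine Finset.sum_le_sum fun y _ => ?_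
          have a0 := nu_nonneg Fr hμ.1 c x y
          have b0 := nu_nonneg Fr hμ.1 τ x y
          rw [Real.sqrt_le_left (by positivity)]
          nlinarith [sq_nonneg (nu Fr μ c x y - nu Fr μ τ x y)]
      _ ≤ 1 := by rw [← Finset.sum_div, Finset.sum_add_distrib]; linarith
  · by_cases hp : p.1.val < i
    · simp [hp]
    · simp [hp]

variable (L : V → Finset S) (col : V → Col)

open Classical in
/-- Weight of the new vertex at a regular step. -/
noncomputable def vw (n : ℕ) (κ : Col) (x y : S) (a : V) : ℝ :=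
  if x ≠ y ∧ col a = κ ∧ x ∈ L a ∧ y ∈ L a then 1 / ((n + 1) * Fr.F2 (Fr.cls κ) x y) else 0

theorem vw_nonneg (n : ℕ) (κ : Col) (x y : S) (a : V) : 0 ≤ vw Fr L col n κ x y a := by
  have := Fr.F2_nonneg (Fr.cls κ) x y
  unfold vw
  split_ifs <;> positivity

theorem sum_vw {n : ℕ} (hP : Pop Fr n L col) (κ : Col) (x y : S) :
    ∑ a, vw Fr L col n κ x y a ≤ 1 := by
  classical
  unfold vw
  by_cases hxy : x = y
  · simp [hxy]
  · have h := hP.up κ x y hxy
    have h2 := Fr.F2_nonneg (Fr.cls κ) x y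
    rw [← Finset.sum_filter]
    simp only [ne_eq, hxy, not_false_eq_true, true_and, sum_const, nsmul_eq_mul]
    rw [mul_one_div]
    refine div_le_one_of_le₀ ?_ (by positivity)
    unfold N2 at h
    convert h

/-- Vertices seen before step `i`. -/
def old {M : ℕ} (c0 : V) (h : ℕ → Sym Cl S V M) : ℕ → Finset V
  | 0 => {c0}
  | i + 1 => insert (h i).2.2.2.2 (insert (h i).2.2.2.1 (old c0 h i))

theorem card_old {M : ℕ} (c0 : V) (h : ℕ → Sym Cl S V M) (i : ℕ) : #(old c0 h i) ≤ 2 * i + 1 := by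
  induction i with
  | zero => simp [old]
  | succ i ih =>
    simp only [old]
    have h1 := Finset.card_insert_le (h i).2.2.2.2 (insert (h i).2.2.2.1 (old c0 h i))
    have h2 := Finset.card_insert_le (h i).2.2.2.1 (old c0 h i)
    omega

theorem old_congr {M : ℕ} (c0 : V) (h h' : ℕ → Sym Cl S V M) (i : ℕ) (hh : ∀ l < i, h l = h' l) :
    old c0 h i = old c0 h' i := by
  induction i with
  | zero => rfl
  | succ i ih =>
    simp only [old]
    rw [hh i (by omega), ih fun l hl => hh l (by omega)]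

/-- Weight of a vertex at an irregular step. -/
noncomputable def sw (i : ℕ) (O : Finset V) (v : V) : ℝ :=
  1 / (2 * Fintype.card V) + if v ∈ O then 1 / (4 * (i : ℝ) + 4) else 0

theorem sw_nonneg (i : ℕ) (O : Finset V) (v : V) : 0 ≤ sw i O v := by
  unfold sw
  split_ifs <;> positivity

theorem sum_sw (i : ℕ) (O : Finset V) (hO : #O ≤ 2 * i + 2) : ∑ v, sw i O v ≤ 1 := by
  unfold sw
  rw [Finset.sum_add_distrib, ← Finset.sum_filter]
  simp only [sum_const, card_univ, nsmul_eq_mul, filter_mem_eq_inter, univ_inter]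
  have h1 : (Fintype.card V : ℝ) * (1 / (2 * Fintype.card V)) ≤ 1 / 2 := by
    rcases Nat.eq_zero_or_pos (Fintype.card V) with h | h
    · simp [h]
    · have : (0 : ℝ) < Fintype.card V := by exact_mod_cast h
      apply le_of_eq; field_simp
  have h2 : (#O : ℝ) * (1 / (4 * i + 4)) ≤ 1 / 2 := by
    have : (#O : ℝ) ≤ 2 * i + 2 := by exact_mod_cast hO
    rw [mul_one_div, div_le_iff₀ (by positivity)]
    linarith
  linarith

open Classical in
/-- Weight of a regular step. -/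
noncomputable def regw (μ : ℝ) (n : ℕ) {M : ℕ} (i : ℕ) (h : ℕ → Sym Cl S V M)
    (y : Mode Cl M × S × V × V) : ℝ :=
  if 1 ≤ i ∧ nextOK (h (i - 1)).2.1 y.1 ∧ y.2.2.1 = y.2.2.2 then
    lw Fr μ (Fr.cls (col (h (i - 1)).2.2.2.2)) i (fun l => (h l).2.2.1)
        (lb.op (h (i - 1)).2.2.1) y.1 y.2.1 *
      vw Fr L col n (Fr.tr (col (h (i - 1)).2.2.2.2) (h (i - 1)).2.2.1)
        (lb.op (h (i - 1)).2.2.1) y.2.1 y.2.2.2
  else 0

/-- Weight of an irregular step. -/
noncomputable def irrw (c0 : V) {M : ℕ} (i : ℕ) (h : ℕ → Sym Cl S V M)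
    (y : Mode Cl M × S × V × V) : ℝ :=
  1 / (Fintype.card (Mode Cl M) * Fintype.card S) *
    (sw i (old c0 h i) y.2.2.1 * sw i (insert y.2.2.1 (old c0 h i)) y.2.2.2)

/-- Weight of a step. -/
noncomputable def step (μ θ : ℝ) (n : ℕ) (c0 : V) {M : ℕ} (i : ℕ) (h : ℕ → Sym Cl S V M)
    (y : Sym Cl S V M) : ℝ :=
  cond y.1 ((1 - θ) * regw Fr L col μ n i h y.2) (θ * irrw c0 i h y.2)

theorem regw_nonneg (μ : ℝ) (n : ℕ) {M : ℕ} (i : ℕ) (h : ℕ → Sym Cl S V M)
    (y : Mode Cl M × S × V × V) : 0 ≤ regw Fr L col μ n i h y := by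
  unfold regw
  split_ifs
  · exact mul_nonneg (lw_nonneg _ _ _ _ _ _ _ _) (vw_nonneg _ _ _ _ _ _ _ _)
  · exact le_rfl

theorem irrw_nonneg (c0 : V) {M : ℕ} (i : ℕ) (h : ℕ → Sym Cl S V M)
    (y : Mode Cl M × S × V × V) : 0 ≤ irrw c0 i h y := by
  unfold irrw
  exact mul_nonneg (by positivity) (mul_nonneg (sw_nonneg _ _ _) (sw_nonneg _ _ _))

theorem step_nonneg (μ : ℝ) {θ : ℝ} (h0 : 0 ≤ θ) (h1 : θ ≤ 1) (n : ℕ) (c0 : V) {M : ℕ} (i : ℕ)
    (h : ℕ → Sym Cl S V M) (y : Sym Cl S V M) : 0 ≤ step Fr L col μ θ n c0 i h y := by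
  unfold step
  rcases y with ⟨_ | _, y⟩
  · exact mul_nonneg h0 (irrw_nonneg _ _ _ _)
  · exact mul_nonneg (by linarith) (regw_nonneg _ _ _ _ _ _ _ _)

theorem lw_congr (μ : ℝ) {M : ℕ} (c : Cl) (i : ℕ) (lab lab' : ℕ → S) (hl : ∀ l < i, lab l = lab' l)
    (x : S) (m : Mode Cl M) (y : S) : lw Fr μ c i lab x m y = lw Fr μ c i lab' x m y := by
  rcases m with (_ | τ) | p <;> simp only [lw]
  by_cases hp : p.1.val < i
  · rw [hl _ hp]
  · simp [hp]

theorem step_congr (μ θ : ℝ) (n : ℕ) (c0 : V) {M : ℕ} (i : ℕ) (h h' : ℕ → Sym Cl S V M)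
    (hh : ∀ l < i, h l = h' l) : step Fr L col μ θ n c0 i h = step Fr L col μ θ n c0 i h' := by
  funext y
  have e1 : irrw c0 i h y.2 = irrw c0 i h' y.2 := by
    unfold irrw
    rw [old_congr c0 h h' i hh]
  have e2 : regw Fr L col μ n i h y.2 = regw Fr L col μ n i h' y.2 := by
    unfold regw
    by_cases hi : 1 ≤ i
    · rw [hh (i - 1) (by omega), lw_congr Fr μ _ i (fun l => (h l).2.2.1) (fun l => (h' l).2.2.1)
        (fun l hl => by rw [hh l hl])]
    · simp [hi]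
  unfold step
  rw [e1, e2]

theorem sum_regw {μ : ℝ} (hμ : Sub Fr μ) {n : ℕ} (hP : Pop Fr n L col) {M : ℕ} (i : ℕ)
    (h : ℕ → Sym Cl S V M) : ∑ y, regw Fr L col μ n i h y ≤ 1 := by
  classical
  rw [Fintype.sum_prod_type]
  have key : ∀ m : Mode Cl M, ∑ y : S × V × V, regw Fr L col μ n i h (m, y) ≤
      if nextOK (h (i - 1)).2.1 m then 1 else 0 := by
    intro m
    split_ifs with hm
    · by_cases hi : 1 ≤ i
      · rw [Fintype.sum_prod_type]
        refine le_trans (Finset.sum_le_sum fun s _ => ?_)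
          (sum_lw Fr hμ (Fr.cls (col (h (i - 1)).2.2.2.2)) i (fun l => (h l).2.2.1)
            (lb.op (h (i - 1)).2.2.1) m)
        rw [Fintype.sum_prod_type_right]
        simp only [regw, hi, hm, true_and, sum_ite_eq', mem_univ, if_true]
        rw [← Finset.mul_sum]
        exact mul_le_of_le_one_right (lw_nonneg _ _ _ _ _ _ _ _) (sum_vw Fr L col hP _ _ _)
      · simp [regw, hi]
    · simp [regw, hm]
  refine le_trans (Finset.sum_le_sum fun m _ => key m) ?_
  rw [← Finset.sum_filter]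
  simp only [sum_const, nsmul_eq_mul, mul_one]
  have : #{m : Mode Cl M | nextOK (h (i - 1)).2.1 m} ≤ 1 :=
    Finset.card_le_one.2 fun a ha b hb =>
      nextOK_unique (Finset.mem_filter.1 ha).2 (Finset.mem_filter.1 hb).2
  exact_mod_cast this

theorem sum_irrw (c0 : V) {M : ℕ} (i : ℕ) (h : ℕ → Sym Cl S V M) :
    ∑ y, irrw c0 i h y ≤ 1 := by
  have key : ∑ y : V × V, sw i (old c0 h i) y.1 * sw i (insert y.1 (old c0 h i)) y.2 ≤ 1 := by
    rw [Fintype.sum_prod_type]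
    have hc := card_old c0 h i
    refine le_trans (Finset.sum_le_sum fun b _ => ?_) (sum_sw i (old c0 h i) (by omega))
    simp only
    rw [← Finset.mul_sum]
    have := Finset.card_insert_le b (old c0 h i)
    exact mul_le_of_le_one_right (sw_nonneg _ _ _) (sum_sw i _ (by omega))
  rw [Fintype.sum_prod_type]
  simp only [Fintype.sum_prod_type (α₁ := S), irrw, ← Finset.mul_sum, sum_const, card_univ,
    nsmul_eq_mul]
  set A := ∑ y : V × V, sw i (old c0 h i) y.1 * sw i (insert y.1 (old c0 h i)) y.2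
  have hA : 0 ≤ A := Finset.sum_nonneg fun y _ => mul_nonneg (sw_nonneg _ _ _) (sw_nonneg _ _ _)
  rcases Nat.eq_zero_or_pos (Fintype.card S) with hS | hS
  · simp [hS]
  have hM : 0 < Fintype.card (Mode Cl M) := Fintype.card_pos
  have hS' : (0 : ℝ) < Fintype.card S := by exact_mod_cast hS
  have hM' : (0 : ℝ) < Fintype.card (Mode Cl M) := by exact_mod_cast hM
  calc _ = A := by field_simp
    _ ≤ 1 := key

theorem sum_step {μ : ℝ} (hμ : Sub Fr μ) {θ : ℝ} (h0 : 0 ≤ θ) (h1 : θ ≤ 1) {n : ℕ}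
    (hP : Pop Fr n L col) (c0 : V) {M : ℕ} (i : ℕ) (h : ℕ → Sym Cl S V M) :
    ∑ y, step Fr L col μ θ n c0 i h y ≤ 1 := by
  rw [Fintype.sum_prod_type, Fintype.sum_bool]
  simp only [step, cond_true, cond_false, ← Finset.mul_sum]
  have a := sum_regw Fr L col hμ hP i h
  have b := sum_irrw c0 i h
  nlinarith

/-- The positive dart, with its head, of the edge from `a` to `b` labelled `s`. -/
def spec (lb : Lab S) (a : V) (s : S) (b : V) : V × S × V :=
  cond (lb.pos s) (a, s, b) (b, lb.op s, a)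

/-- The edges prescribed by a sequence of `k + 1` symbols. -/
def Zs (lb : Lab S) {M : ℕ} (k : ℕ) (h : ℕ → Sym Cl S V M) : Finset (V × S × V) :=
  (range k).image fun i => spec lb (h i).2.2.2.2 (h i).2.2.1 (h (i + 1)).2.2.2.1

/-- The first-moment property of `Γ`. -/
def FM (μ θ : ℝ) (n : ℕ) (c0 : V) (g M : ℕ) (Γ : LGraph lb L) : Prop :=
  ∀ k ≤ M, ∀ h : ℕ → Sym Cl S V M,
    (∀ z ∈ Zs lb k h, lb.pos z.2.1 = true ∧ z.2.1 ∈ L z.1 ∧ Γ.nxt z.1 z.2.1 = z.2.2) →
    (∏ i ∈ range (k + 1), step Fr L col μ θ n c0 i h (h i)) *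
      ∏ z ∈ Zs lb k h, ((N1 L col (col z.1) z.2.1 : ℝ) - (M + 2 * (Fintype.card S + 1) ^ g)) ≤
      2 * (M + 1)

theorem exists_FM (hPr : ProbStmt) [Nonempty S] {μ : ℝ} (hμ : Sub Fr μ) {θ : ℝ} (h0 : 0 ≤ θ)
    (h1 : θ ≤ 1) {n : ℕ} (hP : Pop Fr n L col) (c0 : V) (g M : ℕ)
    (hN : ∀ v s, s ∈ L v → M + 2 * (Fintype.card S + 1) ^ g < N1 L col (col v) s) :
    ∃ Γ : LGraph lb L, (∀ v s, s ∈ L v → col (Γ.nxt v s) = Fr.tr (col v) s) ∧ Γ.Girth g ∧
      FM Fr L col μ θ n c0 g M Γ := by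
  classical
  have : Inhabited (Sym Cl S V M) :=
    ⟨(false, Sum.inl none, Classical.arbitrary S, c0, c0)⟩
  obtain ⟨Γ, hc, hg, hΓ⟩ := hPr S V Col lb L col Fr.tr g M Fr.tr_tr hP.bal hN
    (Σ k : Fin (M + 1), (Fin (k.val + 1) → Sym Cl S V M))
    (fun ξ => ∏ i ∈ range (ξ.1.val + 1), step Fr L col μ θ n c0 i (ext ξ.2) (ext ξ.2 i))
    (fun ξ => Zs lb ξ.1.val (ext ξ.2))
    (fun ξ => Finset.prod_nonneg fun i _ => step_nonneg Fr L col μ h0 h1 n c0 i _ _)
  refine ⟨Γ, hc, hg, fun k hk h hz => ?_⟩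
  have he : ∀ l < k + 1, ext (fun i : Fin (k + 1) => h i) l = h l := by
    intro l hl
    simp [ext, hl]
  have hZ : Zs lb k (ext (fun i : Fin (k + 1) => h i)) = Zs lb k h := by
    unfold Zs
    refine Finset.image_congr fun i hi => ?_
    have hi : i < k := by simpa using hi
    rw [he i (by omega), he (i + 1) (by omega)]
  have := hΓ ⟨⟨k, by omega⟩, fun i => h i⟩
    (by
      simp only [hZ]
      exact (Finset.card_image_le.trans (by simp)).trans hk)
    (by simpa only [hZ] using hz)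
  simp only [hZ] at this
  have hW : ∏ i ∈ range (k + 1), step Fr L col μ θ n c0 i (ext (fun i : Fin (k + 1) => h i))
      (ext (fun i : Fin (k + 1) => h i) i) =
      ∏ i ∈ range (k + 1), step Fr L col μ θ n c0 i h (h i) := by
    refine Finset.prod_congr rfl fun i hi => ?_
    have hi := Finset.mem_range.1 hi
    rw [he i hi, step_congr Fr L col μ θ n c0 i _ h fun l hl => he l (by omega)]
  rw [hW] at this
  refine this.trans (mul_le_mul_of_nonneg_left ?_ (by norm_num))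
  rw [Fintype.sum_sigma]
  refine le_trans (Finset.sum_le_sum (g := fun _ => (1 : ℝ)) fun k _ => ?_) (by simp)
  exact seq_sum (step Fr L col μ θ n c0) (step_nonneg Fr L col μ h0 h1 n c0)
    (step_congr Fr L col μ θ n c0) (sum_step Fr L col hμ h0 h1 hP c0) (k.val + 1)

end Crest.Agent.KP.Loc
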