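import Crest.Agent.KP.Loc1

/-! # LOC, part 2: the inequality for one level -/

set_option autoImplicit false
set_option linter.unusedSectionVars false

namespace Crest.Agent.KP.Loc

open Finset Real

variable {S Col Cl V : Type} [Fintype S] [DecidableEq S] [DecidableEq Col] [Fintype Cl]
  [Fintype V] [DecidableEq V] {lb : Lab S} (Fr : Frame S Col Cl lb)

/-- Symmetric local quantity of a pair of labels. -/
noncomputable def ell (c : Cl) (x y : S) : ℝ :=
  log (Fr.F2 c x y) - log (Fr.F1 c x) / 2 - log (Fr.F1 c y) / 2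

theorem ell_symm (c : Cl) (x y : S) : ell Fr c x y = ell Fr c y x := by
  unfold ell; rw [Fr.F2_symm]; ring

/-- Potential. -/
noncomputable def Phi (c τ : Cl) (s : S) : ℝ :=
  (log (Fr.ψ c s) + log (Fr.ψ τ s) + log (Fr.F1 c s) + log (Fr.F1 τ s)) / 2

theorem log_nu {μ : ℝ} (hμ : 0 < μ) (c : Cl) (x y : S) (h : 0 < Fr.F2 c x y) :
    0 < nu Fr μ c x y ∧ log (nu Fr μ c x y) = 2 * log (Fr.F2 c x y) - 2 * log (Fr.F1 c x) +
      log (Fr.ψ c (lb.op y)) - log μ - log (Fr.ψ c x) := by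
  have h1 := Fr.F1_pos c x
  have h2 := Fr.ψ_pos c (lb.op y)
  have h3 := Fr.ψ_pos c x
  unfold nu
  refine ⟨by positivity, ?_⟩
  rw [log_div (by positivity) (by positivity), log_mul (by positivity) (by positivity),
    log_mul (by positivity) (by positivity), log_pow, log_div (by positivity) (by positivity)]
  push_cast
  ring

theorem log_code {μ : ℝ} (hμ : 0 < μ) (c τ : Cl) (x y : S) (h : 0 < Fr.F2 c x y)
    (h' : 0 < Fr.F2 τ x y) :
    0 < √(nu Fr μ c x y * nu Fr μ τ x y) ∧ log (√(nu Fr μ c x y * nu Fr μ τ x y)) =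
      ell Fr c x y + ell Fr τ x y - log μ + Phi Fr c τ (lb.op y) - Phi Fr c τ x := by
  obtain ⟨a0, a1⟩ := log_nu Fr hμ c x y h
  obtain ⟨b0, b1⟩ := log_nu Fr hμ τ x y h'
  refine ⟨by positivity, ?_⟩
  rw [log_sqrt (by positivity), log_mul a0.ne' b0.ne', a1, b1]
  unfold ell Phi
  rw [Fr.F1_op, Fr.F1_op]
  ring

/-- A common bound for the logarithms of the constants of the frame. -/
def Bd (μ β : ℝ) : Prop :=
  (∀ c s, |log (Fr.F1 c s)| ≤ β) ∧ (∀ c s, |log (Fr.ψ c s)| ≤ β) ∧
    (∀ c x y, |log (Fr.F2 c x y)| ≤ β) ∧ log (Fintype.card S) ≤ β ∧ |log μ| ≤ β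

theorem exists_bd (μ : ℝ) : ∃ β, Bd Fr μ β := by
  obtain ⟨b1, h1⟩ := (Set.finite_range fun p : Cl × S => |log (Fr.F1 p.1 p.2)|).bddAbove
  obtain ⟨b2, h2⟩ := (Set.finite_range fun p : Cl × S => |log (Fr.ψ p.1 p.2)|).bddAbove
  obtain ⟨b3, h3⟩ := (Set.finite_range fun p : Cl × S × S => |log (Fr.F2 p.1 p.2.1 p.2.2)|).bddAbove
  refine ⟨max (max b1 b2) (max b3 (max (log (Fintype.card S)) |log μ|)), fun c s => ?_,
    fun c s => ?_, fun c x y => ?_, by simp, by simp⟩
  · have := h1 ⟨(c, s), rfl⟩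
    simp only [le_max_iff]; tauto
  · have := h2 ⟨(c, s), rfl⟩
    simp only [le_max_iff]; tauto
  · have := h3 ⟨(c, x, y), rfl⟩
    simp only [le_max_iff]; tauto

theorem abs_Phi {μ β : ℝ} (hβ : Bd Fr μ β) (c τ : Cl) (s : S) : |Phi Fr c τ s| ≤ 2 * β := by
  have a := abs_le.1 (hβ.1 c s)
  have b := abs_le.1 (hβ.1 τ s)
  have c' := abs_le.1 (hβ.2.1 c s)
  have d := abs_le.1 (hβ.2.1 τ s)
  unfold Phi
  rw [abs_le]; constructor <;> linarith [a.1, a.2, b.1, b.2, c'.1, c'.2, d.1, d.2]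

theorem abs_ell {μ β : ℝ} (hβ : Bd Fr μ β) (c : Cl) (x y : S) : |ell Fr c x y| ≤ 2 * β := by
  have a := abs_le.1 (hβ.1 c x)
  have b := abs_le.1 (hβ.1 c y)
  have d := abs_le.1 (hβ.2.2.1 c x y)
  unfold ell
  rw [abs_le]; constructor <;> linarith [a.1, a.2, b.1, b.2, d.1, d.2]

/-- Contribution of the label code at a regular step, without the potential terms. -/
noncomputable def stat (μ : ℝ) {M : ℕ} (c : Cl) (x y : S) : Mode Cl M → ℝ
  | Sum.inl none => -log (Fintype.card S)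
  | Sum.inl (some τ) => ell Fr c x y + ell Fr τ x y - log μ
  | Sum.inr _ => 0

/-- The potential of a mode. -/
noncomputable def pot {M : ℕ} (c : Cl) (s : S) : Mode Cl M → ℝ
  | Sum.inl (some τ) => Phi Fr c τ s
  | _ => 0

theorem abs_pot {μ β : ℝ} (hβ : Bd Fr μ β) {M : ℕ} (c : Cl) (s : S) (m : Mode Cl M) :
    |pot Fr c s m| ≤ 2 * β := by
  have : 0 ≤ β := (abs_nonneg _).trans hβ.2.2.2.2
  rcases m with (_ | τ) | p <;> simp only [pot]
  · simpa using this
  · exact abs_Phi Fr hβ _ _ _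
  · simpa using this

theorem log_lw {μ : ℝ} (hμ : 0 < μ) {M : ℕ} (c : Cl) (i : ℕ) (lab : ℕ → S) (x y : S)
    (m' m : Mode Cl M) (hm : nextOK m' m) (hxy : x ≠ y) (hc : 0 < Fr.F2 c x y)
    (h1 : ∀ p, m = Sum.inr p →
      p.1.val < i ∧ y = cond p.2 (lab p.1.val) (lb.op (lab p.1.val)))
    (h2 : ∀ τ, m = Sum.inl (some τ) → 0 < Fr.F2 τ x y) :
    0 < lw Fr μ c i lab x m y ∧ log (lw Fr μ c i lab x m y) =
      stat Fr μ c x y m + pot Fr c (lb.op y) m - pot Fr c x m' := by
  rcases m with (_ | τ) | p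
  · rcases m' with o | p' <;> simp only [nextOK] at hm
    subst hm
    have : 0 < Fintype.card S := Fintype.card_pos_iff.2 ⟨x⟩
    simp only [lw, stat, pot]
    exact ⟨by positivity, by simp⟩
  · rcases m' with o | p' <;> simp only [nextOK] at hm
    subst hm
    simp only [lw, stat, pot, ne_eq, hxy.symm, not_false_eq_true, if_true]
    exact log_code Fr hμ c τ x y hc (h2 τ rfl)
  · rcases m' with o | p' <;> simp only [nextOK] at hm
    have := h1 p rfl
    simp only [lw, stat, pot]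
    rw [if_pos this]
    simp

theorem log_sw {n C0 M i : ℕ} (hn : 1 ≤ n) (hV : Fintype.card V ≤ C0 * n) (hi : i ≤ M)
    (O : Finset V) (v : V) :
    0 < sw i O v ∧ -(((#(insert v O) : ℝ) - #O) * log n) - (log (4 * M + 4) + log (2 * C0)) ≤
      log (sw i O v) := by
  have hV0 : 0 < Fintype.card V := Fintype.card_pos_iff.2 ⟨v⟩
  have hC : 1 ≤ C0 := by
    rcases Nat.eq_zero_or_pos C0 with h | h
    · simp [h] at hV; omega
    · exact h
  have hV1 : (0 : ℝ) < Fintype.card V := by exact_mod_cast hV0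
  have hC1 : (1 : ℝ) ≤ C0 := by exact_mod_cast hC
  have hn1 : (1 : ℝ) ≤ n := by exact_mod_cast hn
  have hi1 : (i : ℝ) ≤ M := by exact_mod_cast hi
  have hV2 : (Fintype.card V : ℝ) ≤ C0 * n := by exact_mod_cast hV
  have l1 : 0 ≤ log (4 * (M : ℝ) + 4) := log_nonneg (by have : (0 : ℝ) ≤ M := by positivity
                                                        linarith)
  have l2 : 0 ≤ log (2 * (C0 : ℝ)) := log_nonneg (by linarith)
  have hpos : 0 < sw i O v := by
    unfold sw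
    split_ifs <;> positivity
  refine ⟨hpos, ?_⟩
  by_cases hv : v ∈ O
  · rw [Finset.insert_eq_of_mem hv]
    have : 1 / (4 * (M : ℝ) + 4) ≤ sw i O v := by
      unfold sw
      rw [if_pos hv]
      have a : 1 / (4 * (M : ℝ) + 4) ≤ 1 / (4 * (i : ℝ) + 4) :=
        one_div_le_one_div_of_le (by positivity) (by linarith)
      have b : 0 ≤ 1 / (2 * (Fintype.card V : ℝ)) := by positivity
      linarith
    have := log_le_log (by positivity) this
    rw [one_div, log_inv] at this
    simp only [sub_self, zero_mul, neg_zero]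
    linarith
  · rw [Finset.card_insert_of_notMem hv]
    have : 1 / (2 * C0 * (n : ℝ)) ≤ sw i O v := by
      unfold sw
      rw [if_neg hv, add_zero]
      exact one_div_le_one_div_of_le (by positivity) (by linarith)
    have := log_le_log (by positivity) this
    rw [one_div, log_inv, log_mul (by positivity) (by positivity)] at this
    push_cast
    linarith

variable (L : V → Finset S) (col : V → Col)

theorem F2_pos {n : ℕ} (hP : Pop Fr n L col) (v : V) (x y : S) (hxy : x ≠ y) (hx : x ∈ L v)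
    (hy : y ∈ L v) : 0 < Fr.F2 (Fr.cls (col v)) x y := by
  have h := hP.up (col v) x y hxy
  have h1 : 1 ≤ N2 L col (col v) x y :=
    Finset.card_pos.2 ⟨v, by simp [hx, hy]⟩
  have h2 : (1 : ℝ) ≤ N2 L col (col v) x y := by exact_mod_cast h1
  by_contra h3
  have h4 : Fr.F2 (Fr.cls (col v)) x y = 0 := le_antisymm (not_lt.1 h3) (Fr.F2_nonneg _ _ _)
  rw [h4, mul_zero] at h
  linarith

/-- The data of one level. -/
structure Level (Γ : LGraph lb L) (c0 : V) (M k : ℕ) (D : ℕ → V × S) (md : ℕ → Mode Cl M)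
    (reg : ℕ → Prop) : Prop where
  le : k ≤ M
  val : ∀ i < k, (D i).2 ∈ L (D i).1
  dist : ∀ i < k, ∀ l < k, i ≠ l → D l ≠ D i ∧ D l ≠ Γ.rev (D i)
  pos : ∀ i, reg i → 1 ≤ i ∧ i < k
  link : ∀ i, reg i → (D i).1 = Γ.hd (D (i - 1)) ∧ D i ≠ Γ.rev (D (i - 1))
  fresh : ∀ i, reg i → (D i).1 ≠ c0 ∧ (∀ l < i, (D l).1 ≠ (D i).1) ∧
    ∀ l, l + 1 < i → Γ.hd (D l) ≠ (D i).1
  next : ∀ i, reg i → nextOK (md (i - 1)) (md i)
  copy : ∀ i, reg i → ∀ p, md i = Sum.inr p →
    p.1.val < i ∧ (D i).2 = cond p.2 (D p.1.val).2 (lb.op (D p.1.val).2)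
  free : ∀ i, reg i → ∀ τ, md i = Sum.inl (some τ) → 0 < Fr.F2 τ (lb.op (D (i - 1)).2) (D i).2

open Classical in
/-- The symbols of a level. -/
noncomputable def syms (Γ : LGraph lb L) (c0 : V) {M : ℕ} (k : ℕ) (D : ℕ → V × S)
    (md : ℕ → Mode Cl M) (reg : ℕ → Prop) (i : ℕ) : Sym Cl S V M :=
  (decide (reg i), md i, (D i).2, if i = 0 then c0 else Γ.hd (D (i - 1)),
    if i < k then (D i).1 else c0)

theorem mem_old (Γ : LGraph lb L) (c0 : V) {M : ℕ} (k : ℕ) (D : ℕ → V × S)
    (md : ℕ → Mode Cl M) (reg : ℕ → Prop) (i : ℕ) (v : V)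
    (hv : v ∈ old c0 (syms L Γ c0 k D md reg) i) :
    v = c0 ∨ (∃ l < i, l < k ∧ v = (D l).1) ∨ ∃ l, l + 1 < i ∧ v = Γ.hd (D l) := by
  induction i with
  | zero => left; simpa [old] using hv
  | succ i ih =>
    simp only [old, syms, mem_insert] at hv
    rcases hv with hv | hv | hv
    · split_ifs at hv with h
      · exact Or.inr (Or.inl ⟨i, by omega, h, hv⟩)
      · exact Or.inl hv
    · split_ifs at hv with h
      · exact Or.inl hv
      · exact Or.inr (Or.inr ⟨i - 1, by omega, hv⟩)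
    · rcases ih hv with h | ⟨l, h1, h2, h3⟩ | ⟨l, h1, h2⟩
      · exact Or.inl h
      · exact Or.inr (Or.inl ⟨l, by omega, h2, h3⟩)
      · exact Or.inr (Or.inr ⟨l, by omega, h2⟩)

/-- The cost of a regular step. -/
noncomputable def gain (μ : ℝ) {M : ℕ} (D : ℕ → V × S) (md : ℕ → Mode Cl M) (i : ℕ) : ℝ :=
  -log (Fr.F2 (Fr.cls (col (D i).1)) (lb.op (D (i - 1)).2) (D i).2) +
    stat Fr μ (Fr.cls (col (D i).1)) (lb.op (D (i - 1)).2) (D i).2 (md i)

/-- The cost of an irregular step. -/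
noncomputable def lam (S Cl : Type) [Fintype S] [Fintype Cl] (θ β : ℝ) (C0 M : ℕ) : ℝ :=
  -log θ + log (Fintype.card (Mode Cl M) * Fintype.card S) +
    2 * (log (4 * M + 4) + log (2 * C0)) + 4 * β

open Classical in
theorem log_step {μ β θ : ℝ} (hμ : Sub Fr μ) (hβ : Bd Fr μ β) (h0 : 0 < θ) (h1 : θ < 1)
    {n C0 : ℕ} (hn : 1 ≤ n) (hP : Pop Fr n L col) (hV : Fintype.card V ≤ C0 * n)
    (Γ : LGraph lb L) (hcol : ∀ v s, s ∈ L v → col (Γ.nxt v s) = Fr.tr (col v) s) (c0 : V)
    {M k : ℕ} {D : ℕ → V × S} {md : ℕ → Mode Cl M} {reg : ℕ → Prop}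
    (H : Level Fr L Γ c0 M k D md reg) (i : ℕ) (hi : i ≤ k) :
    0 < step Fr L col μ θ n c0 i (syms L Γ c0 k D md reg) (syms L Γ c0 k D md reg i) ∧
    -(((#(old c0 (syms L Γ c0 k D md reg) (i + 1)) : ℝ) - #(old c0 (syms L Γ c0 k D md reg) i)) *
        log n) +
      (pot Fr (Fr.cls (col (D i).1)) (lb.op (D i).2) (md i) -
        pot Fr (Fr.cls (col (D (i - 1)).1)) (lb.op (D (i - 1)).2) (md (i - 1))) +
      (if reg i then gain Fr col μ D md i - (-log (1 - θ) + log (1 + 1 / n))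
        else -lam S Cl θ β C0 M) ≤
    log (step Fr L col μ θ n c0 i (syms L Γ c0 k D md reg) (syms L Γ c0 k D md reg i)) := by
  have hn1 : (1 : ℝ) ≤ n := by exact_mod_cast hn
  by_cases hr : reg i
  · obtain ⟨p1, p2⟩ := H.pos i hr
    obtain ⟨l1, l2⟩ := H.link i hr
    obtain ⟨f1, f2, f3⟩ := H.fresh i hr
    have v0 := H.val (i - 1) (by omega)
    have v1 := H.val i p2
    have hc : col (D i).1 = Fr.tr (col (D (i - 1)).1) (D (i - 1)).2 := by
      rw [l1]; exact hcol _ _ v0
    have hcl : Fr.cls (col (D (i - 1)).1) = Fr.cls (col (D i).1) := by rw [hc, Fr.cls_tr]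
    have hx : lb.op (D (i - 1)).2 ∈ L (D i).1 := by rw [l1]; exact Γ.mem _ _ v0
    have hxy : lb.op (D (i - 1)).2 ≠ (D i).2 := by
      intro h
      apply l2
      exact Prod.ext l1 h.symm
    have hF := F2_pos Fr L col hP _ _ _ hxy hx v1
    obtain ⟨w0, w1⟩ := log_lw Fr hμ.1 (Fr.cls (col (D i).1)) i (fun l => (D l).2) _ _ _ _
      (H.next i hr) hxy hF (H.copy i hr) (H.free i hr)
    have hs : step Fr L col μ θ n c0 i (syms L Γ c0 k D md reg) (syms L Γ c0 k D md reg i) =
        (1 - θ) * (lw Fr μ (Fr.cls (col (D i).1)) i (fun l => (D l).2) (lb.op (D (i - 1)).2)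
          (md i) (D i).2 * (1 / ((n + 1) *
            Fr.F2 (Fr.cls (col (D i).1)) (lb.op (D (i - 1)).2) (D i).2))) := by
      have a1 : i - 1 < k := by omega
      have a2 : i ≠ 0 := by omega
      simp only [step, syms, hr, decide_true, cond_true, regw, vw, a1, a2, p1, p2, if_true,
        if_false, H.next i hr, ← l1, ← hc, hcl, hxy, hx, v1, ne_eq,
        not_false_eq_true, and_self]
    have hold : #(old c0 (syms L Γ c0 k D md reg) (i + 1)) =
        #(old c0 (syms L Γ c0 k D md reg) i) + 1 := by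
      have a2 : i ≠ 0 := by omega
      have hnot : (D i).1 ∉ old c0 (syms L Γ c0 k D md reg) i := by
        intro h
        rcases mem_old L Γ c0 k D md reg i _ h with h | ⟨l, h1, -, h3⟩ | ⟨l, h1, h2⟩
        · exact f1 h
        · exact f2 l h1 h3.symm
        · exact f3 l h1 h2.symm
      simp only [old]
      have e1 : (syms L Γ c0 k D md reg i).2.2.2.2 = (D i).1 := by simp [syms, p2]
      have e2 : (syms L Γ c0 k D md reg i).2.2.2.1 = (D i).1 := by simp [syms, a2, l1]
      rw [e1, e2, Finset.insert_eq_of_mem (mem_insert_self _ _), card_insert_of_notMem hnot]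
    have h1' : 0 < 1 - θ := by linarith
    rw [hs, hold, if_pos hr]
    refine ⟨by positivity, ?_⟩
    rw [log_mul h1'.ne' (by positivity), log_mul w0.ne' (by positivity), w1,
      one_div (((n : ℝ) + 1) * _), log_inv, log_mul (by positivity) hF.ne', hcl]
    have e : log ((n : ℝ) + 1) = log n + log (1 + 1 / n) := by
      rw [← log_mul (by positivity) (by positivity)]
      congr 1
      field_simp
    rw [e]
    unfold gain
    push_cast
    linarith
  · have hs : step Fr L col μ θ n c0 i (syms L Γ c0 k D md reg) (syms L Γ c0 k D md reg i) =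
        θ * irrw c0 i (syms L Γ c0 k D md reg) (syms L Γ c0 k D md reg i).2 := by
      simp [step, syms, hr]
    have hiM : i ≤ M := hi.trans H.le
    obtain ⟨a0, a1⟩ := log_sw hn hV hiM (old c0 (syms L Γ c0 k D md reg) i)
      (syms L Γ c0 k D md reg i).2.2.2.1
    obtain ⟨b0, b1⟩ := log_sw hn hV hiM (insert (syms L Γ c0 k D md reg i).2.2.2.1
      (old c0 (syms L Γ c0 k D md reg) i)) (syms L Γ c0 k D md reg i).2.2.2.2
    have hS : 0 < Fintype.card S := Fintype.card_pos_iff.2 ⟨(D 0).2⟩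
    have hM : 0 < Fintype.card (Mode Cl M) := Fintype.card_pos
    have hS' : (0 : ℝ) < Fintype.card S := by exact_mod_cast hS
    have hM' : (0 : ℝ) < Fintype.card (Mode Cl M) := by exact_mod_cast hM
    have q1 := abs_le.1 (abs_pot Fr hβ (Fr.cls (col (D i).1)) (lb.op (D i).2) (md i))
    have q2 := abs_le.1
      (abs_pot Fr hβ (Fr.cls (col (D (i - 1)).1)) (lb.op (D (i - 1)).2) (md (i - 1)))
    rw [hs, if_neg hr]
    unfold irrw
    refine ⟨by positivity, ?_⟩
    rw [log_mul h0.ne' (by positivity), log_mul (by positivity) (by positivity),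
      log_mul a0.ne' b0.ne', one_div, log_inv]
    simp only [old]
    unfold lam
    nlinarith [q1.1, q1.2, q2.1, q2.2]

theorem rev_rev (Γ : LGraph lb L) (d : V × S) (hd : d.2 ∈ L d.1) : Γ.rev (Γ.rev d) = d := by
  unfold LGraph.rev
  simp only [Γ.inv _ _ hd, lb.op_op]

theorem rev_valid (Γ : LGraph lb L) (d : V × S) (hd : d.2 ∈ L d.1) :
    (Γ.rev d).2 ∈ L (Γ.rev d).1 := Γ.mem _ _ hd

theorem hd_rev (Γ : LGraph lb L) (d : V × S) (hd : d.2 ∈ L d.1) : Γ.hd (Γ.rev d) = d.1 :=
  Γ.inv _ _ hd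

theorem op_ne (lb : Lab S) (s : S) : lb.op s ≠ s := by
  intro h
  have := lb.pos_op s
  rw [h] at this
  simp at this

open Classical in
theorem level_ineq {μ β θ η : ℝ} (hμ : Sub Fr μ) (hβ : Bd Fr μ β) (h0 : 0 < θ) (h1 : θ < 1)
    (hη : η < 1) {n C0 g : ℕ} (hn : 1 ≤ n) (hP : Pop Fr n L col) (hV : Fintype.card V ≤ C0 * n)
    (Γ : LGraph lb L) (hcol : ∀ v s, s ∈ L v → col (Γ.nxt v s) = Fr.tr (col v) s) (c0 : V)
    {M k : ℕ} (hR : ∀ c s, ((M : ℝ) + 2 * (Fintype.card S + 1) ^ g) ≤ η * (n * Fr.F1 c s))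
    (hFM : FM Fr L col μ θ n c0 g M Γ) {D : ℕ → V × S} {md : ℕ → Mode Cl M} {reg : ℕ → Prop}
    (H : Level Fr L Γ c0 M k D md reg) :
    ∑ i ∈ range k, log (Fr.F1 (Fr.cls (col (D i).1)) (D i).2) +
      ∑ i ∈ range k with reg i, gain Fr col μ D md i +
      ((k : ℝ) - #((((range k).image fun i => (D i).1) ∪
        (range k).image fun i => Γ.hd (D i)).erase c0)) * log n ≤
    log (2 * (M + 1)) + 4 * β + #{i ∈ range (k + 1) | ¬reg i} * lam S Cl θ β C0 M +
      k * (-log (1 - η) - log (1 - θ) + log (1 + 1 / n)) := by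
  have hn1 : (1 : ℝ) ≤ n := by exact_mod_cast hn
  set h := syms L Γ c0 k D md reg with hh
  have hsp : ∀ i < k, spec lb (h i).2.2.2.2 (h i).2.2.1 (h (i + 1)).2.2.2.1 =
      cond (lb.pos (D i).2) ((D i).1, (D i).2, Γ.hd (D i))
        (Γ.hd (D i), lb.op (D i).2, (D i).1) := by
    intro i hi
    simp [hh, syms, spec, hi]
  have key := hFM k H.le h (by
    intro z hz
    obtain ⟨i, hi, rfl⟩ := Finset.mem_image.1 hz
    have hi := Finset.mem_range.1 hi
    rw [hsp i hi]
    have v := H.val i hi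
    cases hp : lb.pos (D i).2
    · simp only [cond_false, lb.pos_op, hp, Bool.not_false, true_and]
      exact ⟨Γ.mem _ _ v, Γ.inv _ _ v⟩
    · simp only [cond_true, hp, true_and]
      exact ⟨v, rfl⟩)
  have hinj : Set.InjOn (fun i => spec lb (h i).2.2.2.2 (h i).2.2.1 (h (i + 1)).2.2.2.1)
      (range k : Set ℕ) := by
    intro i hi l hl e
    have hi : i < k := by simpa using hi
    have hl : l < k := by simpa using hl
    by_contra hne
    obtain ⟨d1, d2⟩ := H.dist i hi l hl hne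
    obtain ⟨d3, d4⟩ := H.dist l hl i hi (Ne.symm hne)
    simp only [hsp i hi, hsp l hl] at e
    cases hp : lb.pos (D i).2 <;> cases hq : lb.pos (D l).2 <;>
      simp only [hp, hq, cond_true, cond_false, Prod.mk.injEq] at e
    · apply d1
      refine Prod.ext e.2.2.symm ?_
      rw [← lb.op_op (D l).2, ← e.2.1, lb.op_op]
    · exact d2 (Prod.ext e.1.symm e.2.1.symm)
    · exact d4 (Prod.ext e.1 e.2.1)
    · exact d1 (Prod.ext e.1.symm e.2.1.symm)
  unfold Zs at key
  rw [Finset.prod_image hinj] at key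
  have hη' : 0 < 1 - η := by linarith
  have hfac : ∀ i ∈ range k, (1 - η) * (n * Fr.F1 (Fr.cls (col (D i).1)) (D i).2) ≤
      ((N1 L col (col (spec lb (h i).2.2.2.2 (h i).2.2.1 (h (i + 1)).2.2.2.1).1)
        (spec lb (h i).2.2.2.2 (h i).2.2.1 (h (i + 1)).2.2.2.1).2.1 : ℝ) -
        (M + 2 * (Fintype.card S + 1) ^ g)) := by
    intro i hi
    have hi := Finset.mem_range.1 hi
    rw [hsp i hi]
    have v := H.val i hi
    have r := hR (Fr.cls (col (D i).1)) (D i).2
    cases hp : lb.pos (D i).2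
    · simp only [cond_false]
      have := hP.low (col (Γ.hd (D i))) (lb.op (D i).2)
      rw [Fr.F1_op, show col (Γ.hd (D i)) = _ from hcol _ _ v, Fr.cls_tr] at this
      rw [show col (Γ.hd (D i)) = _ from hcol _ _ v]
      linarith
    · simp only [cond_true]
      have := hP.low (col (D i).1) (D i).2
      linarith
  have hpos : ∀ i ∈ range k, 0 < (1 - η) * (n * Fr.F1 (Fr.cls (col (D i).1)) (D i).2) := by
    intro i _
    have := Fr.F1_pos (Fr.cls (col (D i).1)) (D i).2
    positivity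
  have hst := fun i (hi : i ∈ range (k + 1)) => log_step Fr L col hμ hβ h0 h1 hn hP hV Γ hcol c0 H i
    (by have := Finset.mem_range.1 hi; omega)
  have hW : 0 < ∏ i ∈ range (k + 1), step Fr L col μ θ n c0 i h (h i) :=
    Finset.prod_pos fun i hi => (hst i hi).1
  have key2 := (mul_le_mul_of_nonneg_left
    (Finset.prod_le_prod (fun i hi => (hpos i hi).le) hfac) hW.le).trans key
  have key3 := log_le_log (mul_pos hW (Finset.prod_pos hpos)) key2
  rw [log_mul hW.ne' (Finset.prod_pos hpos).ne', log_prod (fun i hi => (hst i hi).1.ne'),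
    log_prod (fun i hi => (hpos i hi).ne')] at key3
  have s1 := Finset.sum_le_sum fun i hi => (hst i hi).2
  rw [Finset.sum_add_distrib, Finset.sum_add_distrib, Finset.sum_neg_distrib, ← Finset.sum_mul,
    Finset.sum_range_sub (fun i => (#(old c0 h i) : ℝ)), Finset.sum_ite] at s1
  have t1 : ∑ i ∈ range (k + 1), (pot Fr (Fr.cls (col (D i).1)) (lb.op (D i).2) (md i) -
      pot Fr (Fr.cls (col (D (i - 1)).1)) (lb.op (D (i - 1)).2) (md (i - 1))) ≥ -(4 * β) := by
    rw [Finset.sum_range_succ']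
    simp only [Nat.add_sub_cancel, Nat.zero_sub, sub_self, add_zero]
    rw [Finset.sum_range_sub (fun i => pot Fr (Fr.cls (col (D i).1)) (lb.op (D i).2) (md i))]
    have q1 := abs_le.1 (abs_pot Fr hβ (Fr.cls (col (D k).1)) (lb.op (D k).2) (md k))
    have q2 := abs_le.1 (abs_pot Fr hβ (Fr.cls (col (D 0).1)) (lb.op (D 0).2) (md 0))
    linarith [q1.1, q2.2]
  have t2 : {i ∈ range (k + 1) | reg i} = {i ∈ range k | reg i} := by
    ext i
    simp only [mem_filter, mem_range]
    exact ⟨fun h => ⟨(H.pos i h.2).2, h.2⟩, fun h => ⟨by omega, h.2⟩⟩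
  have t3 : ∑ i ∈ range k, log ((1 - η) * (n * Fr.F1 (Fr.cls (col (D i).1)) (D i).2)) =
      k * (log (1 - η) + log n) + ∑ i ∈ range k, log (Fr.F1 (Fr.cls (col (D i).1)) (D i).2) := by
    rw [Finset.sum_congr rfl (g := fun i => (log (1 - η) + log n) +
      log (Fr.F1 (Fr.cls (col (D i).1)) (D i).2))]
    · rw [Finset.sum_add_distrib, sum_const, card_range, nsmul_eq_mul]
    · intro i _
      have := Fr.F1_pos (Fr.cls (col (D i).1)) (D i).2
      rw [log_mul hη'.ne' (by positivity), log_mul (by positivity) this.ne']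
      ring
  have t4 : (#(old c0 h (k + 1)) : ℝ) - #(old c0 h 0) ≤
      #((((range k).image fun i => (D i).1) ∪ (range k).image fun i => Γ.hd (D i)).erase c0) := by
    have : #(old c0 h (k + 1)) ≤ #((((range k).image fun i => (D i).1) ∪
        (range k).image fun i => Γ.hd (D i)).erase c0) + 1 := by
      refine le_trans (Finset.card_le_card (t := insert c0 _) fun v hv => ?_)
        (Finset.card_insert_le c0 _)
      by_cases hv0 : v = c0
      · simp [hv0]
      rcases mem_old L Γ c0 k D md reg _ _ hv with h | ⟨l, h1, h2, h3⟩ | ⟨l, h1, h2⟩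
      · exact absurd h hv0
      · simp only [mem_insert, mem_erase, mem_union, mem_image, mem_range]
        exact Or.inr ⟨hv0, Or.inl ⟨l, h2, h3.symm⟩⟩
      · simp only [mem_insert, mem_erase, mem_union, mem_image, mem_range]
        exact Or.inr ⟨hv0, Or.inr ⟨l, by omega, h2.symm⟩⟩
    have e0 : #(old c0 h 0) = 1 := by simp [old]
    rw [e0]
    have : (#(old c0 h (k + 1)) : ℝ) ≤ #((((range k).image fun i => (D i).1) ∪
        (range k).image fun i => Γ.hd (D i)).erase c0) + 1 := by exact_mod_cast this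
    push_cast
    linarith
  have t5 : 0 ≤ log (n : ℝ) := log_nonneg hn1
  have t6 : 0 ≤ -log (1 - θ) + log (1 + 1 / (n : ℝ)) := by
    have a : log (1 - θ) ≤ 0 := log_nonpos (by linarith) (by linarith)
    have b : 0 ≤ log (1 + 1 / (n : ℝ)) := log_nonneg (by
      have : (0 : ℝ) ≤ 1 / n := by positivity
      linarith)
    linarith
  have t7 : (#{i ∈ range k | reg i} : ℝ) ≤ k := by
    exact_mod_cast (Finset.card_filter_le _ _).trans (by simp)
  rw [t2, Finset.sum_sub_distrib (gain Fr col μ D md)] at s1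
  simp only [sum_const, nsmul_eq_mul] at s1
  rw [t3] at key3
  nlinarith [mul_le_mul_of_nonneg_right t4 t5, mul_le_mul_of_nonneg_right t7 t6]

end Crest.Agent.KP.Loc
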