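import Crest.Agent.KP.Loc2

/-! # LOC, part 3: sheets of a small map give levels -/

set_option autoImplicit false
set_option linter.unusedSectionVars false

namespace Crest.Agent.KP.Loc

open Finset Real

variable {S V T : Type} [Fintype S] [DecidableEq S] [Fintype V] [DecidableEq V] [Fintype T]
  [DecidableEq T] {lb : Lab S} {L : V → Finset S}
  {Γ : LGraph lb L}

/-- The data given by `SheetStmt`, together with the standing hypotheses. -/
structure Sheets (M : RMap Γ T) (B : Finset T) (c0 : V) (N : ℕ) where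
  rank : T → ℕ
  ord : T → ℕ
  fw : T → Bool
  E : ℕ → ℕ
  D : ℕ → V × S
  ord_eq : ∀ t t', ord t = ord t' ↔ (M.d t' = M.d t ∨ M.d t' = Γ.rev (M.d t))
  inj : ∀ t t', rank t = rank t' → ord t = ord t' → t = t'
  lt : ∀ t, ord t < E (rank t)
  surj : ∀ j i, i < E j → ∃ t, rank t = j ∧ ord t = i
  rank_lt : ∀ t, rank t < #{t' : T | ord t' = ord t}
  val : ∀ t, (D (ord t)).2 ∈ L (D (ord t)).1
  dart : ∀ t, M.d t = cond (fw t) (D (ord t)) (Γ.rev (D (ord t)))
  cl : ∀ t, Clean M B c0 (Γ.hd (M.d t)) →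
    rank (M.φ t) = rank t ∧ fw (M.φ t) = fw t ∧
      (fw t = true → ord (M.φ t) = ord t + 1) ∧ (fw t = false → ord t = ord (M.φ t) + 1)
  reg : ∀ t, t ∉ B → Reg M.φ M.α M.cut t
  girth : Γ.Girth 3
  card : Fintype.card T ≤ N
  ne : Nonempty T

theorem noloop (hg : Γ.Girth 3) (d : V × S) (hd : d.2 ∈ L d.1) : Γ.hd d ≠ d.1 :=
  hg 1 (fun _ => d) (by omega) (by omega) ⟨fun _ _ => hd, fun i hi => by omega⟩

theorem no2 (hg : Γ.Girth 3) (d e : V × S) (hd : d.2 ∈ L d.1) (he : e.2 ∈ L e.1)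
    (h1 : e.1 = Γ.hd d) (h2 : e ≠ Γ.rev d) : Γ.hd e ≠ d.1 := by
  have := hg 2 (fun i => if i = 0 then d else e) (by omega) (by omega)
    ⟨fun i _ => by by_cases h : i = 0 <;> simp [h, hd, he], fun i hi => by
      obtain rfl : i = 0 := by omega
      simp [h1, h2]⟩
  simpa using this

namespace Sheets

variable {M : RMap Γ T} {B : Finset T} {c0 : V} {N : ℕ} (H : Sheets M B c0 N)

theorem E_le (j : ℕ) : H.E j ≤ N := by
  classical
  choose f hf using H.surj j
  have : Function.Injective fun i : Fin (H.E j) => f i.1 i.2 := by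
    intro a b h
    apply Fin.ext
    have := (hf a.1 a.2).2
    simp only at h
    rw [h, (hf b.1 b.2).2] at this
    exact this.symm
  have := Fintype.card_le_of_injective _ this
  rw [Fintype.card_fin] at this
  exact this.trans H.card

theorem ord_lt (t : T) : H.ord t < N := (H.lt t).trans_le (H.E_le _)

theorem D_eq (t : T) : H.D (H.ord t) = cond (H.fw t) (M.d t) (Γ.rev (M.d t)) := by
  have := H.dart t
  cases h : H.fw t
  · simp only [h, cond_false] at this ⊢
    rw [this, rev_rev L Γ _ (H.val t)]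
  · simp only [h, cond_true] at this ⊢
    exact this.symm

theorem D_fw {t : T} (h : H.fw t = true) : H.D (H.ord t) = M.d t := by rw [H.D_eq, h]; rfl

theorem D_bw {t : T} (h : H.fw t = false) : H.D (H.ord t) = Γ.rev (M.d t) := by
  rw [H.D_eq, h]; rfl

include H in
theorem link_of {t : T} (h : t ∉ B) :
    (M.d (M.φ t)).1 = Γ.hd (M.d t) ∧ M.d (M.φ t) ≠ Γ.rev (M.d t) := M.link t (H.reg t h).1

theorem notB_of_clean {t : T} (h : Clean M B c0 (Γ.hd (M.d t))) : t ∉ B := h.2.1 t rfl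

include H in
/-- A side whose tail is clean is the successor of a link at that vertex. -/
theorem prev_of_clean {t : T} (h : Clean M B c0 (M.d t).1) :
    Γ.hd (M.d (M.φ.symm t)) = (M.d t).1 := by
  have h1 : M.φ.symm t ∉ B := h.2.2.1 _ (by simp)
  have := (H.link_of h1).1
  simpa using this.symm

theorem ord_ne_glue {t : T} (h : M.α t ≠ t) : H.ord (M.α t) ≠ H.ord t := by
  intro e
  obtain ⟨g1, g2⟩ := M.glue t h
  rcases (H.ord_eq t (M.α t)).1 e.symm with h1 | h1
  · rw [h1] at g1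
    exact op_ne lb _ g1.symm
  · exact g2 h1

include H in
theorem glued_of {t : T} (hB : t ∉ B) (h : M.α t ≠ t) :
    M.α (M.φ t) ≠ M.φ t ∧ M.φ (M.α (M.φ t)) = M.α t ∧ M.α (M.φ t) ∉ M.cut := by
  rcases (H.reg t hB).2 with h1 | h1
  · exact absurd h1.1 h
  · exact h1.2

include H in
theorem unglued_of {t : T} (hB : t ∉ B) (h : M.α t = t) : M.α (M.φ t) = M.φ t := by
  rcases (H.reg t hB).2 with h1 | h1
  · exact h1.2
  · exact absurd h h1.1

theorem noflip {t : T} (h1 : Clean M B c0 (Γ.hd (M.d t))) (hg : M.α t ≠ t)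
    (h2 : Clean M B c0 (Γ.hd (M.d (M.α (M.φ t))))) :
    H.ord (M.α t) < H.ord t ↔ H.ord (M.α (M.φ t)) < H.ord (M.φ t) := by
  have hB := notB_of_clean h1
  obtain ⟨g1, g2, g3⟩ := H.glued_of hB hg
  obtain ⟨-, -, a1, a2⟩ := H.cl t h1
  obtain ⟨-, -, b1, b2⟩ := H.cl _ h2
  rw [g2] at b1 b2
  have n1 := H.ord_ne_glue hg
  have n2 := H.ord_ne_glue g1
  have key : ¬(H.ord (M.α t) = H.ord (M.φ t) ∧ H.ord (M.α (M.φ t)) = H.ord t) := by
    rintro ⟨e1, e2⟩
    obtain ⟨l1, l2⟩ := H.link_of hB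
    obtain ⟨m1, -⟩ := M.link _ g3
    rw [g2] at m1
    rcases (H.ord_eq _ _).1 e2.symm with q | q
    · apply l2
      refine Prod.ext l1 ?_
      have := (M.glue _ g1).1
      rw [q] at this
      show _ = lb.op (M.d t).2
      rw [this, lb.op_op]
    · rw [q, hd_rev L Γ _ (M.valid t)] at m1
      rcases (H.ord_eq _ _).1 e1.symm with r | r
      · rw [r, l1] at m1
        exact noloop H.girth _ (M.valid t) m1
      · rw [r] at m1
        exact no2 H.girth _ _ (M.valid t) (M.valid _) l1 l2 m1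
  cases e1 : H.fw t <;> cases e2 : H.fw (M.α (M.φ t)) <;>
    simp only [e1, e2, forall_const, Bool.false_eq_true, IsEmpty.forall_iff,
      Bool.true_eq_false] at a1 a2 b1 b2 <;> omega

/-- Good vertices: clean, with clean partner links. -/
def GoodV (M : RMap Γ T) (B : Finset T) (c0 v : V) : Prop :=
  Clean M B c0 v ∧ ∀ t, Γ.hd (M.d t) = v → M.α t ≠ t → Clean M B c0 (Γ.hd (M.d (M.α (M.φ t))))

variable {Col Cl : Type} [DecidableEq Col] [Fintype Cl]
  (Fr : Frame S Col Cl lb) (col : V → Col)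

/-- The coding mode of a side. -/
def md (t : T) : Mode Cl N :=
  if M.α t = t then Sum.inl none
  else if H.ord (M.α t) < H.ord t then
    Sum.inr (⟨H.ord (M.α t), H.ord_lt _⟩, xor (H.fw t) (H.fw (M.α t)))
  else Sum.inl (some (Fr.cls (col (M.d (M.α t)).1)))

variable (hcol : ∀ v s, s ∈ L v → col (Γ.nxt v s) = Fr.tr (col v) s)

include hcol in
theorem cls_hd (d : V × S) (hd : d.2 ∈ L d.1) : Fr.cls (col (Γ.hd d)) = Fr.cls (col d.1) := by
  rw [show col (Γ.hd d) = _ from hcol _ _ hd, Fr.cls_tr]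

include H hcol in
theorem cls_partner {t : T} (hB : t ∉ B) (hg : M.α t ≠ t) :
    Fr.cls (col (M.d (M.α t)).1) = Fr.cls (col (M.d (M.α (M.φ t))).1) := by
  obtain ⟨-, g2, g3⟩ := H.glued_of hB hg
  obtain ⟨m1, -⟩ := M.link _ g3
  rw [g2] at m1
  rw [m1, cls_hd Fr col hcol _ (M.valid _)]

include hcol in
theorem md_next {t : T} (h : GoodV M B c0 (Γ.hd (M.d t))) :
    (H.fw t = true → nextOK (H.md Fr col t) (H.md Fr col (M.φ t))) ∧
      (H.fw t = false → nextOK (H.md Fr col (M.φ t)) (H.md Fr col t)) := by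
  have hB := notB_of_clean h.1
  by_cases hg : M.α t = t
  · simp [md, hg, H.unglued_of hB hg, nextOK]
  · have h2 := h.2 t rfl hg
    obtain ⟨g1, g2, g3⟩ := H.glued_of hB hg
    have nf := H.noflip h.1 hg h2
    obtain ⟨-, a0, a1, a2⟩ := H.cl t h.1
    obtain ⟨-, b0, b1, b2⟩ := H.cl _ h2
    rw [g2] at b0 b1 b2
    by_cases hl : H.ord (M.α t) < H.ord t
    · have hl' := nf.1 hl
      simp only [md, hg, g1, hl, hl', if_true, if_false, nextOK, a0, b0]
      cases e1 : H.fw t <;> cases e2 : H.fw (M.α (M.φ t)) <;> simp_all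
    · have hl' : ¬H.ord (M.α (M.φ t)) < H.ord (M.φ t) := fun h => hl (nf.2 h)
      simp [md, hg, g1, hl, hl', nextOK, H.cls_partner Fr col hcol hB hg]

theorem md_copy (t : T) (p : Fin N × Bool) (h : H.md Fr col t = Sum.inr p) :
    p.1.val < H.ord t ∧
      (H.D (H.ord t)).2 = cond p.2 (H.D p.1.val).2 (lb.op (H.D p.1.val).2) := by
  unfold md at h
  split_ifs at h with h1 h2
  obtain rfl := Sum.inr.inj h
  refine ⟨h2, ?_⟩
  have g := (M.glue t h1).1
  simp only [H.D_eq]
  cases e1 : H.fw t <;> cases e2 : H.fw (M.α t) <;> simp [LGraph.rev, g, lb.op_op]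

theorem md_free (t : T) (τ : Cl) (h : H.md Fr col t = Sum.inl (some τ)) :
    M.α t ≠ t ∧ τ = Fr.cls (col (M.d (M.α t)).1) := by
  unfold md at h
  split_ifs at h with h1 h2
  · simp at h
  · exact ⟨h1, by simpa using h.symm⟩

/-- The side of rank `j` on the edge number `i`. -/
noncomputable def pos (j i : ℕ) : T :=
  if h : i < H.E j then Classical.choose (H.surj j i h) else Classical.choice H.ne

theorem pos_spec {j i : ℕ} (h : i < H.E j) : H.rank (H.pos j i) = j ∧ H.ord (H.pos j i) = i := by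
  unfold pos
  rw [dif_pos h]
  exact Classical.choose_spec (H.surj j i h)

theorem pos_self (t : T) : H.pos (H.rank t) (H.ord t) = t :=
  H.inj _ _ (H.pos_spec (H.lt t)).1 (H.pos_spec (H.lt t)).2

/-- The link at the tail of the representative dart. -/
def lk (t : T) : T := cond (H.fw t) (M.φ.symm t) t

/-- The step of `t` is regular. -/
def rg (i : ℕ) : Prop := 1 ≤ i ∧ GoodV M B c0 (Γ.hd (H.D (i - 1)))

/-- Structure of a regular step. -/
theorem step_link {t : T} (h : H.rg (H.ord t)) :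
    Γ.hd (M.d (H.lk t)) = Γ.hd (H.D (H.ord t - 1)) ∧
    ((H.fw t = true ∧ H.fw (H.lk t) = true ∧ M.φ (H.lk t) = t ∧
        H.pos (H.rank t) (H.ord t - 1) = H.lk t) ∨
      (H.fw t = false ∧ H.lk t = t ∧ H.fw (M.φ t) = false ∧
        H.pos (H.rank t) (H.ord t - 1) = M.φ t)) := by
  obtain ⟨h1, h2⟩ := h
  have hlt : H.ord t - 1 < H.E (H.rank t) := by have := H.lt t; omega
  obtain ⟨r0, o0⟩ := H.pos_spec hlt
  set t0 := H.pos (H.rank t) (H.ord t - 1)
  cases e : H.fw t0
  · have d0 := H.D_bw e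
    rw [o0] at d0
    rw [d0, hd_rev L Γ _ (M.valid _)] at h2 ⊢
    have p := H.prev_of_clean h2.1
    obtain ⟨a, b, -, c⟩ := H.cl (M.φ.symm t0) (by rw [p]; exact h2.1)
    simp only [Equiv.apply_symm_apply] at a b c
    have ht : M.φ.symm t0 = t := H.inj _ _ (by rw [← a, r0]) (by
      rw [c (by rw [← b, e]), o0]; omega)
    have hf : H.fw t = false := by rw [← ht, ← b, e]
    have hl : H.lk t = t := by simp [lk, hf]
    have hφ : M.φ t = t0 := by rw [← ht]; simp
    rw [hl]
    exact ⟨by rw [← ht, p], Or.inr ⟨hf, rfl, by rw [hφ, e], hφ.symm⟩⟩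
  · have d0 := H.D_fw e
    rw [o0] at d0
    rw [d0] at h2 ⊢
    obtain ⟨a, b, c, -⟩ := H.cl t0 h2.1
    have ht : M.φ t0 = t := H.inj _ _ (by rw [a, r0]) (by rw [c e, o0]; omega)
    have hf : H.fw t = true := by rw [← ht, b, e]
    have hl : H.lk t = t0 := by
      simp only [lk, hf, cond_true]
      rw [← ht, Equiv.symm_apply_apply]
    rw [hl]
    exact ⟨rfl, Or.inl ⟨hf, e, ht, rfl⟩⟩

/-- Both darts of a regular step in terms of the link. -/
theorem step_darts {t : T} (h : H.rg (H.ord t)) :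
    (H.D (H.ord t - 1) = M.d (H.lk t) ∧ H.D (H.ord t) = M.d (M.φ (H.lk t))) ∨
    (H.D (H.ord t - 1) = Γ.rev (M.d (M.φ (H.lk t))) ∧ H.D (H.ord t) = Γ.rev (M.d (H.lk t))) := by
  have hlt : H.ord t - 1 < H.E (H.rank t) := by have := H.lt t; have := h.1; omega
  have o0 := (H.pos_spec hlt).2
  rcases (H.step_link h).2 with ⟨a, b, c, d⟩ | ⟨a, b, c, d⟩
  · left
    rw [d] at o0
    rw [← o0, H.D_fw b, c, H.D_fw a]
    exact ⟨rfl, rfl⟩
  · right
    rw [d] at o0
    rw [← o0, b, H.D_bw c, H.D_bw a]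
    exact ⟨rfl, rfl⟩

theorem good_lk {t : T} (h : H.rg (H.ord t)) : GoodV M B c0 (Γ.hd (M.d (H.lk t))) := by
  rw [(H.step_link h).1]; exact h.2

/-- Only the two edges of a clean link meet its vertex. -/
theorem ord_of_clean {t s : T} (h : Clean M B c0 (Γ.hd (M.d t)))
    (hs : Γ.hd (M.d s) = Γ.hd (M.d t) ∨ (M.d s).1 = Γ.hd (M.d t)) :
    H.ord s = H.ord t ∨ H.ord s = H.ord (M.φ t) := by
  rcases hs with hs | hs
  · rcases h.2.2.2 t s rfl hs with q | q
    · exact Or.inl ((H.ord_eq _ _).2 (Or.inl q.1)).symm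
    · exact Or.inr ((H.ord_eq _ _).2 (Or.inr q.1)).symm
  · have p := H.prev_of_clean (t := s) (by rw [hs]; exact h)
    rcases h.2.2.2 t (M.φ.symm s) rfl (by rw [p, hs]) with q | q
    · right
      have := q.2
      simp only [Equiv.apply_symm_apply] at this
      exact ((H.ord_eq _ _).2 (Or.inl this)).symm
    · left
      have := q.2
      simp only [Equiv.apply_symm_apply] at this
      exact ((H.ord_eq _ _).2 (Or.inr this)).symm

theorem ends_D (s : T) (v : V) (h : (H.D (H.ord s)).1 = v ∨ Γ.hd (H.D (H.ord s)) = v) :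
    Γ.hd (M.d s) = v ∨ (M.d s).1 = v := by
  cases e : H.fw s
  · rw [H.D_bw e, hd_rev L Γ _ (M.valid s)] at h
    exact h
  · rw [H.D_fw e] at h
    exact h.symm

include hcol in
theorem level {n : ℕ} (hP : Pop Fr n L col) (j : ℕ) :
    Level Fr L Γ c0 N (H.E j) H.D (fun i => H.md Fr col (H.pos j i))
      (fun i => i < H.E j ∧ H.rg i) := by
  have hv : ∀ i < H.E j, (H.D i).2 ∈ L (H.D i).1 := fun i hi => by
    have := H.val (H.pos j i)
    rwa [(H.pos_spec hi).2] at this
  have hlink : ∀ i, i < H.E j → H.rg i →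
      (H.D i).1 = Γ.hd (H.D (i - 1)) ∧ H.D i ≠ Γ.rev (H.D (i - 1)) := by
    intro i hi hr
    have o := (H.pos_spec hi).2
    set t := H.pos j i
    rw [← o] at hr ⊢
    obtain ⟨l1, l2⟩ := H.link_of (notB_of_clean (H.good_lk hr).1)
    rcases H.step_darts hr with ⟨a, b⟩ | ⟨a, b⟩
    · rw [a, b]; exact ⟨l1, l2⟩
    · rw [a, b, hd_rev L Γ _ (M.valid _), rev_rev L Γ _ (M.valid _)]
      exact ⟨l1.symm, l2.symm⟩
  refine ⟨H.E_le j, hv, fun i hi l hl hil => ?_, fun i hi => ⟨hi.2.1, hi.1⟩,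
    fun i hi => hlink i hi.1 hi.2, fun i hi => ?_, fun i hi => ?_, fun i hi p hp => ?_,
    fun i hi τ hτ => ?_⟩
  · have o1 := (H.pos_spec hi).2
    have o2 := (H.pos_spec hl).2
    have ne : ¬(M.d (H.pos j l) = M.d (H.pos j i) ∨ M.d (H.pos j l) = Γ.rev (M.d (H.pos j i))) := by
      rw [← H.ord_eq, o1, o2]; exact hil
    have d1 := H.dart (H.pos j i)
    have d2 := H.dart (H.pos j l)
    rw [o1] at d1
    rw [o2] at d2
    rw [d1, d2] at ne
    have r := rev_rev L Γ _ (hv i hi)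
    constructor
    · intro e
      apply ne
      rw [e]
      cases H.fw (H.pos j i) <;> cases H.fw (H.pos j l) <;> simp [r]
    · intro e
      apply ne
      rw [e]
      cases H.fw (H.pos j i) <;> cases H.fw (H.pos j l) <;> simp [r]
  · obtain ⟨hi, hr⟩ := hi
    obtain ⟨l1, -⟩ := hlink i hi hr
    have o := (H.pos_spec hi).2
    set t := H.pos j i
    have hr' : H.rg (H.ord t) := by rw [o]; exact hr
    have hc := (H.good_lk hr').1
    have e1 := (H.step_link hr').1
    rw [o, ← l1] at e1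
    have hlt : H.ord t - 1 < H.E (H.rank t) := by have := H.lt t; have := hr'.1; omega
    have o0 := (H.pos_spec hlt).2
    have two : ∀ l < i, ((H.D l).1 = (H.D i).1 ∨ Γ.hd (H.D l) = (H.D i).1) → l = i - 1 := by
      intro l hl h
      have hl' : l < H.E j := by omega
      have ol := (H.pos_spec hl').2
      have := H.ord_of_clean (s := H.pos j l) hc (by
        rw [e1]; exact H.ends_D _ _ (by rw [ol]; exact h))
      rcases (H.step_link hr').2 with ⟨a, b, c, d⟩ | ⟨a, b, c, d⟩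
      · rw [d] at o0
        rw [c, o0, ol, o] at this
        omega
      · rw [d] at o0
        rw [b, o0, ol, o] at this
        omega
    refine ⟨by rw [← e1]; exact hc.1, fun l hl h => ?_, fun l hl h => ?_⟩
    · have := two l hl (Or.inl h)
      subst this
      rw [l1] at h
      exact noloop H.girth _ (hv _ (by omega)) h.symm
    · have := two l (by omega) (Or.inr h)
      omega
  · obtain ⟨hi, hr⟩ := hi
    obtain ⟨r, o⟩ := H.pos_spec hi
    set t := H.pos j i with ht
    have hr' : H.rg (H.ord t) := by rw [o]; exact hr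
    have nx := H.md_next Fr col hcol (H.good_lk hr')
    rcases (H.step_link hr').2 with ⟨a, b, c, d⟩ | ⟨a, b, c, d⟩
    · rw [r, o] at d
      rw [d]
      have := nx.1 b
      rwa [c] at this
    · rw [r, o] at d
      rw [d]
      rw [b] at nx
      exact nx.2 a
  · have o := (H.pos_spec hi.1).2
    have := H.md_copy Fr col _ p hp
    rwa [o] at this
  · obtain ⟨hi, hr⟩ := hi
    obtain ⟨r, o⟩ := H.pos_spec hi
    set t := H.pos j i with ht
    have hr' : H.rg (H.ord t) := by rw [o]; exact hr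
    obtain ⟨g, rfl⟩ := H.md_free Fr col t τ hτ
    have hB := notB_of_clean (H.good_lk hr').1
    have hg : M.α (H.lk t) ≠ H.lk t := by
      rcases (H.step_link hr').2 with ⟨a, b, c, d⟩ | ⟨a, b, c, d⟩
      · intro e
        have := H.unglued_of hB e
        rw [c] at this
        exact g this
      · rw [b]; exact g
    obtain ⟨g1, g2, g3⟩ := H.glued_of hB hg
    obtain ⟨m1, m2⟩ := M.link _ g3
    rw [g2] at m1 m2
    have k1 := (M.glue _ hg).1
    have k2 := (M.glue _ g1).1
    have hx : lb.op (M.d (H.lk t)).2 ∈ L (M.d (M.α (H.lk t))).1 := by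
      rw [← k1]; exact M.valid _
    have hy : (M.d (M.φ (H.lk t))).2 ∈ L (M.d (M.α (H.lk t))).1 := by
      rw [m1, ← lb.op_op (M.d (M.φ (H.lk t))).2, ← k2]
      exact Γ.mem _ _ (M.valid _)
    obtain ⟨l1, l2⟩ := H.link_of hB
    have hxy : lb.op (M.d (H.lk t)).2 ≠ (M.d (M.φ (H.lk t))).2 := fun e =>
      l2 (Prod.ext l1 e.symm)
    have hF := F2_pos Fr L col hP _ _ _ hxy hx hy
    have hc : Fr.cls (col (M.d (M.α t)).1) = Fr.cls (col (M.d (M.α (H.lk t))).1) := by
      rcases (H.step_link hr').2 with ⟨a, b, c, d⟩ | ⟨a, b, c, d⟩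
      · rw [H.cls_partner Fr col hcol hB hg, c]
      · rw [b]
    rw [hc, ← o]
    rcases H.step_darts hr' with ⟨a, b⟩ | ⟨a, b⟩
    · rw [a, b]; exact hF
    · rw [a, b]
      simp only [LGraph.rev, lb.op_op]
      rw [Fr.F2_symm]; exact hF

end Sheets

end Crest.Agent.KP.Loc
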