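import Crest.Agent.KP.Loc3

/-! # LOC, part 4: summation over the levels -/

set_option autoImplicit false
set_option linter.unusedSectionVars false

namespace Crest.Agent.KP.Loc

open Finset Real

variable {S V T : Type} [Fintype S] [DecidableEq S] [Fintype V] [DecidableEq V] [Fintype T]
  [DecidableEq T] {lb : Lab S} {L : V → Finset S} {Γ : LGraph lb L}

namespace Sheets

variable {M : RMap Γ T} {B : Finset T} {c0 : V} {N : ℕ} (H : Sheets M B c0 N)

theorem ends_of_ord {t s : T} (h : H.ord s = H.ord t) {v : V}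
    (hv : Γ.hd (M.d t) = v ∨ (M.d t).1 = v) : Γ.hd (M.d s) = v ∨ (M.d s).1 = v := by
  rcases (H.ord_eq _ _).1 h.symm with q | q
  · rw [q]; exact hv
  · rw [q, hd_rev L Γ _ (M.valid t)]; exact hv.symm

theorem rank_lt_two {C : ℕ} (h1 : ∀ v, #{t : T | Γ.hd (M.d t) = v} ≤ C)
    (h2 : ∀ v, #{t : T | (M.d t).1 = v} ≤ C) (t : T) : H.rank t < 2 * C := by
  refine (H.rank_lt t).trans_le ?_
  calc _ ≤ #(({s : T | Γ.hd (M.d s) = Γ.hd (M.d t)} : Finset T) ∪
        ({s : T | (M.d s).1 = Γ.hd (M.d t)} : Finset T)) := by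
        refine Finset.card_le_card fun s hs => ?_
        have := H.ends_of_ord (Finset.mem_filter.1 hs).2 (Or.inl rfl)
        simpa using this
    _ ≤ _ := Finset.card_union_le _ _
    _ ≤ _ := by have := h1 (Γ.hd (M.d t)); have := h2 (Γ.hd (M.d t)); omega

theorem sum_levels {m : ℕ} (hm : ∀ t, H.rank t < m) (f : T → ℝ) :
    ∑ j ∈ range m, ∑ i ∈ range (H.E j), f (H.pos j i) = ∑ t, f t := by
  rw [Finset.sum_sigma']
  refine Finset.sum_nbij' (fun p => H.pos p.1 p.2) (fun t => ⟨H.rank t, H.ord t⟩)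
    (fun _ _ => mem_univ _) (fun t _ => ?_) (fun p hp => ?_) (fun t _ => H.pos_self t)
    (fun _ _ => rfl)
  · simp [hm t, H.lt t]
  · have hp : p.2 < H.E p.1 := by simpa using (Finset.mem_sigma.1 hp).2
    obtain ⟨a, b⟩ := H.pos_spec hp
    rcases p with ⟨j, i⟩
    simp only at a b ⊢
    rw [a, b]

open Classical in
theorem card_bad {C : ℕ} (h1 : ∀ v, #{t : T | Γ.hd (M.d t) = v} ≤ C) (Bad : Finset T)
    (hB : #Bad ≤ C) (hc : ∀ t, t ∉ Bad → Clean M B c0 (Γ.hd (M.d t))) :
    #{t : T | ¬GoodV M B c0 (Γ.hd (M.d t))} ≤ C + C * C := by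
  calc _ ≤ #(Bad ∪ Bad.biUnion fun s =>
        ({t : T | Γ.hd (M.d t) = Γ.hd (M.d (M.φ.symm (M.α s)))} : Finset T)) := by
        refine Finset.card_le_card fun t ht => ?_
        have ht := (Finset.mem_filter.1 ht).2
        by_cases hb : t ∈ Bad
        · exact Finset.mem_union_left _ hb
        · refine Finset.mem_union_right _ ?_
          simp only [GoodV, hc t hb, true_and, not_forall] at ht
          obtain ⟨s, e, -, h⟩ := ht
          refine Finset.mem_biUnion.2 ⟨M.α (M.φ s), by_contra fun h' => h (hc _ h'), ?_⟩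
          simp [M.αα, e]
    _ ≤ #Bad + _ := Finset.card_union_le _ _
    _ ≤ C + C * C := by
        refine Nat.add_le_add hB (Finset.card_biUnion_le.trans ?_)
        exact (Finset.sum_le_card_nsmul _ _ C fun s _ => h1 _).trans
          (by simpa using Nat.mul_le_mul_right C hB)

open Classical in
theorem card_irr (j : ℕ) : #{i ∈ range (H.E j + 1) | ¬(i < H.E j ∧ H.rg i)} ≤
    2 + 2 * #{t : T | ¬GoodV M B c0 (Γ.hd (M.d t))} := by
  set Bd : Finset T := {t : T | ¬GoodV M B c0 (Γ.hd (M.d t))} with hBd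
  calc _ ≤ #({0, H.E j} ∪ (Bd ∪ Bd.image M.φ).image fun t => H.ord t + 1) := by
        refine Finset.card_le_card fun i hi => ?_
        obtain ⟨hi, hr⟩ := Finset.mem_filter.1 hi
        have hi := Finset.mem_range.1 hi
        by_cases h0 : i = 0
        · simp [h0]
        by_cases h1 : i = H.E j
        · simp [h1]
        refine Finset.mem_union_right _ ?_
        have hlt : i - 1 < H.E j := by omega
        have o := (H.pos_spec hlt).2
        have hg : ¬GoodV M B c0 (Γ.hd (H.D (i - 1))) := fun h => hr ⟨by omega, by omega, h⟩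
        set t := H.pos j (i - 1)
        refine Finset.mem_image.2 ⟨t, ?_, by omega⟩
        rw [← o] at hg
        cases e : H.fw t
        · rw [H.D_bw e, hd_rev L Γ _ (M.valid _)] at hg
          refine Finset.mem_union_right _ (Finset.mem_image.2 ⟨M.φ.symm t, ?_, by simp⟩)
          simp only [hBd, mem_filter, mem_univ, true_and]
          intro h
          have := (H.link_of (notB_of_clean h.1)).1
          simp only [Equiv.apply_symm_apply] at this
          exact hg (this ▸ h)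
        · rw [H.D_fw e] at hg
          exact Finset.mem_union_left _ (by simpa [hBd] using hg)
    _ ≤ _ := by
        refine (Finset.card_union_le _ _).trans (Nat.add_le_add Finset.card_le_two ?_)
        refine Finset.card_image_le.trans ((Finset.card_union_le _ _).trans ?_)
        have : #(Bd.image M.φ) ≤ #Bd := Finset.card_image_le
        omega

theorem class_le (t : T) {v : V} (hv : Γ.hd (M.d t) = v ∨ (M.d t).1 = v) :
    #{s : T | H.ord s = H.ord t} ≤
      #{s : T | (M.d s).1 = v} + #{s ∈ M.cut | Γ.hd (M.d s) = v} := by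
  set A : Finset T := {s : T | H.ord s = H.ord t ∧ (M.d s).1 = v}
  set A' : Finset T := {s : T | H.ord s = H.ord t ∧ (M.d s).1 ≠ v ∧ s ∉ M.cut}
  have h1 : #{s : T | H.ord s = H.ord t} ≤ #(A ∪ A' ∪ {s ∈ M.cut | Γ.hd (M.d s) = v}) := by
    refine Finset.card_le_card fun s hs => ?_
    have hs := (Finset.mem_filter.1 hs).2
    have := H.ends_of_ord hs hv
    simp only [A, A', mem_union, mem_filter, mem_univ, true_and]
    by_cases h2 : (M.d s).1 = v <;> by_cases h3 : s ∈ M.cut <;> simp_all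
  have h2 : #(A ∪ A'.image M.φ) ≤ #{s : T | (M.d s).1 = v} := by
    refine Finset.card_le_card fun s hs => ?_
    simp only [A, A', mem_union, mem_filter, mem_univ, true_and, mem_image] at hs ⊢
    rcases hs with hs | ⟨r, ⟨r1, r2, r3⟩, rfl⟩
    · exact hs.2
    · rw [(M.link r r3).1]
      exact (H.ends_of_ord r1 hv).resolve_right r2
  have h3 : Disjoint A (A'.image M.φ) := by
    rw [Finset.disjoint_left]
    intro s hs hs'
    simp only [A, A', mem_filter, mem_univ, true_and, mem_image] at hs hs'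
    obtain ⟨r, ⟨r1, r2, r3⟩, rfl⟩ := hs'
    obtain ⟨l1, l2⟩ := M.link r r3
    rcases (H.ord_eq r (M.φ r)).1 (by rw [r1, hs.1]) with q | q
    · rw [q] at hs
      exact r2 hs.2
    · exact l2 q
  rw [Finset.card_union_of_disjoint h3, Finset.card_image_of_injective _ M.φ.injective] at h2
  have h4 := Finset.card_union_le (A ∪ A') {s ∈ M.cut | Γ.hd (M.d s) = v}
  have h5 := Finset.card_union_le A A'
  omega

theorem sum_verts (m : ℕ) :
    ∑ j ∈ range m, #((((range (H.E j)).image fun i => (H.D i).1) ∪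
        (range (H.E j)).image fun i => Γ.hd (H.D i)).erase c0) ≤
      Fintype.card T + #{t ∈ M.cut | (M.d (M.φ t)).1 ≠ c0} := by
  set W : ℕ → Finset V := fun j => ((range (H.E j)).image fun i => (H.D i).1) ∪
        (range (H.E j)).image fun i => Γ.hd (H.D i) with hW
  have e1 : ∀ j, #((W j).erase c0) = ∑ v ∈ univ.erase c0, if v ∈ W j then 1 else 0 := by
    intro j
    rw [← Finset.card_filter]
    congr 1
    ext v
    simp
  have e2 : ∀ v, ∑ j ∈ range m, (if v ∈ W j then 1 else 0) ≤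
      #{s : T | (M.d s).1 = v} + #{s ∈ M.cut | Γ.hd (M.d s) = v} := by
    intro v
    rw [← Finset.card_filter, ← Finset.card_range (_ + _)]
    refine Finset.card_le_card fun j hj => ?_
    have hj := (Finset.mem_filter.1 hj).2
    have : ∃ i < H.E j, (H.D i).1 = v ∨ Γ.hd (H.D i) = v := by
      simp only [hW, mem_union, mem_image, mem_range] at hj
      rcases hj with ⟨i, a, b⟩ | ⟨i, a, b⟩
      · exact ⟨i, a, Or.inl b⟩
      · exact ⟨i, a, Or.inr b⟩
    obtain ⟨i, hi, h⟩ := this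
    obtain ⟨r, o⟩ := H.pos_spec hi
    have h1 := H.class_le _ (H.ends_D (H.pos j i) v (by rw [o]; exact h))
    have h2 := H.rank_lt (H.pos j i)
    rw [Finset.mem_range]
    omega
  have e3 : ∑ v ∈ univ.erase c0, #{s : T | (M.d s).1 = v} = #{s : T | (M.d s).1 ≠ c0} := by
    rw [Finset.card_eq_sum_card_fiberwise (f := fun s => (M.d s).1) (t := univ.erase c0)
      (s := {s : T | (M.d s).1 ≠ c0}) (fun s hs => by simpa using hs)]
    refine Finset.sum_congr rfl fun v hv => ?_
    congr 1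
    ext s
    simp only [mem_filter, mem_univ, true_and]
    exact ⟨fun h => ⟨by rw [h]; exact (Finset.mem_erase.1 hv).1, h⟩, fun h => h.2⟩
  have e4 : ∑ v ∈ univ.erase c0, #{s ∈ M.cut | Γ.hd (M.d s) = v} ≤ #M.cut := by
    rw [Finset.card_eq_sum_card_fiberwise (f := fun s => Γ.hd (M.d s)) (t := univ)
      (s := M.cut) (fun s _ => by simp)]
    exact Finset.sum_le_sum_of_subset (Finset.erase_subset _ _)
  have e5 : #{t ∈ M.cut | (M.d (M.φ t)).1 = c0} ≤ #{s : T | (M.d s).1 = c0} := by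
    refine Finset.card_le_card_of_injOn M.φ (fun t ht => ?_) M.φ.injective.injOn
    simpa using (Finset.mem_filter.1 (Finset.mem_coe.1 ht)).2
  have e6 := Finset.card_filter_add_card_filter_not (s := M.cut)
    (fun t => (M.d (M.φ t)).1 = c0)
  have e7 := Finset.card_filter_add_card_filter_not (s := (univ : Finset T))
    (fun t => (M.d t).1 = c0)
  rw [Finset.card_univ] at e7
  calc _ = ∑ j ∈ range m, ∑ v ∈ univ.erase c0, if v ∈ W j then 1 else 0 :=
        Finset.sum_congr rfl fun j _ => e1 j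
    _ = ∑ v ∈ univ.erase c0, ∑ j ∈ range m, if v ∈ W j then 1 else 0 := Finset.sum_comm
    _ ≤ ∑ v ∈ univ.erase c0, (#{s : T | (M.d s).1 = v} + #{s ∈ M.cut | Γ.hd (M.d s) = v}) :=
        Finset.sum_le_sum fun v _ => e2 v
    _ ≤ _ := by
        rw [Finset.sum_add_distrib, e3]
        simp only [ne_eq]
        omega

variable {Col Cl : Type} [DecidableEq Col] [Fintype Cl] (Fr : Frame S Col Cl lb) (col : V → Col)
  (hcol : ∀ v s, s ∈ L v → col (Γ.nxt v s) = Fr.tr (col v) s)

/-- The label-code term of a link. -/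
noncomputable def statL (μ : ℝ) (t : T) : ℝ :=
  stat Fr μ (Fr.cls (col (M.d t).1)) (lb.op (M.d t).2) (M.d (M.φ t)).2 (H.md Fr col t)

/-- The cost of a link. -/
noncomputable def Gl (μ : ℝ) (t : T) : ℝ :=
  -log (Fr.F2 (Fr.cls (col (M.d t).1)) (lb.op (M.d t).2) (M.d (M.φ t)).2) + H.statL Fr col μ t

theorem stat_next (μ : ℝ) (c : Cl) (x y : S) {m m' : Mode Cl N} (h : nextOK m m') :
    stat Fr μ c x y m' = stat Fr μ c x y m := by
  rcases m with o | p <;> rcases m' with o' | p' <;> simp only [nextOK] at h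
  · rw [h]
  · rfl

theorem stat_symm (μ : ℝ) (c : Cl) (x y : S) (m : Mode Cl N) :
    stat Fr μ c x y m = stat Fr μ c y x m := by
  rcases m with (_ | τ) | p <;> simp only [stat]
  rw [ell_symm Fr c, ell_symm Fr τ]

include hcol in
theorem gain_eq (μ : ℝ) {t : T} (h : H.rg (H.ord t)) :
    gain Fr col μ H.D (fun i => H.md Fr col (H.pos (H.rank t) i)) (H.ord t) =
      H.Gl Fr col μ (H.lk t) := by
  have hg := H.good_lk h
  obtain ⟨l1, -⟩ := H.link_of (notB_of_clean hg.1)
  have nx := H.md_next Fr col hcol hg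
  have c1 := cls_hd Fr col hcol _ (M.valid (H.lk t))
  unfold gain Gl statL
  simp only [H.pos_self]
  have hlt : H.ord t - 1 < H.E (H.rank t) := by have := H.lt t; have := h.1; omega
  have o0 := (H.pos_spec hlt).2
  rcases (H.step_link h).2 with ⟨a, b, c, d⟩ | ⟨a, b, c, d⟩
  · rw [d] at o0
    rw [← o0, H.D_fw b, H.D_fw a]
    rw [c] at l1 nx ⊢
    rw [l1, c1, stat_next Fr μ _ _ _ (nx.1 b)]
  · rw [d] at o0
    rw [← o0, H.D_bw c, H.D_bw a, b]
    rw [b] at c1
    simp only [LGraph.rev, lb.op_op]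
    rw [show Fr.cls (col (Γ.nxt (M.d t).1 (M.d t).2)) = _ from c1, Fr.F2_symm, stat_symm]

open Classical in
theorem sum_links (f : T → ℝ) :
    ∑ t, (if H.rg (H.ord t) then f (H.lk t) else 0) =
      ∑ t, if GoodV M B c0 (Γ.hd (M.d t)) then f t else 0 := by
  rw [← Finset.sum_filter, ← Finset.sum_filter]
  refine Finset.sum_nbij' H.lk (fun t => cond (H.fw t) (M.φ t) t) (fun t ht => ?_)
    (fun t ht => ?_) (fun t ht => ?_) (fun t ht => ?_) (fun _ _ => rfl)
  · simpa using H.good_lk (Finset.mem_filter.1 ht).2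
  · have hg := (Finset.mem_filter.1 ht).2
    obtain ⟨a, b, c, d⟩ := H.cl t hg.1
    refine Finset.mem_filter.2 ⟨mem_univ _, ?_⟩
    unfold rg
    cases e : H.fw t
    · simp only [cond_false]
      rw [d e, Nat.add_sub_cancel, H.D_bw (by rw [b, e]), hd_rev L Γ _ (M.valid _),
        (H.link_of (notB_of_clean hg.1)).1]
      exact ⟨by omega, hg⟩
    · simp only [cond_true]
      rw [c e, Nat.add_sub_cancel, H.D_fw e]
      exact ⟨by omega, hg⟩
  · rcases (H.step_link (Finset.mem_filter.1 ht).2).2 with ⟨a, b, c, d⟩ | ⟨a, b, c, d⟩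
    · simp [b, c]
    · simp [a, b]
  · have hg := (Finset.mem_filter.1 ht).2
    obtain ⟨a, b, c, d⟩ := H.cl t hg.1
    cases e : H.fw t
    · simp [lk, e]
    · simp [lk, e, b]

theorem abs_stat {μ β : ℝ} (hβ : Bd Fr μ β) (c : Cl) (x y : S) (m : Mode Cl N) :
    |stat Fr μ c x y m| ≤ 5 * β := by
  have h0 : 0 ≤ β := (abs_nonneg _).trans hβ.2.2.2.2
  rcases m with (_ | τ) | p <;> simp only [stat]
  · have h1 : (1 : ℝ) ≤ Fintype.card S := by
      exact_mod_cast Fintype.card_pos_iff.2 ⟨x⟩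
    have := log_nonneg h1
    have := hβ.2.2.2.1
    rw [abs_le]; constructor <;> linarith
  · have a := abs_le.1 (abs_ell Fr hβ c x y)
    have b := abs_le.1 (abs_ell Fr hβ τ x y)
    have d := abs_le.1 hβ.2.2.2.2
    rw [abs_le]; constructor <;> linarith [a.1, a.2, b.1, b.2, d.1, d.2]
  · simpa using h0

/-- The link quantity after distributing the edge terms. -/
noncomputable def gl (μ : ℝ) (t : T) : ℝ :=
  -ell Fr (Fr.cls (col (M.d t).1)) (lb.op (M.d t).2) (M.d (M.φ t)).2 + H.statL Fr col μ t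

include hcol in
theorem gl_pair (μ : ℝ) {t : T} (h1 : GoodV M B c0 (Γ.hd (M.d t))) (hg : M.α t ≠ t) :
    H.gl Fr col μ t + H.gl Fr col μ (M.α (M.φ t)) = -log μ := by
  have hB := notB_of_clean h1.1
  have h2 := h1.2 t rfl hg
  obtain ⟨g1, g2, g3⟩ := H.glued_of hB hg
  have nf := H.noflip h1.1 hg h2
  have n2 := H.ord_ne_glue g1
  have k1 := (M.glue _ hg).1
  have k2 := (M.glue _ g1).1
  have c1 := H.cls_partner Fr col hcol hB hg
  have c2 : Fr.cls (col (M.d (M.φ t)).1) = Fr.cls (col (M.d t).1) := by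
    rw [(H.link_of hB).1, cls_hd Fr col hcol _ (M.valid _)]
  have g1' : M.φ t ≠ M.α (M.φ t) := g1.symm
  unfold gl statL md
  simp only [g2, M.αα, k1, k2, lb.op_op, hg, g1', if_false]
  by_cases hl : H.ord (M.α t) < H.ord t
  · have hl' : ¬H.ord (M.φ t) < H.ord (M.α (M.φ t)) := by have := nf.1 hl; omega
    simp only [hl, hl', if_true, if_false, stat, c2]
    rw [ell_symm Fr (Fr.cls (col (M.d t).1))]
    ring
  · have hl' : H.ord (M.φ t) < H.ord (M.α (M.φ t)) := by
      have : ¬H.ord (M.α (M.φ t)) < H.ord (M.φ t) := fun h => hl (nf.2 h)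
      omega
    simp only [hl, hl', if_true, if_false, stat, c1]
    rw [ell_symm Fr (Fr.cls (col (M.d (M.α (M.φ t))).1))]
    ring

open Classical in
include hcol in
theorem sum_lower {μ β : ℝ} (hμ : Sub Fr μ) (hβ : Bd Fr μ β) :
    ((Fintype.card T : ℝ) - #{t : T | M.α t = t} - 2 * #{t : T | ¬GoodV M B c0 (Γ.hd (M.d t))}) *
        (-log μ / 2) -
      7 * β * (#{t : T | M.α t = t} + 2 * #{t : T | ¬GoodV M B c0 (Γ.hd (M.d t))}) ≤
    ∑ t, log (Fr.F1 (Fr.cls (col (M.d t).1)) (M.d t).2) +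
      ∑ t, if GoodV M B c0 (Γ.hd (M.d t)) then H.Gl Fr col μ t else 0 := by
  have h0 : 0 ≤ β := (abs_nonneg _).trans hβ.2.2.2.2
  have ha : 0 ≤ -log μ := by have := log_nonpos hμ.1.le hμ.2.1.le; linarith
  set f : T → ℝ := fun t => log (Fr.F1 (Fr.cls (col (M.d t).1)) (M.d t).2) with hf
  set g : T → ℝ := fun t => (f t + f (M.φ t)) / 2 +
    if GoodV M B c0 (Γ.hd (M.d t)) then H.Gl Fr col μ t else 0 with hg
  have e1 : ∑ t, f t + (∑ t, if GoodV M B c0 (Γ.hd (M.d t)) then H.Gl Fr col μ t else 0) =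
      ∑ t, g t := by
    simp only [hg]
    rw [Finset.sum_add_distrib, ← Finset.sum_div, Finset.sum_add_distrib, Equiv.sum_comp M.φ f]
    ring
  have e2 : ∀ t, GoodV M B c0 (Γ.hd (M.d t)) → g t = H.gl Fr col μ t := by
    intro t ht
    have c2 : Fr.cls (col (M.d (M.φ t)).1) = Fr.cls (col (M.d t).1) := by
      rw [(H.link_of (notB_of_clean ht.1)).1, cls_hd Fr col hcol _ (M.valid _)]
    simp only [hg, hf, ht, if_true, Gl, gl, ell, c2, Fr.F1_op]
    ring
  have e3 : ∀ t, -(7 * β) ≤ g t := by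
    intro t
    by_cases ht : GoodV M B c0 (Γ.hd (M.d t))
    · rw [e2 t ht]
      have a := abs_le.1 (abs_ell Fr hβ (Fr.cls (col (M.d t).1)) (lb.op (M.d t).2)
        (M.d (M.φ t)).2)
      have b := abs_le.1 (abs_stat Fr hβ (Fr.cls (col (M.d t).1)) (lb.op (M.d t).2)
        (M.d (M.φ t)).2 (H.md Fr col t))
      unfold gl statL
      linarith [a.2, b.1]
    · have a := abs_le.1 (hβ.1 (Fr.cls (col (M.d t).1)) (M.d t).2)
      have b := abs_le.1 (hβ.1 (Fr.cls (col (M.d (M.φ t)).1)) (M.d (M.φ t)).2)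
      simp only [hg, hf, ht, if_false]
      linarith [a.1, b.1]
  set GG : Finset T := {t : T | GoodV M B c0 (Γ.hd (M.d t)) ∧ M.α t ≠ t ∧
    GoodV M B c0 (Γ.hd (M.d (M.α (M.φ t))))} with hGG
  have inv : ∀ t ∈ GG, M.α (M.φ t) ∈ GG ∧ M.α (M.φ (M.α (M.φ t))) = t := by
    intro t ht
    obtain ⟨a, b, c⟩ := (Finset.mem_filter.1 ht).2
    obtain ⟨g1, g2, g3⟩ := H.glued_of (notB_of_clean a.1) b
    simp only [hGG, mem_filter, mem_univ, true_and, g2, M.αα]
    exact ⟨⟨c, g1.symm, a⟩, trivial⟩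
  have e4 : ∑ t ∈ GG, g t = ∑ t ∈ GG, g (M.α (M.φ t)) :=
    Finset.sum_nbij' (fun t => M.α (M.φ t)) (fun t => M.α (M.φ t)) (fun t ht => (inv t ht).1)
      (fun t ht => (inv t ht).1) (fun t ht => (inv t ht).2) (fun t ht => (inv t ht).2)
      (fun t ht => by rw [(inv t ht).2])
  have e5 : ∑ t ∈ GG, g t = #GG * (-log μ / 2) := by
    have : ∑ t ∈ GG, g t + ∑ t ∈ GG, g (M.α (M.φ t)) = #GG * (-log μ) := by
      rw [← Finset.sum_add_distrib, Finset.sum_congr rfl (g := fun _ => -log μ)]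
      · simp
      · intro t ht
        obtain ⟨a, b, c⟩ := (Finset.mem_filter.1 ht).2
        rw [e2 t a, e2 _ c, H.gl_pair Fr col hcol μ a b]
    linarith
  have e6 : #(GGᶜ) ≤ #{t : T | M.α t = t} + 2 * #{t : T | ¬GoodV M B c0 (Γ.hd (M.d t))} := by
    set Bd : Finset T := {t : T | ¬GoodV M B c0 (Γ.hd (M.d t))} with hBd
    calc _ ≤ #(({t : T | M.α t = t} : Finset T) ∪ Bd ∪ Bd.image fun s => M.φ.symm (M.α s)) := by
          refine Finset.card_le_card fun t ht => ?_
          simp only [hGG, hBd, mem_compl, mem_filter, mem_univ, true_and, mem_union,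
            mem_image] at ht ⊢
          by_cases a : M.α t = t
          · exact Or.inl (Or.inl a)
          by_cases b : GoodV M B c0 (Γ.hd (M.d t))
          · exact Or.inr ⟨M.α (M.φ t), fun c => ht ⟨b, a, c⟩, by simp [M.αα]⟩
          · exact Or.inl (Or.inr b)
      _ ≤ _ := by
          have a := Finset.card_union_le (({t : T | M.α t = t} : Finset T) ∪ Bd)
            (Bd.image fun s => M.φ.symm (M.α s))
          have b := Finset.card_union_le ({t : T | M.α t = t} : Finset T) Bd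
          have c : #(Bd.image fun s => M.φ.symm (M.α s)) ≤ #Bd := Finset.card_image_le
          omega
  have e7 : (#GG : ℝ) + #(GGᶜ) = Fintype.card T := by
    exact_mod_cast Finset.card_add_card_compl GG
  have e8 : (#(GGᶜ) : ℝ) * -(7 * β) ≤ ∑ t ∈ GGᶜ, g t := by
    simpa using Finset.card_nsmul_le_sum GGᶜ g _ fun t _ => e3 t
  have e6' : (#(GGᶜ) : ℝ) ≤ #{t : T | M.α t = t} + 2 * #{t : T | ¬GoodV M B c0 (Γ.hd (M.d t))} := by
    exact_mod_cast e6
  rw [e1, ← Finset.sum_add_sum_compl GG, e5]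
  nlinarith [mul_le_mul_of_nonneg_right e6' ha, mul_le_mul_of_nonneg_right e6' h0]

open Classical in
include H hcol in
theorem main_ineq {μ β θ η : ℝ} (hμ : Sub Fr μ) (hβ : Bd Fr μ β) (h0 : 0 < θ) (h1 : θ < 1)
    (hη : η < 1) {n C0 g : ℕ} (hn : 1 ≤ n) (hP : Pop Fr n L col) (hV : Fintype.card V ≤ C0 * n)
    (hR : ∀ c s, ((N : ℝ) + 2 * (Fintype.card S + 1) ^ g) ≤ η * (n * Fr.F1 c s))
    (hFM : FM Fr L col μ θ n c0 g N Γ) (hlam : 0 ≤ lam S Cl θ β C0 N) {C : ℕ}
    (c1 : ∀ v, #{t : T | Γ.hd (M.d t) = v} ≤ C) (c2 : ∀ v, #{t : T | (M.d t).1 = v} ≤ C)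
    (Bad : Finset T) (hB : #Bad ≤ C) (hc : ∀ t, t ∉ Bad → Clean M B c0 (Γ.hd (M.d t))) :
    ((Fintype.card T : ℝ) - #{t : T | M.α t = t} - 2 * (C + C * C)) * (-log μ / 2) -
      7 * β * (#{t : T | M.α t = t} + 2 * (C + C * C)) -
      #{t ∈ M.cut | (M.d (M.φ t)).1 ≠ c0} * log n ≤
    2 * C * (log (2 * (N + 1)) + 4 * β + (2 + 2 * (C + C * C)) * lam S Cl θ β C0 N) +
      Fintype.card T * (-log (1 - η) - log (1 - θ) + log (1 + 1 / n)) := by
  have hb0 : 0 ≤ β := (abs_nonneg _).trans hβ.2.2.2.2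
  have ha : 0 ≤ -log μ := by have := log_nonpos hμ.1.le hμ.2.1.le; linarith
  have hn1 : (1 : ℝ) ≤ n := by exact_mod_cast hn
  have hl : 0 ≤ log (n : ℝ) := log_nonneg hn1
  have hm := H.rank_lt_two c1 c2
  have hb : (#{t : T | ¬GoodV M B c0 (Γ.hd (M.d t))} : ℝ) ≤ C + C * C := by
    exact_mod_cast card_bad c1 Bad hB hc
  have lv : ∀ j ∈ range (2 * C),
      ∑ i ∈ range (H.E j), log (Fr.F1 (Fr.cls (col (M.d (H.pos j i)).1)) (M.d (H.pos j i)).2) +
      ∑ i ∈ range (H.E j), (if H.rg (H.ord (H.pos j i)) then H.Gl Fr col μ (H.lk (H.pos j i))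
        else 0) + ((∑ i ∈ range (H.E j), (1 : ℝ)) - #((((range (H.E j)).image fun i => (H.D i).1) ∪
        (range (H.E j)).image fun i => Γ.hd (H.D i)).erase c0)) * log n ≤
      (log (2 * (N + 1)) + 4 * β + (2 + 2 * (C + C * C)) * lam S Cl θ β C0 N) +
        (∑ i ∈ range (H.E j), (1 : ℝ)) * (-log (1 - η) - log (1 - θ) + log (1 + 1 / n)) := by
    intro j _
    have key := level_ineq Fr L col hμ hβ h0 h1 hη hn hP hV Γ hcol c0 hR hFM
      (H.level Fr col hcol hP j)
    have a1 : ∑ i ∈ range (H.E j), log (Fr.F1 (Fr.cls (col (H.D i).1)) (H.D i).2) =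
        ∑ i ∈ range (H.E j),
          log (Fr.F1 (Fr.cls (col (M.d (H.pos j i)).1)) (M.d (H.pos j i)).2) := by
      refine Finset.sum_congr rfl fun i hi => ?_
      have o := (H.pos_spec (Finset.mem_range.1 hi)).2
      set t := H.pos j i
      rw [← o]
      cases e : H.fw t
      · rw [H.D_bw e]
        have := cls_hd Fr col hcol _ (M.valid t)
        simp only [LGraph.rev, Fr.F1_op]
        rw [show Fr.cls (col (Γ.nxt (M.d t).1 (M.d t).2)) = _ from this]
      · rw [H.D_fw e]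
    have a2 : ∑ i ∈ range (H.E j) with (i < H.E j ∧ H.rg i),
        gain Fr col μ H.D (fun i => H.md Fr col (H.pos j i)) i =
        ∑ i ∈ range (H.E j), (if H.rg (H.ord (H.pos j i)) then H.Gl Fr col μ (H.lk (H.pos j i))
          else 0) := by
      rw [Finset.sum_filter]
      refine Finset.sum_congr rfl fun i hi => ?_
      have hi := Finset.mem_range.1 hi
      obtain ⟨r, o⟩ := H.pos_spec hi
      by_cases hr : H.rg i
      · have := H.gain_eq Fr col hcol μ (t := H.pos j i) (by rw [o]; exact hr)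
        rw [r, o] at this
        simp [hi, hr, o, this]
      · simp [hr, o]
    have a3 : (#{i ∈ range (H.E j + 1) | ¬(i < H.E j ∧ H.rg i)} : ℝ) ≤ 2 + 2 * (C + C * C) := by
      have : (#{i ∈ range (H.E j + 1) | ¬(i < H.E j ∧ H.rg i)} : ℝ) ≤
          2 + 2 * #{t : T | ¬GoodV M B c0 (Γ.hd (M.d t))} := by exact_mod_cast H.card_irr j
      linarith
    have a4 := mul_le_mul_of_nonneg_right a3 hlam
    simp only [sum_const, card_range, nsmul_eq_mul, mul_one]
    rw [← a1, ← a2]
    refine le_trans ?_ (le_trans key ?_)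
    · apply le_of_eq
      congr
    · convert add_le_add_left (add_le_add_right a4 (log (2 * (N + 1)) + 4 * β))
        ((H.E j : ℝ) * (-log (1 - η) - log (1 - θ) + log (1 + 1 / n))) using 3
      congr
  have s := Finset.sum_le_sum lv
  rw [Finset.sum_add_distrib, Finset.sum_add_distrib, Finset.sum_add_distrib, ← Finset.sum_mul,
    ← Finset.sum_mul, Finset.sum_sub_distrib,
    H.sum_levels hm (fun t => log (Fr.F1 (Fr.cls (col (M.d t).1)) (M.d t).2)),
    H.sum_levels hm (fun t => if H.rg (H.ord t) then H.Gl Fr col μ (H.lk t) else 0),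
    H.sum_levels hm (fun _ => 1), H.sum_links] at s
  simp only [sum_const, card_range, nsmul_eq_mul, mul_one, card_univ] at s
  have sv : (∑ j ∈ range (2 * C), (#((((range (H.E j)).image fun i => (H.D i).1) ∪
      (range (H.E j)).image fun i => Γ.hd (H.D i)).erase c0) : ℝ)) ≤
      Fintype.card T + #{t ∈ M.cut | (M.d (M.φ t)).1 ≠ c0} := by
    exact_mod_cast H.sum_verts (2 * C)
  have sl := H.sum_lower Fr col hcol hμ hβ
  push_cast at s
  nlinarith [mul_le_mul_of_nonneg_right sv hl, mul_le_mul_of_nonneg_right hb ha,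
    mul_le_mul_of_nonneg_right hb hb0]

end Sheets

end Crest.Agent.KP.Loc
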