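import Crest.Agent.KP.Stmts

/-!
# KP / MIN: the dual graph of a planar map has no `K₈` minor
-/

set_option autoImplicit false
set_option linter.unusedSectionVars false

namespace Crest.Agent.KP

open Finset Module

namespace MinAux

theorem add_self2 (x : ZMod 2) : x + x = 0 := CharTwo.add_self_eq_zero x

theorem eq_of_add {x y : ZMod 2} (h : x + y = 0) : x = y :=
  add_right_cancel (h.trans (add_self2 y).symm)

/-- Unordered pairs of `Fin 8`. -/
abbrev Pr : Type := {p : Fin 8 × Fin 8 // p.1 < p.2}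

theorem card_Pr : Fintype.card Pr = 28 := by decide

/-- Vertex parity of an edge set of `K₈`. -/
def par : (Pr → ZMod 2) →ₗ[ZMod 2] (Fin 8 → ZMod 2) where
  toFun ζ i := ∑ p, ζ p * ((if p.1.1 = i then 1 else 0) + (if p.1.2 = i then 1 else 0))
  map_add' y y' := by funext i; simp only [Pi.add_apply, add_mul, Finset.sum_add_distrib]
  map_smul' c y := by
    funext i
    simp only [Pi.smul_apply, smul_eq_mul, RingHom.id_apply, Finset.mul_sum, mul_assoc]

theorem finrank_ker_par : 20 ≤ finrank (ZMod 2) (LinearMap.ker par) := by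
  have h1 := LinearMap.finrank_range_add_finrank_ker par
  have h2 : finrank (ZMod 2) (LinearMap.range par) ≤ 8 :=
    (Submodule.finrank_le _).trans (le_of_eq (by simp))
  have h3 : finrank (ZMod 2) (Pr → ZMod 2) = 28 := by simp [card_Pr]
  omega

theorem other {ζ : Pr → ZMod 2} (h : par ζ = 0) {p : Pr} (hp : ζ p ≠ 0) {i : Fin 8}
    (hi : p.1.1 = i ∨ p.1.2 = i) : ∃ q, q ≠ p ∧ ζ q ≠ 0 ∧ (q.1.1 = i ∨ q.1.2 = i) := by
  by_contra hc
  push Not at hc
  have h1 : par ζ i = 0 := congrFun h i
  change ∑ p, ζ p * ((if p.1.1 = i then 1 else 0) + (if p.1.2 = i then 1 else 0)) = 0 at h1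
  rw [Finset.sum_eq_single p] at h1
  · have h2 := p.2.ne
    rcases hi with hi | hi
    · have : ¬ p.1.2 = i := fun h' => h2 (hi.trans h'.symm)
      simp [hi, this, hp] at h1
    · have : ¬ p.1.1 = i := fun h' => h2 (h'.trans hi.symm)
      simp [hi, this, hp] at h1
  · intro q _ hq
    by_cases hz : ζ q = 0
    · simp [hz]
    · obtain ⟨a, b⟩ := hc q hq hz
      simp [a, b]
  · simp

theorem three_le {ζ : Pr → ZMod 2} (h : par ζ = 0) (h0 : ζ ≠ 0) : 3 ≤ #{p : Pr | ζ p ≠ 0} := by
  obtain ⟨p, hp⟩ := Function.ne_iff.1 h0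
  obtain ⟨q, hq1, hq2, hq3⟩ := other h hp (Or.inl rfl)
  obtain ⟨r, hr1, hr2, hr3⟩ := other h hp (Or.inr rfl)
  refine Finset.two_lt_card_iff.2 ⟨p, q, r, by simpa using hp, by simpa using hq2,
    by simpa using hr2, hq1.symm, hr1.symm, ?_⟩
  rintro rfl
  apply hq1
  have a1 := p.2
  have a2 := q.2
  apply Subtype.ext
  apply Prod.ext <;> rcases hq3 with h1 | h1 <;> rcases hr3 with h2 | h2 <;> omega

/-- The bond space of a graph on the edge set of `K₈` is not the cycle space of `K₈`. -/
theorem not_bond {Q : Type} [Fintype Q] (a b : Pr → Q)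
    (h1 : ∀ ζ, par ζ = 0 → ∃ w : Q → ZMod 2, ∀ p, ζ p = w (a p) + w (b p))
    (h2 : ∀ w : Q → ZMod 2, par (fun p => w (a p) + w (b p)) = 0) : False := by
  classical
  let Θ : (Q → ZMod 2) →ₗ[ZMod 2] (Pr → ZMod 2) :=
    { toFun := fun w p => w (a p) + w (b p)
      map_add' := fun y y' => by funext t; simp only [Pi.add_apply]; ring
      map_smul' := fun c y => by
        funext t; simp only [Pi.smul_apply, smul_eq_mul, RingHom.id_apply]; ring }
  let st : Q → Pr → ZMod 2 := fun ρ => Θ (Pi.single ρ 1)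
  let Act : Finset Q := univ.filter fun ρ => st ρ ≠ 0
  have e1 : LinearMap.ker par ≤ Submodule.span (ZMod 2) ((Act.image st : Finset _) : Set _) := by
    intro ζ hζ
    obtain ⟨w, hw⟩ := h1 ζ hζ
    have : ζ = ∑ ρ, w ρ • st ρ := by
      have e : ζ = Θ w := funext hw
      rw [e]
      conv_lhs => rw [pi_eq_sum_univ' w]
      simp only [map_sum, map_smul, st]
    rw [this]
    refine Submodule.sum_mem _ fun ρ _ => ?_
    by_cases h : st ρ = 0
    · simp [h]
    · refine Submodule.smul_mem _ _ (Submodule.subset_span ?_)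
      simp only [Finset.coe_image, Set.mem_image, Finset.mem_coe]
      exact ⟨ρ, by simpa [Act] using h, rfl⟩
  have e2 : 20 ≤ #Act :=
    finrank_ker_par.trans ((Submodule.finrank_mono e1).trans
      ((finrank_span_finset_le_card _).trans Finset.card_image_le))
  have e3 : ∑ ρ ∈ Act, #{p : Pr | st ρ p ≠ 0} ≤ ∑ _p : Pr, 2 := by
    simp only [Finset.card_filter]
    rw [Finset.sum_comm]
    refine Finset.sum_le_sum fun p _ => ?_
    rw [← Finset.card_filter]
    refine le_trans (Finset.card_le_card (t := {a p, b p}) fun ρ hρ => ?_) Finset.card_le_two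
    by_contra hc
    simp only [Finset.mem_insert, Finset.mem_singleton, not_or] at hc
    apply (Finset.mem_filter.1 hρ).2
    change (Pi.single ρ 1 : Q → ZMod 2) (a p) + (Pi.single ρ 1 : Q → ZMod 2) (b p) = 0
    rw [Pi.single_eq_of_ne' hc.1, Pi.single_eq_of_ne' hc.2, add_zero]
  have e4 : ∑ _ρ ∈ Act, 3 ≤ ∑ ρ ∈ Act, #{p : Pr | st ρ p ≠ 0} :=
    Finset.sum_le_sum fun ρ hρ => three_le (h2 _) (Finset.mem_filter.1 hρ).2
  simp only [Finset.sum_const, smul_eq_mul, Finset.card_univ, card_Pr] at e3 e4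
  omega

variable {T J : Type} [Fintype T] [DecidableEq T]

/-- A function with zero sum on every cycle is a difference along the permutation. -/
theorem exists_pot [DecidableEq J] (φ : Equiv.Perm T) (f : T → J)
    (hf : ∀ a b, f a = f b ↔ φ.SameCycle a b) (z : T → ZMod 2)
    (hz : ∀ a, ∑ t, (if f t = a then z t else 0) = 0) :
    ∃ y : T → ZMod 2, ∀ t, y (φ t) = y t + z t := by
  let δ : (T → ZMod 2) →ₗ[ZMod 2] (T → ZMod 2) :=
    { toFun := fun y t => y t + y (φ t)
      map_add' := fun y y' => by funext t; simp only [Pi.add_apply]; ring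
      map_smul' := fun c y => by
        funext t; simp only [Pi.smul_apply, smul_eq_mul, RingHom.id_apply]; ring }
  have h1 : ∀ s, (Pi.single s 1 : T → ZMod 2) + Pi.single (φ s) 1 ∈ LinearMap.range δ := by
    intro s
    refine ⟨Pi.single (φ s) 1, ?_⟩
    funext t
    change (Pi.single (φ s) 1 : T → ZMod 2) t + (Pi.single (φ s) 1 : T → ZMod 2) (φ t) = _
    rw [add_comm, Pi.add_apply]
    congr 1
    simp [Pi.single_apply]
  have h2 : ∀ (k : ℕ) s,
      (Pi.single s 1 : T → ZMod 2) + Pi.single ((φ ^ k) s) 1 ∈ LinearMap.range δ := by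
    intro k
    induction k with
    | zero =>
      intro s
      have : (Pi.single s 1 : T → ZMod 2) + Pi.single ((φ ^ 0) s) 1 = 0 := by
        funext t; exact add_self2 _
      rw [this]; exact Submodule.zero_mem _
    | succ k ih =>
      intro s
      have : (Pi.single s 1 : T → ZMod 2) + Pi.single ((φ ^ (k + 1)) s) 1 =
          ((Pi.single s 1 : T → ZMod 2) + Pi.single ((φ ^ k) s) 1) +
            (Pi.single ((φ ^ k) s) 1 + Pi.single (φ ((φ ^ k) s)) 1) := by
        funext t
        rw [pow_succ', Equiv.Perm.mul_apply]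
        simp only [Pi.add_apply]
        rw [add_assoc, ← add_assoc ((Pi.single ((φ ^ k) s) 1 : T → ZMod 2) t), add_self2, zero_add]
      rw [this]
      exact Submodule.add_mem _ (ih s) (h1 _)
  rcases isEmpty_or_nonempty T with hT | hT
  · exact ⟨0, fun t => isEmptyElim t⟩
  let g : J → T := Function.invFun f
  have hg : ∀ t, f (g (f t)) = f t := fun t => Function.invFun_eq ⟨t, rfl⟩
  have h3 : z = ∑ t, z t • ((Pi.single t 1 : T → ZMod 2) + Pi.single (g (f t)) 1) := by
    simp only [smul_add, Finset.sum_add_distrib]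
    rw [← pi_eq_sum_univ' z]
    have : ∑ t, z t • (Pi.single (g (f t)) 1 : T → ZMod 2) = 0 := by
      funext s
      simp only [Finset.sum_apply, Pi.smul_apply, smul_eq_mul, Pi.single_apply, Pi.zero_apply,
        mul_ite, mul_one, mul_zero]
      by_cases hs : g (f s) = s
      · refine Eq.trans ?_ (hz (f s))
        refine Finset.sum_congr rfl fun t _ => if_congr ⟨fun h => ?_, fun h => ?_⟩ rfl rfl
        · rw [h, hg]
        · rw [h, hs]
      · refine Finset.sum_eq_zero fun t _ => if_neg fun h => hs ?_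
        rw [h, hg]
    rw [this, add_zero]
  have h4 : z ∈ LinearMap.range δ := by
    rw [h3]
    refine Submodule.sum_mem _ fun t _ => Submodule.smul_mem _ _ ?_
    obtain ⟨k, -, hk⟩ := ((hf t (g (f t))).1 (hg t).symm).exists_pow_eq'
    rw [← hk]
    exact h2 k t
  obtain ⟨y, hy⟩ := h4
  refine ⟨y, fun t => ?_⟩
  rw [← hy]
  change y (φ t) = y t + (y t + y (φ t))
  rw [← add_assoc, add_self2, zero_add]

end MinAux

open MinAux in
theorem minor : MinStmt := by
  classical
  rintro T J _ _ φ α f hα hP hf ⟨B, hBc, hBd, hBa⟩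
  have hBi : ∀ {i j a}, a ∈ B i → a ∈ B j → i = j := fun {i j a} hi hj => by
    by_contra h
    exact Set.disjoint_left.1 (hBd i j h) hi hj
  have hadj : ∀ a b, (dualGraph α f).Adj a b → a ≠ b ∧ ∃ t, f t = a ∧ f (α t) = b := by
    intro a b h
    rw [dualGraph, SimpleGraph.fromRel_adj] at h
    refine ⟨h.1, ?_⟩
    rcases h.2 with h | ⟨t, h1, h2⟩
    · exact h
    · exact ⟨α t, h2, by rw [hα, h1]⟩
  have hex : ∀ p : Pr, ∃ t, f t ∈ B p.1.1 ∧ f (α t) ∈ B p.1.2 := by
    intro p
    obtain ⟨a, ha, b, hb, hab⟩ := hBa _ _ p.2.ne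
    obtain ⟨-, t, rfl, rfl⟩ := hadj a b hab
    exact ⟨t, ha, hb⟩
  choose s hs1 hs2 using hex
  have s_inj : ∀ p q, s p = s q → p = q := fun p q h =>
    Subtype.ext (Prod.ext (hBi (hs1 p) (h ▸ hs1 q)) (hBi (hs2 p) (h ▸ hs2 q)))
  have s_ne : ∀ p q, s p ≠ α (s q) := fun p q h => by
    have h1 : p.1.1 = q.1.2 := hBi (hs1 p) (h ▸ hs2 q)
    have h2 : p.1.2 = q.1.1 := hBi (hs2 p) (by rw [h, hα]; exact hs1 q)
    have := p.2
    have := q.2
    omega
  have hαi : ∀ {a b}, α a = α b ↔ a = b := fun {a b} =>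
    (Function.Involutive.injective hα).eq_iff
  have hαe : ∀ {a b}, α a = b ↔ a = α b := fun {a b} =>
    ⟨fun h => by rw [← h, hα], fun h => by rw [h, hα]⟩
  -- extension of an edge set of `K₈` to the sides
  let ex : (Pr → ZMod 2) → T → ZMod 2 := fun ζ t =>
    ∑ p, ζ p * ((if t = s p then 1 else 0) + (if t = α (s p) then 1 else 0))
  have ex1 : ∀ ζ p, ex ζ (s p) = ζ p := by
    intro ζ p
    simp only [ex]
    rw [Finset.sum_eq_single p]
    · simp [s_ne]
    · intro q _ hq
      have : s p ≠ s q := fun h => hq (s_inj _ _ h).symm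
      simp [s_ne, this]
    · simp
  have ex2 : ∀ ζ t, ex ζ (α t) = ex ζ t := by
    intro ζ t
    refine Finset.sum_congr rfl fun p _ => ?_
    simp only [hαi, @hαe t (s p)]
    rw [add_comm]
  have ex3 : ∀ ζ t, (∀ p, t ≠ s p ∧ t ≠ α (s p)) → ex ζ t = 0 := by
    intro ζ t h
    refine Finset.sum_eq_zero fun p _ => ?_
    simp [(h p).1, (h p).2]
  have ex4 : ∀ ζ (g : J → ZMod 2),
      ∑ t, g (f t) * ex ζ t = ∑ p, ζ p * (g (f (s p)) + g (f (α (s p)))) := by
    intro ζ g
    simp only [ex, Finset.mul_sum]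
    rw [Finset.sum_comm]
    refine Finset.sum_congr rfl fun p _ => ?_
    simp only [mul_add, mul_ite, mul_one, mul_zero, Finset.sum_add_distrib, Finset.sum_ite_eq',
      Finset.mem_univ, if_true]
    ring
  -- inner sides
  let In : T → Prop := fun t => ∃ i, f t ∈ B i ∧ f (α t) ∈ B i
  have In_s : ∀ p, ¬ In (s p) := by
    rintro p ⟨i, h1, h2⟩
    exact p.2.ne ((hBi (hs1 p) h1).trans (hBi h2 (hs2 p)))
  have In_α : ∀ t, In (α t) ↔ In t := fun t => by
    simp only [In, hα, and_comm]
  let r : Setoid T := Relation.EqvGen.setoid fun a b =>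
    (∃ t, a = φ t ∧ b = α t) ∨ (¬ In a ∧ (∀ p, a ≠ s p ∧ a ≠ α (s p)) ∧ b = α a)
  refine not_bond (Q := Quotient r) (fun p => Quotient.mk r (s p))
    (fun p => Quotient.mk r (α (s p))) (fun ζ hζ => ?_) (fun w => ?_)
  · -- every even subgraph is a coboundary
    let ZI : Submodule (ZMod 2) (T → ZMod 2) :=
      { carrier := {z | (∀ t, z (α t) = z t) ∧ ∀ t, (α t = t ∨ ¬ In t) → z t = 0}
        add_mem' := fun {a b} ha hb => ⟨fun t => by simp only [Pi.add_apply, ha.1, hb.1],
          fun t ht => by simp only [Pi.add_apply, ha.2 t ht, hb.2 t ht, add_zero]⟩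
        zero_mem' := ⟨fun _ => rfl, fun _ _ => rfl⟩
        smul_mem' := fun c a ha => ⟨fun t => by simp only [Pi.smul_apply, ha.1],
          fun t ht => by simp only [Pi.smul_apply, ha.2 t ht, smul_zero]⟩ }
    let σ : (T → ZMod 2) →ₗ[ZMod 2] (J → ZMod 2) :=
      { toFun := fun z a => ∑ t, (if f t = a then z t else 0)
        map_add' := fun y y' => by
          funext a
          simp only [Pi.add_apply, ← Finset.sum_add_distrib]
          exact Finset.sum_congr rfl fun t _ => by split_ifs <;> simp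
        map_smul' := fun c y => by
          funext a
          simp only [Pi.smul_apply, smul_eq_mul, RingHom.id_apply, Finset.mul_sum, mul_ite,
            mul_zero] }
    have σ1 : ∀ t, σ (Pi.single t 1) = Pi.single (f t) 1 := by
      intro t
      funext a
      change ∑ t', (if f t' = a then (Pi.single t 1 : T → ZMod 2) t' else 0) = _
      rw [Finset.sum_eq_single t]
      · simp [Pi.single_apply, eq_comm]
      · intro t' _ h; simp [h]
      · simp
    have hpair : ∀ i (a b : B i),
        (Pi.single a.1 1 : J → ZMod 2) + Pi.single b.1 1 ∈ ZI.map σ := by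
      intro i a b
      obtain ⟨w⟩ := (hBc i).preconnected a b
      induction w with
      | nil =>
        rename_i a
        have : (Pi.single a.1 1 : J → ZMod 2) + Pi.single a.1 1 = 0 := by
          funext t; exact add_self2 _
        rw [this]; exact Submodule.zero_mem _
      | cons h w ih =>
        rename_i a b c
        obtain ⟨hne, t, ht1, ht2⟩ := hadj a.1 b.1 h
        have hfree : α t ≠ t := fun h' => hne (by rw [← ht1, ← ht2, h'])
        have hIn : In t := ⟨i, ht1 ▸ a.2, ht2 ▸ b.2⟩
        have hm : (Pi.single a.1 1 : J → ZMod 2) + Pi.single b.1 1 ∈ ZI.map σ := by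
          refine ⟨Pi.single t 1 + Pi.single (α t) 1, ⟨fun t' => ?_, fun t' ht' => ?_⟩, ?_⟩
          · simp only [Pi.add_apply, Pi.single_apply, hαi, @hαe t' t]
            rw [add_comm]
          · have a1 : t' ≠ t := by
              rintro rfl
              exact ht'.elim hfree fun h' => h' hIn
            have a2 : t' ≠ α t := by
              rintro rfl
              exact ht'.elim (fun h' => hfree (hαi.1 h')) fun h' => h' ((In_α t).2 hIn)
            simp [a1, a2]
          · rw [map_add, σ1, σ1, ht1, ht2]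
        have : (Pi.single a.1 1 : J → ZMod 2) + Pi.single c.1 1 =
            ((Pi.single a.1 1 : J → ZMod 2) + Pi.single b.1 1) +
              (Pi.single b.1 1 + Pi.single c.1 1) := by
          funext t
          simp only [Pi.add_apply]
          rw [add_assoc, ← add_assoc ((Pi.single b.1 1 : J → ZMod 2) t), add_self2, zero_add]
        rw [this]
        exact Submodule.add_mem _ hm ih
    have hroot : ∀ i, ∃ a, a ∈ B i := fun i => by
      obtain ⟨a⟩ := (hBc i).nonempty
      exact ⟨a.1, a.2⟩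
    choose ρ hρ using hroot
    have hσ : σ (ex ζ) ∈ ZI.map σ := by
      have e : σ (ex ζ) = ∑ p, ζ p • (((Pi.single (f (s p)) 1 : J → ZMod 2) +
          Pi.single (ρ p.1.1) 1) + (Pi.single (f (α (s p))) 1 + Pi.single (ρ p.1.2) 1)) := by
        funext a
        have e1 := ex4 ζ fun b => if b = a then 1 else 0
        have e2 : ∑ p : Pr, ζ p * ((if ρ p.1.1 = a then 1 else 0) +
            (if ρ p.1.2 = a then 1 else 0)) = 0 := by
          by_cases ha : ∃ i, ρ i = a
          · obtain ⟨i, rfl⟩ := ha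
            have hi : ∀ j, ρ j = ρ i ↔ j = i := fun j =>
              ⟨fun h => hBi (hρ j) (h ▸ hρ i), fun h => by rw [h]⟩
            simp only [hi]
            exact congrFun hζ i
          · push Not at ha
            simp [ha]
        change ∑ t, (if f t = a then ex ζ t else 0) = _
        simp only [ite_mul, one_mul, zero_mul] at e1
        rw [e1]
        refine ((add_zero _).symm.trans (congrArg _ e2.symm)).trans ?_
        rw [← Finset.sum_add_distrib]
        simp only [Finset.sum_apply, Pi.smul_apply, Pi.add_apply, smul_eq_mul, Pi.single_apply,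
          @eq_comm _ a]
        exact Finset.sum_congr rfl fun p _ => by ring
      rw [e]
      exact Submodule.sum_mem _ fun p _ => Submodule.smul_mem _ _ (Submodule.add_mem _
        (hpair _ ⟨_, hs1 p⟩ ⟨_, hρ _⟩) (hpair _ ⟨_, hs2 p⟩ ⟨_, hρ _⟩))
    obtain ⟨z1, ⟨hz1, hz2⟩, hz3⟩ := hσ
    have hfix : ∀ t, α t = t → ∀ p, t ≠ s p ∧ t ≠ α (s p) := fun t ht p =>
      ⟨fun h => s_ne p p (by rw [← h, ht]), fun h => s_ne p p (by rw [← h, ← ht, h, hα])⟩
    obtain ⟨y, hy⟩ := exists_pot φ f hf (ex ζ + z1) fun a => by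
      have : σ (ex ζ + z1) a = 0 := by
        rw [map_add, hz3]; exact add_self2 _
      exact this
    obtain ⟨u, hu1, hu2⟩ := hP (ex ζ + z1) y (fun t => by simp only [Pi.add_apply, ex2, hz1])
      (fun t ht => by rw [Pi.add_apply, ex3 ζ t (hfix t ht), hz2 t (Or.inl ht), add_zero]) hy
      (by simp)
    refine ⟨Quotient.lift u fun a b h => ?_, fun p => ?_⟩
    · induction h with
      | rel a b h =>
        rcases h with ⟨t, rfl, rfl⟩ | ⟨h1, h2, rfl⟩
        · rw [hu1 t (by simp), hu2]
        · rw [hu2, Pi.add_apply, ex3 ζ a h2, hz2 a (Or.inr h1), add_zero, add_zero]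
      | refl => rfl
      | symm _ _ _ ih => exact ih.symm
      | trans _ _ _ _ _ ih1 ih2 => exact ih1.trans ih2
    · change ζ p = u (s p) + u (α (s p))
      rw [hu2, ← add_assoc, add_self2, zero_add, Pi.add_apply, ex1, hz2 _ (Or.inr (In_s p)),
        add_zero]
  · -- every coboundary is an even subgraph
    funext i
    let u : T → ZMod 2 := fun t => w (Quotient.mk r t)
    have hu1 : ∀ t, u (φ t) = u (α t) := fun t =>
      congrArg w (Quotient.sound (Relation.EqvGen.rel _ _ (Or.inl ⟨t, rfl, rfl⟩)))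
    have hu2 : ∀ t, ¬ In t → (∀ p, t ≠ s p ∧ t ≠ α (s p)) → u t = u (α t) := fun t h1 h2 =>
      congrArg w (Quotient.sound (Relation.EqvGen.rel _ _ (Or.inr ⟨h1, h2, rfl⟩)))
    let ζ : Pr → ZMod 2 := fun p => u (s p) + u (α (s p))
    let g : J → ZMod 2 := fun a => if a ∈ B i then 1 else 0
    have e1 : ∑ t, g (f t) * (u t + u (α t)) = 0 := by
      have hfφ : ∀ t, f (φ t) = f t := fun t =>
        (hf _ _).2 (Equiv.Perm.sameCycle_apply_left.2 (Equiv.Perm.SameCycle.refl _ _))
      have := Equiv.sum_comp φ fun t => g (f t) * u t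
      simp only [hfφ, hu1] at this
      simp only [mul_add, Finset.sum_add_distrib, this]
      exact add_self2 _
    have e2 : ∑ t, g (f t) * (u t + u (α t) + ex ζ t) = 0 := by
      have hz : ∀ t, ¬ In t → u t + u (α t) + ex ζ t = 0 := by
        intro t ht
        by_cases h : ∃ p, t = s p ∨ t = α (s p)
        · obtain ⟨p, rfl | rfl⟩ := h
          · rw [ex1]; exact add_self2 _
          · rw [ex2, ex1, hα, add_comm (u (α (s p)))]; exact add_self2 _
        · push Not at h
          rw [ex3 ζ t h, ← hu2 t ht h, add_self2, add_zero]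
      refine Finset.sum_involution (fun t _ => α t) (fun t _ => ?_) (fun t _ ht h => ht ?_)
        (fun t _ => Finset.mem_univ _) (fun t _ => hα t)
      · by_cases ht : In t
        · obtain ⟨j, h1, h2⟩ := ht
          have : g (f (α t)) = g (f t) :=
            if_congr ⟨fun h => hBi h h2 ▸ h1, fun h => hBi h h1 ▸ h2⟩ rfl rfl
          rw [this, ex2, hα, add_comm (u (α t))]
          exact add_self2 _
        · rw [hz t ht, hz (α t) (fun h => ht ((In_α t).1 h))]; simp
      · have hfix : ∀ p, t ≠ s p ∧ t ≠ α (s p) := fun p =>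
          ⟨fun h' => s_ne p p (by rw [← h', h]), fun h' => s_ne p p (by rw [← h', ← h, h', hα])⟩
        rw [ex3 ζ t hfix, h, add_self2, add_zero, mul_zero]
    have e3 : ∑ t, g (f t) * ex ζ t = 0 := by
      simp only [mul_add (g (f _)) (u _ + u _), Finset.sum_add_distrib, e1, zero_add] at e2
      exact e2
    rw [ex4] at e3
    change ∑ p : Pr, ζ p * ((if p.1.1 = i then 1 else 0) + (if p.1.2 = i then 1 else 0)) = 0
    refine Eq.trans ?_ e3
    refine Finset.sum_congr rfl fun p _ => ?_
    have a1 : g (f (s p)) = if p.1.1 = i then 1 else 0 :=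
      if_congr ⟨fun h => hBi (hs1 p) h, fun h => h ▸ hs1 p⟩ rfl rfl
    have a2 : g (f (α (s p))) = if p.1.2 = i then 1 else 0 :=
      if_congr ⟨fun h => hBi (hs2 p) h, fun h => h ▸ hs2 p⟩ rfl rfl
    rw [a1, a2]

end Crest.Agent.KP
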