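import Crest.Agent.KP.Stmts

/-! KP task PLANE: two disjoint Baer subplanes of a Singer plane. -/

set_option autoImplicit false

namespace Crest.Agent.KP

open Finset

namespace Pl

variable (K E : Type) [Field K] [Field E] [Algebra K E]

/-- points of the projective space of `E` over `K` -/
abbrev Q : Type := Eˣ ⧸ (Units.map (algebraMap K E : K →* E)).range

variable {K E}

theorem mk_eq {u v : Eˣ} : (u : Q K E) = v ↔ ∃ c : K, c • (u : E) = v := by
  rw [QuotientGroup.eq]
  constructor
  · rintro ⟨c, hc⟩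
    refine ⟨c, ?_⟩
    have := congrArg (fun w : Eˣ => (u : E) * w) hc
    simp only [Units.coe_map, MonoidHom.coe_coe, Units.val_mul, Units.mul_inv_cancel_left] at this
    rw [Algebra.smul_def, mul_comm, this]
  · rintro ⟨c, hc⟩
    have hc0 : c ≠ 0 := by
      rintro rfl
      exact v.ne_zero (by rw [← hc, zero_smul])
    refine ⟨Units.mk0 c hc0, Units.ext ?_⟩
    simp only [Units.coe_map, MonoidHom.coe_coe, Units.val_mul, Units.val_mk0]
    rw [← hc, Algebra.smul_def, mul_comm (algebraMap K E c), Units.inv_mul_cancel_left]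

open Classical in
/-- points met by an additive subgroup -/
noncomputable def met (K : Type) [Field K] [Algebra K E] [Fintype (Q K E)] (A : AddSubgroup E) :
    Finset (Q K E) :=
  univ.filter fun x => ∃ u : Eˣ, (u : Q K E) = x ∧ (u : E) ∈ A

theorem mem_met [Fintype (Q K E)] {A : AddSubgroup E} {x : Q K E} :
    x ∈ met K A ↔ ∃ u : Eˣ, (u : Q K E) = x ∧ (u : E) ∈ A := by
  simp [met]

variable [Fintype E] [DecidableEq E] [Fintype (Q K E)] [DecidableEq (Q K E)]

open Classical in
theorem card_units (A : AddSubgroup E) : #{u : Eˣ | (u : E) ∈ A} + 1 = Nat.card A := by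
  have h1 : Nat.card A = #{x : E | x ∈ A} := by
    rw [Nat.card_eq_fintype_card, Fintype.card_subtype]
  have h2 : ({x : E | x ∈ A} : Finset E) =
      insert 0 (({u : Eˣ | (u : E) ∈ A} : Finset Eˣ).map ⟨Units.val, Units.val_injective⟩) := by
    ext x
    simp only [mem_filter, mem_univ, true_and, mem_insert, mem_map, Function.Embedding.coeFn_mk]
    constructor
    · intro hx
      by_cases h : x = 0
      · exact Or.inl h
      · exact Or.inr ⟨Units.mk0 x h, hx, rfl⟩
    · rintro (rfl | ⟨u, hu, rfl⟩)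
      · exact A.zero_mem
      · exact hu
  rw [h1, h2, card_insert_of_notMem (by simp), card_map]

open Classical in
theorem count (A : AddSubgroup E) : ∃ f : Q K E → ℕ, Nat.card A = 1 + ∑ x ∈ met K A, f x ∧
    ∀ u : Eˣ, (u : E) ∈ A →
      f u + 1 = Nat.card (A ⊓ (Submodule.span K {(u : E)}).toAddSubgroup : AddSubgroup E) := by
  refine ⟨fun x => #(({u : Eˣ | (u : E) ∈ A} : Finset Eˣ).filter fun u : Eˣ => (u : Q K E) = x), ?_,
    fun u hu => ?_⟩
  · rw [← card_units, add_comm,
      card_eq_sum_card_fiberwise (f := fun u : Eˣ => (u : Q K E)) (t := met K A)]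
    intro u hu
    exact mem_met.mpr ⟨u, rfl, by simpa using hu⟩
  · rw [← card_units]
    refine congrArg (· + 1) (congrArg Finset.card ?_)
    ext v
    simp only [mem_filter, mem_univ, true_and, AddSubgroup.mem_inf,
      Submodule.mem_toAddSubgroup, Submodule.mem_span_singleton]
    rw [eq_comm, mk_eq]

theorem count_sub (W : Submodule K E) :
    Nat.card K ^ Module.finrank K W + #(met K W.toAddSubgroup) =
      1 + #(met K W.toAddSubgroup) * Nat.card K := by
  obtain ⟨f, h1, h2⟩ := count (K := K) W.toAddSubgroup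
  have h3 : Nat.card W.toAddSubgroup = Nat.card K ^ Module.finrank K W :=
    Module.natCard_eq_pow_finrank (K := K) (V := W)
  rw [← h3, h1, add_assoc, card_eq_sum_ones, ← sum_add_distrib, sum_mul]
  congr 1
  refine sum_congr rfl fun x hx => ?_
  obtain ⟨u, rfl, hu⟩ := mem_met.mp hx
  rw [h2 u hu, inf_eq_right.mpr, one_mul]
  · have h4 := Module.natCard_eq_pow_finrank (K := K) (V := Submodule.span K {(u : E)})
    rw [finrank_span_singleton u.ne_zero, pow_one] at h4
    exact h4
  · exact (Submodule.span_singleton_le_iff_mem _ _).mpr hu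

omit [DecidableEq E] in
theorem card_zero {p : ℕ} [Fact p.Prime] [CharP E p] {A : AddSubgroup E} {u : E} (hu : u ∈ A)
    (h0 : u ≠ 0) : (Nat.card A : ZMod p) = 0 := by
  rw [ZMod.natCast_eq_zero_iff]
  have h1 : addOrderOf (⟨u, hu⟩ : A) = p := by
    refine addOrderOf_eq_prime (Subtype.ext ?_) fun h => h0 (congrArg Subtype.val h)
    simp
  rw [← h1]
  exact addOrderOf_dvd_natCard _

theorem count_p {p : ℕ} [Fact p.Prime] [CharP E p] {A : AddSubgroup E} {u : E} (hu : u ∈ A)
    (h0 : u ≠ 0) : (#(met K A) : ZMod p) = 1 := by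
  obtain ⟨f, h1, h2⟩ := count (K := K) A
  have h3 := card_zero (p := p) hu h0
  rw [h1] at h3
  push_cast at h3
  have h4 : ∀ x ∈ met K A, (f x : ZMod p) = -1 := by
    intro x hx
    obtain ⟨v, rfl, hv⟩ := mem_met.mp hx
    have h5 := card_zero (p := p) (A := A ⊓ (Submodule.span K {(v : E)}).toAddSubgroup)
      ⟨hv, Submodule.mem_span_singleton_self _⟩ v.ne_zero
    rw [← h2 v hv] at h5
    push_cast at h5
    linear_combination h5
  rw [sum_congr rfl h4, sum_const, nsmul_eq_mul] at h3
  linear_combination -h3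

omit [Fintype E] [DecidableEq E] in
theorem met_inf (A : AddSubgroup E) (W : Submodule K E) :
    met K A ∩ met K W.toAddSubgroup = met K (A ⊓ W.toAddSubgroup) := by
  ext x
  simp only [mem_inter, mem_met]
  constructor
  · rintro ⟨⟨u, rfl, hu⟩, v, hv, hv'⟩
    obtain ⟨c, hc⟩ := mk_eq.mp hv
    exact ⟨u, rfl, hu, hc ▸ W.smul_mem c hv'⟩
  · rintro ⟨u, rfl, h1, h2⟩
    exact ⟨⟨u, rfl, h1⟩, u, rfl, h2⟩

/-- the plane orthogonal to `a` -/
def W (lam : E →ₗ[K] K) (a : Eˣ) : Submodule K E :=
  LinearMap.ker (lam ∘ₗ LinearMap.mulLeft K (a : E))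

omit [Fintype E] [DecidableEq E] [Fintype (Q K E)] [DecidableEq (Q K E)] in
theorem mem_W {lam : E →ₗ[K] K} {a : Eˣ} {b : E} : b ∈ W lam a ↔ lam (a * b) = 0 := Iff.rfl

omit [DecidableEq E] [Fintype (Q K E)] [DecidableEq (Q K E)] in
theorem finrank_W {lam : E →ₗ[K] K} {e : E} (he : lam e = 1) (h3 : Module.finrank K E = 3)
    (a : Eˣ) : Module.finrank K (W lam a) = 2 := by
  have h1 := LinearMap.finrank_range_add_finrank_ker (lam ∘ₗ LinearMap.mulLeft K (a : E))
  have h2 : LinearMap.range (lam ∘ₗ LinearMap.mulLeft K (a : E)) = ⊤ := by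
    rw [LinearMap.range_eq_top]
    intro c
    refine ⟨c • ((a⁻¹ : Eˣ) * e), ?_⟩
    simp [he]
  rw [h2, finrank_top, Module.finrank_self, h3] at h1
  unfold W
  omega

omit [DecidableEq E] [Fintype (Q K E)] [DecidableEq (Q K E)] in
theorem finrank_inf {lam : E →ₗ[K] K} {e : E} (he : lam e = 1) (h3 : Module.finrank K E = 3)
    {a a' : Eˣ} (h : (a : Q K E) ≠ a') : Module.finrank K (W lam a ⊓ W lam a' : Submodule K E) = 1 := by
  have h1 : ¬ W lam a ≤ W lam a' := by
    intro hle
    apply h
    set b : E := (a⁻¹ : Eˣ) * e with hb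
    have hb1 : lam (a * b) = 1 := by simp [hb, he]
    refine mk_eq.mpr ⟨lam (a' * b), ?_⟩
    by_contra hne
    set w : E := a' - lam (a' * b) • (a : E) with hw
    have hw0 : w ≠ 0 := sub_ne_zero.mpr (Ne.symm hne)
    have h2 : ∀ x : E, lam (w * x) = 0 := by
      intro x
      have h4 : x - lam (a * x) • b ∈ W lam a := by
        rw [mem_W, mul_sub, mul_smul_comm, map_sub, map_smul, hb1]
        simp
      have h5 := mem_W.mp (hle h4)
      rw [mul_sub, mul_smul_comm, map_sub, map_smul] at h5
      rw [hw, sub_mul, smul_mul_assoc, map_sub, map_smul]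
      simp only [smul_eq_mul] at h5 ⊢
      linear_combination h5
    have := h2 (w⁻¹ * e)
    rw [mul_inv_cancel_left₀ hw0, he] at this
    exact one_ne_zero this
  have h2 := Submodule.finrank_sup_add_finrank_inf_eq (W lam a) (W lam a')
  have h4 := Submodule.finrank_lt_finrank_of_lt (s := W lam a') (t := W lam a ⊔ W lam a')
    (lt_of_le_of_ne le_sup_right fun h' => h1 (h' ▸ le_sup_left))
  have h5 := Submodule.finrank_le (W lam a ⊔ W lam a')
  rw [finrank_W he h3, finrank_W he h3] at h2
  rw [finrank_W he h3] at h4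
  omega

theorem plane {p : ℕ} [Fact p.Prime] [CharP E p] (h3 : Module.finrank K E = 3) (U : Subfield E)
    (hU1 : Nat.card K < Nat.card U) (hU2 : 2 * Nat.card U ≤ Nat.card K ^ 2 + Nat.card K) :
    Nonempty (Plane p (Nat.card K) (Q K E) (Q K E)) := by
  classical
  have : Finite K := Finite.of_injective _ (algebraMap K E).injective
  obtain ⟨lam, he⟩ : ∃ lam : E →ₗ[K] K, lam 1 = 1 := by
    obtain ⟨f, hf⟩ := Module.Projective.exists_dual_eq_one K (one_ne_zero (α := E))
    exact ⟨f, hf⟩
  obtain ⟨q, hq⟩ : ∃ q, Nat.card K = q + 2 :=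
    Nat.exists_eq_add_of_le' (Finite.one_lt_card (α := K))
  let on : Q K E → Finset (Q K E) := fun l => met K (W lam l.out).toAddSubgroup
  have hon : ∀ x l : Q K E, x ∈ on l ↔ lam (l.out * x.out) = 0 := by
    intro x l
    simp only [on, mem_met]
    constructor
    · rintro ⟨u, hu, hu'⟩
      obtain ⟨c, hc⟩ := mk_eq.mp (hu.trans (QuotientGroup.out_eq' x).symm)
      exact mem_W.mp (hc ▸ (W lam l.out).smul_mem c hu')
    · exact fun h => ⟨x.out, QuotientGroup.out_eq' x, h⟩
  have hsym : ∀ x l : Q K E, x ∈ on l ↔ l ∈ on x := fun x l => by rw [hon, hon, mul_comm]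
  have c1 : ∀ l, #(on l) = Nat.card K + 1 := by
    intro l
    have := count_sub (W lam l.out)
    rw [finrank_W he h3, hq] at this
    rw [hq]
    refine Nat.eq_of_mul_eq_mul_right (Nat.succ_pos q) ?_
    change #(on l) * (q + 1) = _
    change _ + #(on l) = 1 + #(on l) * _ at this
    nlinarith
  have c2 : ∀ l l', l ≠ l' → #(on l ∩ on l') = 1 := by
    intro l l' h
    have := count_sub (W lam l.out ⊓ W lam l'.out)
    rw [finrank_inf he h3 (by simpa using h), hq] at this
    have e : on l ∩ on l' = met K (W lam l.out ⊓ W lam l'.out).toAddSubgroup := met_inf _ _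
    rw [e]
    refine Nat.eq_of_mul_eq_mul_right (Nat.succ_pos q) ?_
    change _ * (q + 1) = _
    nlinarith
  have c3 : Fintype.card (Q K E) = Nat.card K ^ 2 + Nat.card K + 1 := by
    have := count_sub (⊤ : Submodule K E)
    have e : met K (⊤ : Submodule K E).toAddSubgroup = univ := by
      ext x
      simp only [mem_met, mem_univ, iff_true]
      exact ⟨x.out, QuotientGroup.out_eq' x, trivial⟩
    rw [finrank_top, h3, hq, e, card_univ] at this
    rw [hq]
    refine Nat.eq_of_mul_eq_mul_right (Nat.succ_pos q) ?_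
    change _ * (q + 1) = _
    nlinarith
  have codd : Odd (Fintype.card (Q K E)) := by
    rw [c3, sq, ← Nat.mul_succ]
    exact (Nat.even_mul_succ_self _).add_one
  have hmeet : ∀ A : AddSubgroup E, Nat.card K < Nat.card A → ∀ l,
      (#(met K A ∩ on l) : ZMod p) = 1 := by
    intro A hA l
    have h1 : ¬ Function.Injective fun u : A => lam (l.out * u) := fun h =>
      absurd (Nat.card_le_card_of_injective _ h) (not_le.mpr hA)
    obtain ⟨u, v, huv, hne⟩ := Function.not_injective_iff.mp h1
    rw [met_inf]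
    refine count_p (u := (u : E) - v) ⟨A.sub_mem u.2 v.2, ?_⟩
      (sub_ne_zero.mpr fun h => hne (Subtype.ext h))
    change lam (l.out * ((u : E) - v)) = 0
    rw [mul_sub, map_sub, huv, sub_self]
  let A : AddSubgroup E := U.toAddSubgroup
  have hA : Nat.card A = Nat.card U := rfl
  let H : Subgroup (Q K E) := (U.toSubmonoid.units).map (QuotientGroup.mk' _)
  have hH : ∀ x, x ∈ met K A ↔ x ∈ H := by
    intro x
    rw [mem_met]
    constructor
    · rintro ⟨u, rfl, hu⟩
      exact ⟨u, ⟨hu, by simpa using U.inv_mem hu⟩, rfl⟩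
    · rintro ⟨u, hu, rfl⟩
      exact ⟨u, rfl, hu.1⟩
  have hXc : #(met K A) = Nat.card H := by
    rw [Nat.card_eq_fintype_card, Fintype.card_subtype]
    congr 1
    ext x
    simp [hH]
  have hXodd : Odd #(met K A) := by
    rw [hXc]
    exact Odd.of_dvd_nat (by rwa [Nat.card_eq_fintype_card]) H.card_subgroup_dvd_card
  have hXle : #(met K A) + 1 ≤ Nat.card U := by
    rw [← hA, ← card_units]
    refine Nat.succ_le_succ (card_le_card_of_surjOn (fun u : Eˣ => (u : Q K E)) fun x hx => ?_)
    obtain ⟨u, rfl, hu⟩ := mem_met.mp hx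
    exact ⟨u, by simpa using hu, rfl⟩
  have hX3 : 3 ≤ #(met K A) := by
    obtain ⟨f, h1, h2⟩ := count (K := K) A
    have h4 : ∀ x ∈ met K A, f x ≤ q + 1 := by
      intro x hx
      obtain ⟨u, rfl, hu⟩ := mem_met.mp hx
      have h5 := Module.natCard_eq_pow_finrank (K := K) (V := Submodule.span K {(u : E)})
      rw [finrank_span_singleton u.ne_zero, pow_one] at h5
      have h6 := AddSubgroup.card_le_of_le
        (inf_le_right : A ⊓ (Submodule.span K {(u : E)}).toAddSubgroup ≤ _)
      have h7 := h2 u hu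
      have h8 : Nat.card (Submodule.span K {(u : E)}).toAddSubgroup = Nat.card K := h5
      omega
    have h5 := sum_le_card_nsmul _ _ _ h4
    obtain ⟨m, hm⟩ := hXodd
    rw [smul_eq_mul, hm] at h5
    change ∑ x ∈ met K A, f x ≤ _ at h5
    rcases m with _ | m
    · omega
    · omega
  obtain ⟨ω, hω⟩ : ∃ ω : Q K E, ω ∉ met K A := by
    by_contra h
    push Not at h
    have := card_le_card (s := univ) (t := met K A) fun x _ => h x
    rw [card_univ] at this
    omega
  let A' : AddSubgroup E := A.map (AddMonoidHom.mulLeft (ω.out : E))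
  have hA' : Nat.card A' = Nat.card U := by
    rw [← hA]
    exact AddSubgroup.card_map_of_injective (mul_right_injective₀ ω.out.ne_zero)
  have hY : met K A' = (met K A).map (Equiv.mulLeft ω).toEmbedding := by
    ext x
    simp only [mem_met, mem_map, Equiv.coe_toEmbedding, Equiv.coe_mulLeft]
    constructor
    · rintro ⟨u, rfl, v, hv, huv⟩
      have huv' : (ω.out : E) * v = u := huv
      refine ⟨((ω.out⁻¹ * u : Eˣ) : Q K E), ⟨_, rfl, ?_⟩, ?_⟩
      · rw [Units.val_mul, ← huv', Units.inv_mul_cancel_left]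
        exact hv
      · simp
    · rintro ⟨y, ⟨u, rfl, hu⟩, rfl⟩
      exact ⟨ω.out * u, by simp, u, hu, rfl⟩
  have hYc : #(met K A') = #(met K A) := by rw [hY, card_map]
  have hdisj : Disjoint (met K A) (met K A') := by
    rw [disjoint_left]
    intro x hx hx'
    rw [hY, mem_map] at hx'
    obtain ⟨y, hy, rfl⟩ := hx'
    apply hω
    rw [hH] at hx hy ⊢
    simpa using H.mul_mem hx (H.inv_mem hy)
  have hZ : #(univ \ (met K A ∪ met K A')) + 2 * #(met K A) = Fintype.card (Q K E) := by
    rw [← card_univ, ← card_sdiff_add_card_eq_card (subset_univ (met K A ∪ met K A')),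
      card_union_of_disjoint hdisj, hYc, two_mul]
  refine ⟨⟨on, met K A, met K A', c1, fun x => ?_, fun x y h => ?_, c2, hdisj,
    hmeet A hU1, hmeet A' (hA' ▸ hU1), hXodd, hYc ▸ hXodd, ?_, hX3, hYc ▸ hX3, by omega⟩⟩
  · rw [← c1 x]
    congr 1
    ext l
    simp [hsym x]
  · rw [← c2 x y h]
    congr 1
    ext l
    simp [hsym x, hsym y]
  · rw [← hZ] at codd
    exact (Nat.odd_add.mp codd).mpr (even_two_mul _)

omit [Fintype (Q K E)] [DecidableEq (Q K E)] in
theorem roots_le {n : ℕ} (hn : 2 ≤ n) (c : E) : #{x : E | x ^ n = c * x} ≤ n := by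
  open Polynomial in
  have h0 : (X ^ n - C c * X : E[X]).natDegree = n := by
    rw [natDegree_sub_eq_left_of_natDegree_lt, natDegree_X_pow]
    rw [natDegree_X_pow]
    exact lt_of_le_of_lt (natDegree_C_mul_le _ _) (by rw [natDegree_X]; omega)
  have h1 : (Polynomial.X ^ n - Polynomial.C c * Polynomial.X : Polynomial E) ≠ 0 := by
    intro h
    rw [h, Polynomial.natDegree_zero] at h0
    omega
  refine le_trans ?_ ((Polynomial.card_roots' _).trans h0.le)
  refine le_trans (card_le_card fun x hx => ?_) (Multiset.toFinset_card_le _)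
  rw [Multiset.mem_toFinset, Polynomial.mem_roots h1]
  simpa [sub_eq_zero] using hx

omit [Fintype (Q K E)] [DecidableEq (Q K E)] in
theorem exists_U {p : ℕ} [Fact p.Prime] [CharP E p] {m : ℕ} (hm : m ≠ 0)
    (hE : Nat.card E = p ^ m * p ^ m) : ∃ U : Subfield E, Nat.card U = p ^ m := by
  classical
  have hp : 2 ≤ p ^ m := Nat.one_lt_pow hm (Fact.out : p.Prime).one_lt
  let F := iterateFrobenius E p m
  have hF : ∀ x, F x = x ^ p ^ m := fun x => iterateFrobenius_def p m x
  let U := F.eqLocusField (RingHom.id E)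
  have hU : Nat.card U ≤ p ^ m := by
    rw [Nat.card_eq_fintype_card, Fintype.card_subtype]
    refine le_trans (card_le_card fun x hx => ?_) (roots_le hp 1)
    simpa [U, hF] using hx
  refine ⟨U, le_antisymm hU ?_⟩
  let T : E →+ E := AddMonoidHom.id E + F.toAddMonoidHom
  have hT : ∀ x, T x = x + F x := fun x => rfl
  have h1 : Nat.card T.ker ≤ p ^ m := by
    rw [Nat.card_eq_fintype_card, Fintype.card_subtype]
    refine le_trans (card_le_card fun x hx => ?_) (roots_le hp (-1))
    simp only [mem_filter, mem_univ, true_and, AddMonoidHom.mem_ker, hT, hF] at hx ⊢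
    linear_combination hx
  have h2 : T.range ≤ U.toAddSubgroup := by
    rintro _ ⟨x, rfl⟩
    change F (T x) = T x
    rw [hT, map_add, hF (F x), hF x, ← pow_mul, ← hE, Nat.card_eq_fintype_card,
      FiniteField.pow_card, add_comm]
  have h3 := AddSubgroup.card_le_of_le h2
  have h4 := AddSubgroup.card_eq_card_quotient_mul_card_addSubgroup T.ker
  rw [Nat.card_congr (QuotientAddGroup.quotientKerEquivRange T).toEquiv, hE] at h4
  have h5 : p ^ m * p ^ m ≤ Nat.card U * p ^ m := h4 ▸ Nat.mul_le_mul h3 h1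
  exact Nat.le_of_mul_le_mul_right h5 (by omega)

end Pl

theorem plane : PlaneStmt := by
  intro p q0 hp
  classical
  have : Fact p.Prime := ⟨hp⟩
  let K := GaloisField p (2 * (q0 + 1))
  let E := FiniteField.Extension K p 3
  have : Fintype E := Fintype.ofFinite E
  have : Fintype (Pl.Q K E) := Fintype.ofFinite _
  have : CharP E p := charP_of_injective_algebraMap (algebraMap K E).injective p
  have hK : Nat.card K = p ^ (2 * (q0 + 1)) := GaloisField.card p _ (by omega)
  obtain ⟨U, hU⟩ := Pl.exists_U (E := E) (p := p) (m := 3 * (q0 + 1)) (by omega) (by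
    rw [FiniteField.natCard_extension, hK, ← pow_mul, ← pow_add]
    congr 1
    ring)
  have hr : 2 ≤ p ^ (q0 + 1) := Nat.one_lt_pow (by omega) hp.one_lt
  replace hK : Nat.card K = (p ^ (q0 + 1)) ^ 2 := by rw [hK, mul_comm, pow_mul]
  replace hU : Nat.card U = (p ^ (q0 + 1)) ^ 3 := by rw [hU, mul_comm, pow_mul]
  refine ⟨Nat.card K, Pl.Q K E, Pl.Q K E, inferInstance, inferInstance, inferInstance, ?_, ?_,
    Pl.plane (FiniteField.finrank_extension K p 3) U ?_ ?_⟩
  · have := Nat.lt_pow_self (n := q0 + 1) hp.one_lt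
    rw [hK]
    nlinarith
  · rw [hK]
    exact dvd_pow (dvd_pow_self p (by omega)) (by omega)
  · rw [hK, hU]
    exact Nat.pow_lt_pow_right hr (by omega)
  · rw [hK, hU]
    generalize p ^ (q0 + 1) = r at hr
    have : 2 * r ^ 3 ≤ r * r ^ 3 := Nat.mul_le_mul_right _ hr
    nlinarith

end Crest.Agent.KP
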