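import Crest.Agent.KP.Stmts

/-! # KP: populations from a design -/

set_option autoImplicit false

namespace Crest.Agent.KP

open Finset

namespace PopAux

variable {p : ℕ} {S ι : Type} [Fintype S] [DecidableEq S] [Fintype ι] {lb : Lab S}
  (D : Design p S ι lb)

/-- Family used by a class. -/
def fam (c : Fin 3) : Bool := decide (c = 1)

/-- Grade flip. -/
def fl (c : Fin 3) (s : S) : Bool := if c = 1 then decide (s ∉ D.sp true) else decide (s ∈ D.sp true)

lemma op_mem (e : Bool) (s : S) : lb.op s ∈ D.sp e ↔ s ∈ D.sp e := by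
  refine ⟨fun h => ?_, D.sp_op e s⟩
  have := D.sp_op e _ h
  rwa [lb.op_op] at this

lemma fl_op (c : Fin 3) (s : S) : fl D c (lb.op s) = fl D c s := by
  simp only [fl, op_mem]

/-- The frame. -/
noncomputable def frame : Frame S (Fin 3 × Bool) (Fin 3) lb where
  tr κ s := (κ.1, xor κ.2 (fl D κ.1 s))
  tr_tr κ s := by
    rcases κ with ⟨c, e⟩
    simp [fl_op]
  cls κ := κ.1
  cls_tr _ _ := rfl
  F1 c s := ((∑ i with s ∈ D.blk (fam c) i, D.wt (fam c) i : ℕ) : ℝ)
  F2 c x y := ((∑ i with x ∈ D.blk (fam c) i ∧ y ∈ D.blk (fam c) i, D.wt (fam c) i : ℕ) : ℝ)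
  ψ c := D.ψ (fam c)
  F1_pos c s := by exact_mod_cast D.f1_pos (fam c) s
  F1_op c s := by rw [D.f1_op]
  F2_nonneg c x y := Nat.cast_nonneg _
  F2_symm c x y := by simp only [and_comm]
  ψ_pos c s := D.ψ_pos _ _
  sub c x := D.sub _ _

/-- Vertices. -/
abbrev V (n : ℕ) : Type :=
  (Σ κ : (Fin 3 × Bool) × ι, Fin (n * D.wt (fam κ.1.1) κ.2)) ⊕ Bool

def L (n : ℕ) : V D n → Finset S
  | Sum.inl v => D.blk (fam v.1.1.1) v.1.2
  | Sum.inr e => D.sp e

def col (n : ℕ) : V D n → Fin 3 × Bool
  | Sum.inl v => v.1.1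
  | Sum.inr e => (cond e 1 0, false)

lemma count (n : ℕ) (Q : Finset S → Prop) [DecidablePred Q] (κ : Fin 3 × Bool) :
    #{v : V D n | col D n v = κ ∧ Q (L D n v)} =
      n * (∑ i with Q (D.blk (fam κ.1) i), D.wt (fam κ.1) i) +
        ((if κ = (1, false) ∧ Q (D.sp true) then 1 else 0) +
          if κ = (0, false) ∧ Q (D.sp false) then 1 else 0) := by
  classical
  rw [card_filter, Fintype.sum_sum_type, Fintype.sum_sigma, Fintype.sum_prod_type,
    Fintype.sum_bool]
  congr 1
  · rw [sum_eq_single κ]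
    · rw [mul_sum, sum_filter]
      refine sum_congr rfl fun i _ => ?_
      simp only [col, L, true_and]
      split_ifs <;> simp
    · intro κ' _ hne
      refine sum_eq_zero fun i _ => sum_eq_zero fun j _ => ?_
      simp [col, hne]
    · simp
  · simp only [col, L, cond_true, cond_false, eq_comm (a := κ)]
    congr

lemma pop (n : ℕ) : Pop (frame D) n (L D n) (col D n) where
  bal κ s := by
    rcases κ with ⟨c, e⟩
    have hd : s ∈ D.sp false → s ∉ D.sp true := fun h => disjoint_left.1 D.disj h
    unfold N1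
    rw [count D n (fun A => s ∈ A), count D n (fun A => lb.op s ∈ A)]
    simp only [frame, D.f1_op, op_mem, fl]
    congr 1
    by_cases h1 : s ∈ D.sp true <;> by_cases h0 : s ∈ D.sp false
    · exact absurd h1 (hd h0)
    all_goals fin_cases c <;> cases e <;> simp [h0, h1]
  low κ s := by
    unfold N1
    rw [count D n (fun A => s ∈ A)]
    simp only [frame]
    exact_mod_cast Nat.le_add_right _ _
  up κ x y _ := by
    unfold N2
    rw [count D n (fun A => x ∈ A ∧ y ∈ A)]
    simp only [frame]
    rw [← Nat.cast_succ, ← Nat.cast_mul, Nat.cast_le, Nat.succ_mul, Nat.add_le_add_iff_left]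
    split_ifs with h1 h0 h0
    · exact absurd (h1.1.symm.trans h0.1) (by decide)
    · obtain ⟨rfl, hx, hy⟩ := h1
      exact D.f2_pos true x y hx hy
    · obtain ⟨rfl, hx, hy⟩ := h0
      exact D.f2_pos false x y hx hy
    · exact Nat.zero_le _

end PopAux

open PopAux in
theorem pop : PopStmt := by
  classical
  intro p S ι _ _ _ lb D
  refine ⟨S, inferInstance, inferInstance, lb, frame D,
    (∑ κ : (Fin 3 × Bool) × ι, D.wt (fam κ.1.1) κ.2) + 2, D.ne, fun _ => rfl, ?_, ?_⟩
  · rintro ⟨c, e⟩ ⟨c', e'⟩ s h h'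
    simp only at h h'
    subst h'
    simp only [frame, fl, h, if_true, if_false]
    by_cases hs : s ∈ D.sp true <;> cases e <;> cases e' <;> simp [hs]
  · intro n hn
    obtain ⟨s⟩ := D.ne
    obtain ⟨i, -, hi⟩ := exists_ne_zero_of_sum_ne_zero (D.f1_pos false s).ne'
    have hpos : 0 < n * D.wt (fam 2) i := Nat.mul_pos hn (Nat.pos_of_ne_zero hi)
    refine ⟨V D n, inferInstance, inferInstance, L D n, col D n, Sum.inr false, Sum.inr true,
      Sum.inl ⟨((2, false), i), ⟨0, hpos⟩⟩, PopAux.pop D n, ?_, rfl, rfl, rfl, D.disj, ?_⟩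
    · rw [Fintype.card_sum, Fintype.card_sigma, Fintype.card_bool, add_mul, sum_mul]
      refine add_le_add (le_of_eq (sum_congr rfl fun κ _ => ?_)) (by omega)
      rw [Fintype.card_fin, mul_comm]
    · rintro (u | e) (v | e') hu hv hne
      · simp only [col] at hu hv
        simp only [L, fam, hu, hv, decide_true, decide_false]
        exact D.inter _ _
      · cases e'
        · simp [col] at hv
        · simp only [col] at hu
          simp only [L, fam, hu, decide_false]
          exact D.inter_y _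
      · cases e
        · simp only [col] at hv
          simp only [L, fam, hv, decide_true]
          exact D.inter_x _
        · simp [col] at hu
      · cases e <;> cases e' <;> simp [col] at hu hv hne

end Crest.Agent.KP
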