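import Crest.Agent.KP.ProbA

/-! PROB: counting by switchings and the union bound. -/

set_option autoImplicit false

namespace Crest.Agent.KP

open Finset

namespace Prob

variable {S V Col : Type} [Fintype S] [DecidableEq S] [Fintype V] [DecidableEq V] [DecidableEq Col]
variable {lb : Lab S} {L : V → Finset S} {col : V → Col} {tr : Col → S → Col}

lemma exists_match (htr : ∀ κ s, tr (tr κ s) (lb.op s) = κ)
    (hbal : ∀ κ s, N1 L col κ s = N1 L col (tr κ s) (lb.op s)) (s : S) :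
    ∃ φ ψ : V → V,
      (∀ v, s ∈ L v → lb.op s ∈ L (φ v) ∧ ψ (φ v) = v ∧ col (φ v) = tr (col v) s) ∧
      (∀ v, lb.op s ∈ L v → s ∈ L (ψ v) ∧ φ (ψ v) = v ∧ col (ψ v) = tr (col v) (lb.op s)) := by
  have hiff : ∀ κ κ', tr κ' (lb.op s) = κ ↔ κ' = tr κ s := fun κ κ' =>
    ⟨fun h => by have := htr κ' (lb.op s); rw [lb.op_op, h] at this; exact this.symm,
      fun h => by rw [h, htr]⟩
  have hcard : ∀ κ, Fintype.card {a : {v // s ∈ L v} // col a.1 = κ} =
      Fintype.card {b : {v // lb.op s ∈ L v} // tr (col b.1) (lb.op s) = κ} := by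
    intro κ
    rw [Fintype.card_congr (Equiv.subtypeSubtypeEquivSubtypeInter _ (fun v => col v = κ)),
      Fintype.card_congr (Equiv.subtypeSubtypeEquivSubtypeInter _
        (fun v => tr (col v) (lb.op s) = κ)), Fintype.card_subtype, Fintype.card_subtype]
    have := hbal κ s
    simp only [N1] at this
    simp only [hiff]
    simpa only [and_comm] using this
  set e : {v // s ∈ L v} ≃ {v // lb.op s ∈ L v} :=
    Equiv.ofFiberEquiv (f := fun a => col a.1) (g := fun b => tr (col b.1) (lb.op s))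
      fun κ => Fintype.equivOfCardEq (hcard κ) with he
  have hmap : ∀ a, tr (col (e a).1) (lb.op s) = col a.1 := fun a =>
    Equiv.ofFiberEquiv_map (f := fun a : {v // s ∈ L v} => col a.1)
      (g := fun b : {v // lb.op s ∈ L v} => tr (col b.1) (lb.op s)) _ a
  refine ⟨fun v => if h : s ∈ L v then (e ⟨v, h⟩).1 else v,
    fun v => if h : lb.op s ∈ L v then (e.symm ⟨v, h⟩).1 else v, fun v hv => ?_, fun v hv => ?_⟩
  · simp only [dif_pos hv, dif_pos (e ⟨v, hv⟩).2, Subtype.coe_eta, Equiv.symm_apply_apply, true_and]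
    exact ⟨(e ⟨v, hv⟩).2, (hiff _ _).1 (hmap ⟨v, hv⟩)⟩
  · simp only [dif_pos hv, dif_pos (e.symm ⟨v, hv⟩).2, Subtype.coe_eta, Equiv.apply_symm_apply,
      true_and]
    refine ⟨(e.symm ⟨v, hv⟩).2, ?_⟩
    have := hmap (e.symm ⟨v, hv⟩)
    rw [Equiv.apply_symm_apply] at this
    exact this.symm

lemma exists_ok (htr : ∀ κ s, tr (tr κ s) (lb.op s) = κ)
    (hbal : ∀ κ s, N1 L col κ s = N1 L col (tr κ s) (lb.op s)) : ∃ f, Ok lb L col tr f := by
  choose φ ψ h1 h2 using exists_match htr hbal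
  refine ⟨fun v t => if t ∈ L v then (if lb.pos t = true then φ t v else ψ (lb.op t) v) else v,
    fun v t ht => ?_, fun v t ht => ?_, fun v t ht => ?_, fun v t ht => if_neg ht⟩
  · rw [if_pos ht]
    split_ifs
    · exact (h1 t v ht).1
    · exact (h2 (lb.op t) v (by rwa [lb.op_op])).1
  · rw [if_pos ht]
    by_cases h : lb.pos t = true
    · rw [if_pos h, if_pos (h1 t v ht).1, if_neg (by simp [lb.pos_op, h]), lb.op_op]
      exact (h1 t v ht).2.1
    · have := h2 (lb.op t) v (by rwa [lb.op_op])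
      rw [if_neg h, if_pos this.1, if_pos (by simpa [lb.pos_op] using h)]
      exact this.2.1
  · rw [if_pos ht]
    split_ifs
    · exact (h1 t v ht).2.2
    · simpa [lb.op_op] using (h2 (lb.op t) v (by rwa [lb.op_op])).2.2

open Classical in
/-- admissible partners for a switching -/
noncomputable def gd (L : V → Finset S) (col : V → Col) (g : ℕ) (f : V → S → V) (a : V) (s : S)
    (X : Finset V) : Finset V :=
  {w | col w = col a ∧ s ∈ L w ∧ ¬ Nr f g a w ∧ ¬ Nr f g (f a s) w ∧ w ∉ X}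

lemma card_gd (g : ℕ) (f : V → S → V) (a : V) (s : S) (X : Finset V) :
    N1 L col (col a) s ≤ #(gd L col g f a s X) + (#X + 2 * (Fintype.card S + 1) ^ g) := by
  classical
  have : ({v : V | col v = col a ∧ s ∈ L v} : Finset V) ⊆ gd L col g f a s X ∪
      (X ∪ (({y | Nr f g a y} : Finset V) ∪ ({y | Nr f g (f a s) y} : Finset V))) := by
    intro v hv
    have := (mem_filter.1 hv).2
    simp only [gd, mem_union, mem_filter, mem_univ, true_and]
    tauto
  refine (card_le_card this).trans ((card_union_le _ _).trans (Nat.add_le_add_left ?_ _))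
  refine (card_union_le _ _).trans (Nat.add_le_add_left ((card_union_le _ _).trans ?_) _)
  have h1 := card_Nr f a g
  have h2 := card_Nr f (f a s) g
  omega

lemma exists_gir (g : ℕ) (h0 : ∃ f, Ok lb L col tr f)
    (hN : ∀ v s, s ∈ L v → 2 * (Fintype.card S + 1) ^ g < N1 L col (col v) s) :
    ∀ h, h ≤ g → ∃ f, Ok lb L col tr f ∧ Gir lb L f h := by
  classical
  intro h
  induction h with
  | zero => intro _; obtain ⟨f, hf⟩ := h0; exact ⟨f, hf, fun k p hk => absurd hk (by omega)⟩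
  | succ h ih =>
    intro hg
    set bad : (V → S → V) → Finset (V × S) := fun f => {x | ∃ p, Cl lb L f h p ∧ p 0 = x} with hbad
    obtain ⟨f₀, hf₀⟩ := ih (by omega)
    obtain ⟨f, hf, hmin⟩ := exists_min_image
      ({f | Ok lb L col tr f ∧ Gir lb L f h} : Finset (V → S → V)) (fun f => #(bad f))
      ⟨f₀, by simpa using hf₀⟩
    obtain ⟨hf1, hf2⟩ := (mem_filter.1 hf).2
    refine ⟨f, hf1, fun k p hk hp => ?_⟩
    rcases Nat.lt_succ_iff_lt_or_eq.1 hk with hk | rfl
    · exact hf2 k p hk hp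
    have ha : (p 0).2 ∈ L (p 0).1 := hp.2.1.1 0 hp.1
    have h1 := card_gd (L := L) (col := col) g f (p 0).1 (p 0).2 ∅
    have h2 := hN _ _ ha
    obtain ⟨w, hw⟩ : (gd L col g f (p 0).1 (p 0).2 ∅).Nonempty := by
      rw [← card_pos]; rw [card_empty] at h1; omega
    obtain ⟨w1, w2, w3, w4, -⟩ := (mem_filter.1 hw).2
    have h3 := hmin (sw lb L (p 0).1 w (p 0).2 f) (mem_filter.2 ⟨mem_univ _, sw_ok hf1 ha w2 w1,
      fun k' p' hk' hp' => hf2 k' p' hk' (sw_cl hf1 hf2 ha w2 w3 w4 hk'.le (by omega) hp').1⟩)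
    have h4 : bad (sw lb L (p 0).1 w (p 0).2 f) ⊂ bad f := by
      refine ⟨fun x hx => ?_, fun hsub => ?_⟩
      · obtain ⟨p', hp', e⟩ := (mem_filter.1 hx).2
        exact mem_filter.2 ⟨mem_univ _, p', (sw_cl hf1 hf2 ha w2 w3 w4 le_rfl (by omega) hp').1, e⟩
      · obtain ⟨p', hp', e⟩ := (mem_filter.1 (hsub (mem_filter.2 ⟨mem_univ _, p, hp, rfl⟩))).2
        exact (sw_cl hf1 hf2 ha w2 w3 w4 le_rfl (by omega) hp').2 e
    have := card_lt_card h4
    omega

open Classical in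
/-- structures of girth `g` realising `Z` -/
noncomputable def RR (lb : Lab S) (L : V → Finset S) (col : V → Col) (tr : Col → S → Col) (g : ℕ)
    (Z : Finset (V × S × V)) : Finset (V → S → V) :=
  {f | Ok lb L col tr f ∧ Gir lb L f g ∧ ∀ z ∈ Z, f z.1 z.2.1 = z.2.2}

lemma step (g : ℕ) (Z : Finset (V × S × V)) (hZ : ∀ z ∈ Z, lb.pos z.2.1 = true)
    (z : V × S × V) (hz : z ∉ Z) (hp : lb.pos z.2.1 = true) (hL : z.2.1 ∈ L z.1) :
    #(RR lb L col tr g (insert z Z)) * N1 L col (col z.1) z.2.1 ≤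
      #(RR lb L col tr g Z) +
        #(RR lb L col tr g (insert z Z)) * (#Z + 2 * (Fintype.card S + 1) ^ g) := by
  classical
  obtain ⟨a, s, b⟩ := z
  dsimp only at hp hL ⊢
  set R := RR lb L col tr g (insert (a, s, b) Z) with hR
  set X := Z.image Prod.fst with hX
  have hne := op_ne lb s
  have h1 : #(R.sigma fun f => gd L col g f a s X) ≤ #(RR lb L col tr g Z) := by
    refine card_le_card_of_injOn (fun q => sw lb L a q.2 s q.1) (fun q hq => ?_)
      (fun q hq q' hq' e => ?_)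
    · obtain ⟨hq1, hq2⟩ := mem_sigma.1 hq
      obtain ⟨f1, f2, f3⟩ := (mem_filter.1 hq1).2
      obtain ⟨w1, w2, w3, w4, w5⟩ := (mem_filter.1 hq2).2
      refine mem_filter.2 ⟨mem_univ _, sw_ok f1 hL w2 w1,
        fun k p hk hp' => f2 k p hk (sw_cl f1 f2 hL w2 w3 w4 hk.le hk hp').1, fun y hy => ?_⟩
      have e := f3 y (mem_insert_of_mem hy)
      rw [← e]
      refine sw_old f1 a q.2 s (y.1, y.2.1) ?_
      have hpos := hZ y hy
      have hop : y.2.1 ≠ lb.op s := fun h => by rw [h, lb.pos_op, hp] at hpos; simp at hpos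
      simp only [ch, Set.mem_insert_iff, Prod.mk.injEq, Set.mem_singleton_iff, hop, and_false,
        or_false, false_or, not_or, not_and]
      refine ⟨fun h1 h2 => hz ?_, fun h1 _ => w5 (mem_image.2 ⟨y, hy, h1⟩)⟩
      have e' := f3 _ (mem_insert_self _ _)
      dsimp only at e'
      rw [h1, h2, e'] at e
      rwa [← h1, ← h2, e]
    · have key : ∀ q ∈ R.sigma fun f => gd L col g f a s X,
          sw lb L a q.2 s q.1 b (lb.op s) = q.2 := by
        intro q hq
        obtain ⟨f1, -, f3⟩ := (mem_filter.1 (mem_sigma.1 hq).1).2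
        have e' : q.1 a s = b := f3 _ (mem_insert_self _ _)
        rw [← e']
        simp [sw, hne, f1.mem _ _ hL, f1.inv _ _ hL]
      dsimp only at e
      have e2 : q.2 = q'.2 := by rw [← key q hq, ← key q' hq', e]
      have e1 : q.1 = q'.1 := by
        rw [← sw_sw (lb := lb) (L := L) a q.2 s q.1, e, e2, sw_sw]
      exact Sigma.ext e1 (heq_of_eq e2)
  rw [card_sigma] at h1
  have h2 : #X ≤ #Z := card_image_le
  calc #R * N1 L col (col a) s = ∑ _f ∈ R, N1 L col (col a) s := by simp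
    _ ≤ ∑ f ∈ R, (#(gd L col g f a s X) + (#Z + 2 * (Fintype.card S + 1) ^ g)) :=
        sum_le_sum fun f _ => (card_gd g f a s X).trans (by omega)
    _ ≤ _ := by rw [sum_add_distrib]; simp only [sum_const, smul_eq_mul]; omega

lemma count (g M : ℕ)
    (hN : ∀ v s, s ∈ L v → M + 2 * (Fintype.card S + 1) ^ g < N1 L col (col v) s)
    (Z : Finset (V × S × V)) : #Z ≤ M → (∀ z ∈ Z, lb.pos z.2.1 = true ∧ z.2.1 ∈ L z.1) →
    (#(RR lb L col tr g Z) : ℝ) *
      ∏ z ∈ Z, ((N1 L col (col z.1) z.2.1 : ℝ) - (M + 2 * (Fintype.card S + 1) ^ g)) ≤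
      #(RR lb L col tr g ∅) := by
  induction Z using Finset.induction_on with
  | empty => simp
  | insert z Z hz ih =>
    intro hM hZ
    rw [card_insert_of_notMem hz] at hM
    have hZ' : ∀ y ∈ Z, lb.pos y.2.1 = true ∧ y.2.1 ∈ L y.1 := fun y hy =>
      hZ y (mem_insert_of_mem hy)
    refine le_trans ?_ (ih (by omega) hZ')
    rw [prod_insert hz, ← mul_assoc]
    refine mul_le_mul_of_nonneg_right ?_ (prod_nonneg fun y hy => ?_)
    · have h1 := step (L := L) (col := col) (tr := tr) g Z (fun y hy => (hZ' y hy).1) z hz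
        (hZ z (mem_insert_self _ _)).1 (hZ z (mem_insert_self _ _)).2
      have h2 : (#(RR lb L col tr g (insert z Z)) : ℝ) * N1 L col (col z.1) z.2.1 ≤
          #(RR lb L col tr g Z) +
            #(RR lb L col tr g (insert z Z)) * (M + 2 * (Fintype.card S + 1) ^ g) := by
        exact_mod_cast h1.trans (Nat.add_le_add_left (Nat.mul_le_mul_left _ (by omega)) _)
      linarith
    · have : ((M + 2 * (Fintype.card S + 1) ^ g : ℕ) : ℝ) < N1 L col (col y.1) y.2.1 := by
        exact_mod_cast hN _ _ (hZ' y hy).2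
      push_cast at this
      linarith

end Prob

open Prob in
theorem prob : ProbStmt := by
  intro S V Col _ _ _ _ _ lb L col tr g M htr hbal hN Ξ _ W Z hW
  classical
  obtain ⟨f₀, hf₀⟩ := exists_gir g (exists_ok htr hbal)
    (fun v s h => lt_of_le_of_lt (Nat.le_add_left _ _) (hN v s h)) g le_rfl
  set Ω := RR lb L col tr g ∅ with hΩ
  set T := ∑ ξ', W ξ' with hT
  set P : Ξ → ℝ := fun ξ =>
    ∏ z ∈ Z ξ, ((N1 L col (col z.1) z.2.1 : ℝ) - (M + 2 * (Fintype.card S + 1) ^ g)) with hP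
  set bad : Finset Ξ := {ξ | #(Z ξ) ≤ M ∧ (∀ z ∈ Z ξ, lb.pos z.2.1 = true ∧ z.2.1 ∈ L z.1) ∧
    2 * T < W ξ * P ξ} with hbad
  have hΩ0 : f₀ ∈ Ω := mem_filter.2 ⟨mem_univ _, hf₀.1, hf₀.2, by simp⟩
  have hT0 : 0 ≤ T := sum_nonneg fun ξ _ => hW ξ
  have key : ∃ f ∈ Ω, ∀ ξ ∈ bad, f ∉ RR lb L col tr g (Z ξ) := by
    by_contra hcon
    push Not at hcon
    have h1 : #Ω ≤ ∑ ξ ∈ bad, #(RR lb L col tr g (Z ξ)) :=
      (card_le_card fun f hf => mem_biUnion.2 (hcon f hf)).trans card_biUnion_le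
    have h2 : (#Ω : ℝ) ≤ ∑ ξ ∈ bad, (#(RR lb L col tr g (Z ξ)) : ℝ) := by exact_mod_cast h1
    have h3 : ∀ ξ ∈ bad, (#(RR lb L col tr g (Z ξ)) : ℝ) * (2 * T) ≤ W ξ * #Ω := by
      intro ξ hξ
      obtain ⟨b1, b2, b3⟩ := (mem_filter.1 hξ).2
      have := mul_le_mul_of_nonneg_left (count (tr := tr) g M hN (Z ξ) b1 b2) (hW ξ)
      calc _ ≤ (#(RR lb L col tr g (Z ξ)) : ℝ) * (W ξ * P ξ) :=
            mul_le_mul_of_nonneg_left b3.le (Nat.cast_nonneg _)
        _ = _ := by ring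
        _ ≤ _ := this
    have h4 := sum_le_sum h3
    rw [← sum_mul, ← sum_mul] at h4
    have h5 : ∑ ξ ∈ bad, W ξ ≤ T :=
      sum_le_sum_of_subset_of_nonneg (subset_univ _) fun ξ _ _ => hW ξ
    have h6 : (0 : ℝ) < #Ω := by exact_mod_cast card_pos.2 ⟨f₀, hΩ0⟩
    obtain ⟨ξ, hξ, -⟩ := hcon f₀ hΩ0
    have h7 : W ξ ≤ T := single_le_sum (fun ξ _ => hW ξ) (mem_univ ξ)
    have h8 := (mem_filter.1 hξ).2.2.2
    have h9 : 0 < T := by
      rcases hT0.eq_or_lt with h | h
      · have : W ξ = 0 := le_antisymm (by linarith) (hW ξ)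
        rw [this] at h8; linarith
      · exact h
    nlinarith [mul_le_mul_of_nonneg_right h2 (show 0 ≤ 2 * T by linarith),
      mul_le_mul_of_nonneg_right h5 h6.le, mul_pos h9 h6]
  obtain ⟨f, hf, hgood⟩ := key
  obtain ⟨f1, f2, -⟩ := (mem_filter.1 hf).2
  refine ⟨⟨f, f1.mem, f1.inv⟩, f1.cl, fun k p hk hkg hp hc => f2 k p hkg ⟨hk, hp, hc⟩,
    fun ξ hM hZ => ?_⟩
  by_contra hlt
  exact hgood ξ (mem_filter.2 ⟨mem_univ _, hM, fun z hz => ⟨(hZ z hz).1, (hZ z hz).2.1⟩,
    not_le.1 hlt⟩) (mem_filter.2 ⟨mem_univ _, f1, f2, fun z hz => (hZ z hz).2.2⟩)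

end Crest.Agent.KP
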