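import Crest.Agent.KP.Stmts

/-! # KP: from triangle diagrams to rim maps -/

set_option autoImplicit false

namespace Crest.Agent.KP

open Finset

namespace RimAux

lemma countP_eq {α : Type} (P : α → Bool) (l : List α) :
    l.countP P = #{j : Fin l.length | P l[j] = true} := by
  induction l with
  | nil => simp
  | cons a l ih =>
    rw [List.countP_cons, ih, card_filter, card_filter]
    simp only [List.length_cons]
    rw [Fin.sum_univ_succ]
    simp [add_comm]

lemma card_le_countP {α T U : Type} [DecidableEq T] (P : α → Bool) (l : List α) (A : Finset T)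
    (f : T → U ⊕ Fin l.length) (hf : Function.Injective f)
    (h : ∀ t ∈ A, ∃ j, f t = Sum.inr j ∧ P l[j] = true) : #A ≤ l.countP P := by
  classical
  rw [countP_eq, ← card_image_of_injective A hf,
    ← card_image_of_injective {j : Fin l.length | P l[j] = true} (Sum.inr_injective (α := U))]
  refine card_le_card fun x hx => ?_
  obtain ⟨t, ht, rfl⟩ := mem_image.1 hx
  obtain ⟨j, hj, hP⟩ := h t ht
  exact mem_image.2 ⟨j, by simpa using hP, hj.symm⟩

variable {S V : Type} {lb : Lab S} {L : V → Finset S} {Γ : LGraph lb L}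
  {l : List (({s : S // lb.pos s = true} ⊕ V) × Bool)} {T : Type} (D : Γ.pres.TDiag l T)

/-- The dart of a triangle. -/
def dart (t : T) : V × S := cond (D.sg t) (D.rl t).1 (Γ.rev (D.rl t).1)

/-- The letter of a side. -/
def ltr (s : (T × Fin 3) ⊕ Fin l.length) : ({s : S // lb.pos s = true} ⊕ V) × Bool :=
  (Γ.pres.sideEdge l D.rl D.sg D.pot s).2

lemma ltr_α (s : (T × Fin 3) ⊕ Fin l.length) :
    ltr D (D.α s) = ((ltr D s).1, !(ltr D s).2) := by
  simp only [ltr, D.glue, TriPres.revE]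

lemma ltr0 (t : T) : ltr D (Sum.inl (t, 0)) = (Sum.inr (dart D t).1, true) := by
  simp only [ltr, TriPres.sideEdge, dart]
  cases D.sg t <;> rfl

lemma ltr1 (t : T) :
    ltr D (Sum.inl (t, 1)) = (Sum.inl ⟨(D.rl t).1.2, (D.rl t).2.2⟩, D.sg t) := by
  simp only [ltr, TriPres.sideEdge]
  cases D.sg t <;> rfl

lemma ltr2 (t : T) : ltr D (Sum.inl (t, 2)) = (Sum.inr (Γ.hd (dart D t)), false) := by
  simp only [ltr, TriPres.sideEdge, dart]
  cases D.sg t
  · simp only [cond_false, LGraph.hd, LGraph.rev, Γ.inv _ _ (D.rl t).2.1]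
    rfl
  · rfl

lemma ltr_out (j : Fin l.length) : ltr D (Sum.inr j) = (l[j].1, !l[j].2) := rfl

lemma valid (t : T) : (dart D t).2 ∈ L (dart D t).1 := by
  simp only [dart]
  cases D.sg t
  · exact Γ.mem _ _ (D.rl t).2.1
  · exact (D.rl t).2.1

lemma rev_rev (d : V × S) (h : d.2 ∈ L d.1) : Γ.rev (Γ.rev d) = d := by
  simp only [LGraph.rev, Γ.inv _ _ h, lb.op_op]

lemma of_rev {t t' : T} (h : dart D t' = Γ.rev (dart D t)) :
    D.rl t' = D.rl t ∧ D.sg t' ≠ D.sg t := by
  have h1 := (D.rl t).2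
  have h2 := (D.rl t').2
  have p1 := lb.pos_op (D.rl t).1.2
  have p2 := lb.pos_op (D.rl t').1.2
  simp only [dart] at h
  cases hs : D.sg t <;> cases hs' : D.sg t' <;> simp only [hs, hs', cond_true, cond_false] at h
  · rw [rev_rev _ h1.1] at h
    have := congrArg (fun d => lb.pos d.2) h
    simp [LGraph.rev, p2, h1.2, h2.2] at this
  · rw [rev_rev _ h1.1] at h
    exact ⟨Subtype.ext h, by simp⟩
  · have := congrArg Γ.rev h
    rw [rev_rev _ h1.1, rev_rev _ h2.1] at this
    exact ⟨Subtype.ext this, by simp⟩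
  · have := congrArg (fun d => lb.pos d.2) h
    simp [LGraph.rev, p1, h1.2, h2.2] at this

lemma fin3 (i : Fin 3) : i = 0 ∨ i = 1 ∨ i = 2 := by
  fin_cases i <;> simp

lemma α2 (t : T) : (∃ t', D.α (Sum.inl (t, 2)) = Sum.inl (t', 0)) ∨
    ∃ j, D.α (Sum.inl (t, 2)) = Sum.inr j := by
  have h := ltr_α D (Sum.inl (t, 2))
  rcases hs : D.α (Sum.inl (t, 2)) with ⟨t', i⟩ | j
  · rw [hs, ltr2] at h
    rcases fin3 i with rfl | rfl | rfl
    · exact Or.inl ⟨t', rfl⟩
    · simp [ltr1] at h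
    · simp [ltr2] at h
  · exact Or.inr ⟨j, rfl⟩

lemma α0 (t : T) : (∃ t', D.α (Sum.inl (t, 0)) = Sum.inl (t', 2)) ∨
    ∃ j, D.α (Sum.inl (t, 0)) = Sum.inr j := by
  have h := ltr_α D (Sum.inl (t, 0))
  rcases hs : D.α (Sum.inl (t, 0)) with ⟨t', i⟩ | j
  · rw [hs, ltr0] at h
    rcases fin3 i with rfl | rfl | rfl
    · simp [ltr0] at h
    · simp [ltr1] at h
    · exact Or.inl ⟨t', rfl⟩
  · exact Or.inr ⟨j, rfl⟩

lemma α1 (t : T) : (∃ t', D.α (Sum.inl (t, 1)) = Sum.inl (t', 1)) ∨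
    ∃ j, D.α (Sum.inl (t, 1)) = Sum.inr j := by
  have h := ltr_α D (Sum.inl (t, 1))
  rcases hs : D.α (Sum.inl (t, 1)) with ⟨t', i⟩ | j
  · rw [hs, ltr1] at h
    rcases fin3 i with rfl | rfl | rfl
    · simp [ltr0] at h
    · exact Or.inl ⟨t', rfl⟩
    · simp [ltr2] at h
  · exact Or.inr ⟨j, rfl⟩

lemma symm {s s' : (T × Fin 3) ⊕ Fin l.length} (h : D.α s = s') : D.α s' = s := by
  rw [← h, D.αα]

/-- The partial bijection given by gluing last sides to first sides. -/
noncomputable def eqv : {t : T // ∃ t', D.α (Sum.inl (t, 2)) = Sum.inl (t', 0)} ≃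
    {t' : T // ∃ t, D.α (Sum.inl (t', 0)) = Sum.inl (t, 2)} where
  toFun t := ⟨t.2.choose, t.1, symm D t.2.choose_spec⟩
  invFun t := ⟨t.2.choose, t.1, symm D t.2.choose_spec⟩
  left_inv t := by
    apply Subtype.ext
    have h1 := symm D t.2.choose_spec
    have h2 := (⟨t.1, h1⟩ : ∃ t', D.α (Sum.inl (t.2.choose, 0)) = Sum.inl (t', 2)).choose_spec
    have := h2.symm.trans h1
    simpa using this
  right_inv t := by
    apply Subtype.ext
    have h1 := symm D t.2.choose_spec
    have h2 := (⟨t.1, h1⟩ : ∃ t', D.α (Sum.inl (t.2.choose, 2)) = Sum.inl (t', 0)).choose_spec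
    have := h2.symm.trans h1
    simpa using this

lemma exists_φ [Fintype T] : ∃ φ : Equiv.Perm T, ∀ t,
    D.α (Sum.inl (t, 2)) = Sum.inl (φ t, 0) ∨
      ((∃ j, D.α (Sum.inl (t, 2)) = Sum.inr j) ∧ ∃ j, D.α (Sum.inl (φ t, 0)) = Sum.inr j) := by
  classical
  refine ⟨(eqv D).extendSubtype, fun t => ?_⟩
  by_cases h : ∃ t', D.α (Sum.inl (t, 2)) = Sum.inl (t', 0)
  · left
    rw [Equiv.extendSubtype_apply_of_mem (eqv D) t h]
    exact h.choose_spec
  · right
    exact ⟨(α2 D t).resolve_left h,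
      (α0 D _).resolve_left (Equiv.extendSubtype_not_mem (eqv D) t h)⟩

/-- The gluing of the label sides. -/
def gl (t : T) : T :=
  match D.α (Sum.inl (t, 1)) with
  | Sum.inl x => x.1
  | Sum.inr _ => t

lemma gl_spec (t : T) : (D.α (Sum.inl (t, 1)) = Sum.inl (gl D t, 1) ∧ gl D t ≠ t ∧
    (D.rl (gl D t)).1.2 = (D.rl t).1.2 ∧ D.sg (gl D t) = !D.sg t) ∨
    ((∃ j, D.α (Sum.inl (t, 1)) = Sum.inr j) ∧ gl D t = t) := by
  rcases α1 D t with ⟨t', h⟩ | ⟨j, h⟩
  · left
    have e : gl D t = t' := by simp [gl, h]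
    have h2 := ltr_α D (Sum.inl (t, 1))
    rw [h, ltr1, ltr1] at h2
    simp only [Prod.mk.injEq, Sum.inl.injEq, Subtype.mk.injEq] at h2
    rw [e]
    refine ⟨h, ?_, h2.1, h2.2⟩
    rintro rfl
    simpa using h2.2
  · right
    exact ⟨⟨j, h⟩, by simp [gl, h]⟩

end RimAux

open RimAux in
theorem rim : RimStmt := by
  classical
  intro S V lb L Γ l T _ _ D hP hR
  obtain ⟨φ, hφ⟩ := exists_φ D
  set cut : Finset T := {t : T | ∃ j, D.α (Sum.inl (t, 2)) = Sum.inr j} with hcut
  have hnc : ∀ t, t ∉ cut → D.α (Sum.inl (t, 2)) = Sum.inl (φ t, 0) := fun t ht =>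
    (hφ t).resolve_right fun h => ht (by simpa [hcut] using h.1)
  have hc : ∀ t, t ∈ cut → ∃ j, D.α (Sum.inl (φ t, 0)) = Sum.inr j := fun t ht => by
    rcases hφ t with h | h
    · simp [hcut, h] at ht
    · exact h.2
  have hc' : ∀ t, t ∈ cut → ∃ j, D.α (Sum.inl (φ t, 0)) = Sum.inr j ∧
      l[j] = (Sum.inr (dart D (φ t)).1, true) := fun t ht => by
    obtain ⟨j, hj⟩ := hc t ht
    refine ⟨j, hj, ?_⟩
    have h := ltr_α D (Sum.inl (φ t, 0))
    rw [hj, ltr0, ltr_out] at h
    simp only [Prod.mk.injEq, Bool.not_true, Bool.not_eq_eq_eq_not, Bool.not_false] at h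
    exact Prod.ext h.1 h.2
  have hαinj : Function.Injective D.α := Function.LeftInverse.injective D.αα
  let M : RMap Γ T :=
    { φ := φ
      α := gl D
      αα := fun t => by
        rcases gl_spec D t with h | h
        · have := symm D h.1
          rcases gl_spec D (gl D t) with h' | h'
          · simpa using h'.1.symm.trans this
          · obtain ⟨j, hj⟩ := h'.1
            simp [hj] at this
        · rw [h.2, h.2]
      d := dart D
      valid := valid D
      cut := cut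
      link := fun t ht => by
        have h := hnc t ht
        have h2 := ltr_α D (Sum.inl (t, 2))
        rw [h, ltr0, ltr2] at h2
        refine ⟨by simpa using h2, fun e => ?_⟩
        obtain ⟨e1, e2⟩ := of_rev D e
        exact e2 (hR t (φ t) 2 h e1)
      glue := fun t ht => by
        rcases gl_spec D t with h | h
        · refine ⟨?_, fun e => ?_⟩
          · simp only [dart, h.2.2.2]
            cases D.sg t <;> simp [LGraph.rev, h.2.2.1, lb.op_op]
          · obtain ⟨e1, e2⟩ := of_rev D e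
            exact e2 (hR t (gl D t) 1 h.1 e1)
        · exact absurd h.2 ht }
  refine ⟨M, ?_, ?_, ?_, ?_⟩
  · intro z y hz hz0 hy hy0
    change ∀ t, z (gl D t) = z t at hz
    change ∀ t, gl D t = t → z t = 0 at hz0
    change ∀ t, y (φ t) = y t + z t at hy
    change ∀ t ∈ cut, y (φ t) = 0 at hy0
    let Z : (T × Fin 3) ⊕ Fin l.length → ZMod 2 := fun s =>
      match s with
      | Sum.inl (t, i) => ![y t, z t, y t + z t] i
      | Sum.inr _ => 0
    have Z0 : ∀ t, Z (Sum.inl (t, 0)) = y t := fun _ => rfl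
    have Z1 : ∀ t, Z (Sum.inl (t, 1)) = z t := fun _ => rfl
    have Z2 : ∀ t, Z (Sum.inl (t, 2)) = y t + z t := fun _ => rfl
    have Zo : ∀ j, Z (Sum.inr j) = 0 := fun _ => rfl
    have hZ2 : ∀ t, Z (D.α (Sum.inl (t, 2))) = Z (Sum.inl (t, 2)) := fun t => by
      by_cases ht : t ∈ cut
      · obtain ⟨j, hj⟩ : ∃ j, D.α (Sum.inl (t, 2)) = Sum.inr j := by simpa [hcut] using ht
        rw [hj, Zo j, Z2, ← hy, hy0 t ht]
      · rw [hnc t ht, Z0, Z2, hy]
    have hZl : ∀ t i, Z (D.α (Sum.inl (t, i))) = Z (Sum.inl (t, i)) := fun t i => by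
      rcases fin3 i with rfl | rfl | rfl
      · obtain ⟨t'', rfl⟩ := φ.surjective t
        by_cases ht : t'' ∈ cut
        · obtain ⟨j, hj⟩ := hc t'' ht
          rw [hj, Zo j, Z0, hy0 t'' ht]
        · rw [symm D (hnc t'' ht), Z0, Z2, hy]
      · rcases gl_spec D t with h | h
        · rw [h.1, Z1, Z1, hz]
        · obtain ⟨j, hj⟩ := h.1
          rw [hj, Zo j, Z1, hz0 t h.2]
      · exact hZ2 t
    have hZ : ∀ s, Z (D.α s) = Z s := by
      rintro (⟨t, i⟩ | j)
      · exact hZl t i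
      · rcases hs : D.α (Sum.inr j) with ⟨t, i⟩ | j'
        · rw [← hZl t i, symm D hs]
        · rfl
    have h2 : ∀ a : ZMod 2, a + a = 0 := by decide
    obtain ⟨u, hu1, hu2, -⟩ := hP Z hZ fun t => by rw [Z0, Z1, Z2, h2]
    refine ⟨fun t => u (Sum.inl (t, 1)), fun t ht => ?_, fun t => ?_⟩
    · have a1 := hu1 (φ t) 0
      have a2 := hu1 t 1
      have a3 := hu2 (Sum.inl (t, 2))
      rw [hnc t ht, Z2] at a3
      rw [Z0, hy, a3] at a1
      rw [Z1] at a2
      change u (Sum.inl (φ t, 0 + 1)) = _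
      rw [a1, add_assoc, h2, add_zero]
      exact a2
    · change u (Sum.inl (gl D t, 1)) = _
      rcases gl_spec D t with h | h
      · rw [← h.1, hu2, Z1]
      · rw [h.2, hz0 t h.2, add_zero]
  · refine card_le_countP _ l _ (fun t => D.α (Sum.inl (t, 1))) (fun a b h => by
      simpa using hαinj h) fun t ht => ?_
    have ht' : gl D t = t := by simpa using ht
    rcases gl_spec D t with h | h
    · exact absurd ht' h.2.1
    · obtain ⟨j, hj⟩ := h.1
      refine ⟨j, hj, ?_⟩
      have h := ltr_α D (Sum.inl (t, 1))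
      rw [hj, ltr1, ltr_out] at h
      simp only [Prod.mk.injEq] at h
      rw [h.1]
      rfl
  · refine card_le_countP _ l _ (fun t => D.α (Sum.inl (φ t, 0))) (fun a b h => by
      simpa using hαinj h) fun t ht => ?_
    obtain ⟨j, hj, hl⟩ := hc' t ht
    exact ⟨j, hj, by rw [hl]; rfl⟩
  · intro t ht
    obtain ⟨j, -, hl⟩ := hc' t ht
    change (Sum.inr (dart D (φ t)).1, true) ∈ l
    rw [← hl]
    exact List.getElem_mem _

end Crest.Agent.KP
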