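import Crest.Agent.KP.Stmts

/-!
# KP / SEP: graphs without a `K_h` minor are hyperfinite

Separator theorem by ball growing (Plotkin–Rao–Smith), then recursion.
-/

set_option autoImplicit false
set_option linter.unusedSectionVars false

namespace Crest.Agent.KP

open Finset

namespace SepAux

variable {J : Type} [DecidableEq J] (H : SimpleGraph J)

/-- Connected finite sets. -/
def Cn (P : Finset J) : Prop := (H.induce (P : Set J)).Connected

theorem cn_single (v : J) : Cn H {v} := by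
  unfold Cn
  rw [Finset.coe_singleton]
  have : Nonempty ({v} : Set J) := ⟨⟨v, rfl⟩⟩
  exact SimpleGraph.Connected.of_subsingleton

theorem cn_union {P Q : Finset J} (hP : Cn H P) (hQ : Cn H Q) {z : J} (hzP : z ∈ P)
    (hzQ : z ∈ Q) : Cn H (P ∪ Q) := by
  unfold Cn at *
  rw [Finset.coe_union]
  exact SimpleGraph.induce_union_connected hP.preconnected hQ.preconnected ⟨z, hzP, hzQ⟩

theorem cn_insert {P : Finset J} (hP : Cn H P) {x y : J} (hx : x ∈ P) (hxy : H.Adj x y) :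
    Cn H (P ∪ {y}) := by
  have h1 := cn_single H y
  unfold Cn at *
  rw [Finset.coe_union]
  exact SimpleGraph.connected_induce_union hP.preconnected h1.preconnected hx (by simp) hxy

open Classical in
/-- Outer vertex boundary of `U` inside `C`. -/
noncomputable def bd (C U : Finset J) : Finset J :=
  (C.filter fun y => ∃ x ∈ U, H.Adj x y) \ U

theorem mem_bd {C U : Finset J} {y : J} :
    y ∈ bd H C U ↔ (y ∈ C ∧ ∃ x ∈ U, H.Adj x y) ∧ y ∉ U := by
  simp [bd]

/-- Balls inside `C`. -/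
noncomputable def ball (C : Finset J) (v : J) : ℕ → Finset J
  | 0 => {v}
  | r + 1 => ball C v r ∪ bd H C (ball C v r)

theorem ball_sub {C : Finset J} {v : J} (hv : v ∈ C) (r : ℕ) : ball H C v r ⊆ C := by
  induction r with
  | zero => simpa [ball] using hv
  | succ r ih =>
    intro y hy
    rcases Finset.mem_union.1 hy with h | h
    · exact ih h
    · exact ((mem_bd H).1 h).1.1

theorem mem_ball_self (C : Finset J) (v : J) (r : ℕ) : v ∈ ball H C v r := by
  induction r with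
  | zero => simp [ball]
  | succ r ih => exact Finset.mem_union_left _ ih

theorem ball_path {C : Finset J} {v : J} (hv : v ∈ C) (r : ℕ) :
    ∀ x ∈ ball H C v r, ∃ P : Finset J, P ⊆ C ∧ #P ≤ r + 1 ∧ v ∈ P ∧ x ∈ P ∧ Cn H P := by
  induction r with
  | zero =>
    intro x hx
    have : x = v := by simpa [ball] using hx
    subst this
    exact ⟨{x}, by simpa using hv, by simp, by simp, by simp, cn_single H x⟩
  | succ r ih =>
    intro y hy
    rcases Finset.mem_union.1 hy with h | h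
    · obtain ⟨P, h1, h2, h3, h4, h5⟩ := ih y h
      exact ⟨P, h1, by omega, h3, h4, h5⟩
    · obtain ⟨⟨hyC, x, hx, hxy⟩, -⟩ := (mem_bd H).1 h
      obtain ⟨P, h1, h2, h3, h4, h5⟩ := ih x hx
      refine ⟨P ∪ {y}, Finset.union_subset h1 (by simpa using hyC), ?_,
        Finset.mem_union_left _ h3, by simp, cn_insert H h5 h4 hxy⟩
      have := Finset.card_union_le P {y}
      simp only [Finset.card_singleton] at this
      omega

theorem card_ball_succ (C : Finset J) (v : J) (r : ℕ) :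
    #(ball H C v (r + 1)) = #(ball H C v r) + #(bd H C (ball H C v r)) := by
  rw [ball, Finset.card_union_of_disjoint]
  rw [Finset.disjoint_left]
  intro y hy hy'
  exact ((mem_bd H).1 hy').2 hy

/-- `C` is an expander. -/
def Expd (t : ℕ) (C : Finset J) : Prop :=
  ∀ U ⊆ C, U.Nonempty → 2 * #U ≤ #C → #U < t * #(bd H C U)

theorem ball_grow {t : ℕ} {C : Finset J} (hC : Expd H t C) {v : J} (hv : v ∈ C) (r : ℕ) :
    #C < 2 * #(ball H C v r) ∨ (t + 1) ^ r ≤ t ^ r * #(ball H C v r) := by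
  induction r with
  | zero => right; simp [ball]
  | succ r ih =>
    rw [card_ball_succ]
    by_cases h : #C < 2 * #(ball H C v r)
    · left; omega
    · right
      have h1 := ih.resolve_left h
      have h2 := hC _ (ball_sub H hv r) ⟨v, mem_ball_self H C v r⟩ (by omega)
      calc (t + 1) ^ (r + 1) = (t + 1) ^ r * (t + 1) := pow_succ _ _
        _ ≤ t ^ r * #(ball H C v r) * (t + 1) := Nat.mul_le_mul_right _ h1
        _ = t ^ r * (t * #(ball H C v r) + #(ball H C v r)) := by ring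
        _ ≤ t ^ r * (t * #(ball H C v r) + t * #(bd H C (ball H C v r))) :=
            Nat.mul_le_mul_left _ (by omega)
        _ = t ^ (r + 1) * (#(ball H C v r) + #(bd H C (ball H C v r))) := by ring

theorem two_mul_pow_le (t : ℕ) (ht : 1 ≤ t) : 2 * t ^ t ≤ (t + 1) ^ t := by
  have h : (1 : ℝ) + t * (1 / t) ≤ (1 + 1 / t) ^ t :=
    one_add_mul_le_pow (by have : (0 : ℝ) ≤ 1 / t := by positivity
                           linarith) t
  have ht' : (0 : ℝ) < t := by exact_mod_cast ht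
  have h2 : (1 : ℝ) + t * (1 / t) = 2 := by field_simp; norm_num
  have h3 : ((t : ℝ) + 1) ^ t = (1 + 1 / t) ^ t * t ^ t := by
    rw [← mul_pow]; congr 1; field_simp
  have h4 : (2 : ℝ) * t ^ t ≤ (t + 1) ^ t := by
    rw [h3]; exact mul_le_mul_of_nonneg_right (h2 ▸ h) (by positivity)
  exact_mod_cast h4

theorem ball_big {t L : ℕ} (ht : 1 ≤ t) {C : Finset J} (hC : Expd H t C) (hL : #C ≤ 2 ^ L) {v : J}
    (hv : v ∈ C) : #C < 2 * #(ball H C v (t * L)) := by
  rcases ball_grow H hC hv (t * L) with h | h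
  · exact h
  · have h1 : 2 ^ L * t ^ (t * L) ≤ (t + 1) ^ (t * L) := by
      rw [pow_mul, pow_mul, ← mul_pow]
      exact Nat.pow_le_pow_left (two_mul_pow_le t ht) L
    have h2 : t ^ (t * L) * 2 ^ L ≤ t ^ (t * L) * #(ball H C v (t * L)) := by
      rw [mul_comm]; exact h1.trans h
    have h3 := Nat.le_of_mul_le_mul_left h2 (by positivity)
    have h4 : 0 < #C := Finset.card_pos.2 ⟨v, hv⟩
    omega

theorem join {t L : ℕ} (ht : 1 ≤ t) {C : Finset J} (hC : Expd H t C) (hL : #C ≤ 2 ^ L) {u v : J}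
    (hu : u ∈ C) (hv : v ∈ C) :
    ∃ P : Finset J, P ⊆ C ∧ #P ≤ 2 * (t * L + 1) ∧ v ∈ P ∧ u ∈ P ∧ Cn H P := by
  have h1 := ball_big H ht hC hL hu
  have h2 := ball_big H ht hC hL hv
  have h3 : ¬ Disjoint (ball H C u (t * L)) (ball H C v (t * L)) := by
    intro hd
    have := Finset.card_le_card (Finset.union_subset (ball_sub H hu (t * L)) (ball_sub H hv (t * L)))
    rw [Finset.card_union_of_disjoint hd] at this
    omega
  obtain ⟨z, hz1, hz2⟩ := Finset.not_disjoint_iff.1 h3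
  obtain ⟨P, p1, p2, p3, p4, p5⟩ := ball_path H hu _ z hz1
  obtain ⟨Q, q1, q2, q3, q4, q5⟩ := ball_path H hv _ z hz2
  refine ⟨P ∪ Q, Finset.union_subset p1 q1, ?_, Finset.mem_union_right _ q3,
    Finset.mem_union_left _ p3, cn_union H p5 q5 p4 q4⟩
  have := Finset.card_union_le P Q
  omega

/-- In an expander, a small connected set meets all given nonempty subsets. -/
theorem hit {t L : ℕ} (ht : 1 ≤ t) {C : Finset J} (hC : Expd H t C) (hL : #C ≤ 2 ^ L) {v : J}
    (hv : v ∈ C) (𝓑 : Finset (Finset J)) (h : ∀ B ∈ 𝓑, ∃ x ∈ B, ∃ y ∈ C, H.Adj x y) :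
    ∃ T : Finset J, T ⊆ C ∧ #T ≤ #𝓑 * (2 * (t * L + 1)) + 1 ∧ v ∈ T ∧ Cn H T ∧
      ∀ B ∈ 𝓑, ∃ x ∈ B, ∃ y ∈ T, H.Adj x y := by
  induction 𝓑 using Finset.induction_on with
  | empty => exact ⟨{v}, by simpa using hv, by simp, by simp, cn_single H v, by simp⟩
  | insert B 𝓑 hB ih =>
    obtain ⟨T, t1, t2, t3, t4, t5⟩ := ih fun B' hB' => h B' (Finset.mem_insert_of_mem hB')
    obtain ⟨x, hx, y, hy, hxy⟩ := h B (Finset.mem_insert_self _ _)
    obtain ⟨P, p1, p2, p3, p4, p5⟩ := join H ht hC hL hy hv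
    refine ⟨T ∪ P, Finset.union_subset t1 p1, ?_, Finset.mem_union_left _ t3,
      cn_union H t4 p5 t3 p3, ?_⟩
    · have := Finset.card_union_le T P
      rw [Finset.card_insert_of_notMem hB, add_mul]
      omega
    · intro B' hB'
      rcases Finset.mem_insert.1 hB' with rfl | hB'
      · exact ⟨x, hx, y, Finset.mem_union_right _ p4, hxy⟩
      · obtain ⟨a, ha, b, hb, hab⟩ := t5 B' hB'
        exact ⟨a, ha, b, Finset.mem_union_left _ hb, hab⟩

/-- A family of branch sets. -/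
structure Covey (𝓑 : Finset (Finset J)) : Prop where
  cn : ∀ B ∈ 𝓑, Cn H B
  disj : ∀ B ∈ 𝓑, ∀ B' ∈ 𝓑, B ≠ B' → Disjoint B B'
  adj : ∀ B ∈ 𝓑, ∀ B' ∈ 𝓑, B ≠ B' → ∃ x ∈ B, ∃ y ∈ B', H.Adj x y

theorem covey_lt {h : ℕ} (hH : ¬ HasKMinor H h) {𝓑 : Finset (Finset J)} (hB : Covey H 𝓑) :
    #𝓑 < h := by
  by_contra hc
  push Not at hc
  apply hH
  obtain ⟨f, hf⟩ : ∃ f : Fin h → 𝓑, Function.Injective f := by
    have : Fintype.card (Fin h) ≤ Fintype.card 𝓑 := by simpa using hc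
    obtain ⟨e⟩ := Function.Embedding.nonempty_of_card_le this
    exact ⟨e, e.injective⟩
  have hne : ∀ i j, i ≠ j → (f i).1 ≠ (f j).1 := fun i j hij h' => hij (hf (Subtype.ext h'))
  refine ⟨fun i => ((f i).1 : Set J), fun i => hB.cn _ (f i).2, fun i j hij => ?_, fun i j hij => ?_⟩
  · exact Finset.disjoint_coe.2 (hB.disj _ (f i).2 _ (f j).2 (hne i j hij))
  · obtain ⟨x, hx, y, hy, hxy⟩ := hB.adj _ (f i).2 _ (f j).2 (hne i j hij)
    exact ⟨x, hx, y, hy, hxy⟩

/-- State of the separator algorithm. -/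
structure St (W : Finset J) (t s : ℕ) (C D M : Finset J) (𝓑 : Finset (Finset J)) : Prop where
  cov : Covey H 𝓑
  CW : C ⊆ W
  DW : D ⊆ W
  BW : ∀ B ∈ 𝓑, B ⊆ W
  CD : Disjoint C D
  CB : ∀ B ∈ 𝓑, Disjoint C B
  small : ∀ B ∈ 𝓑, #B ≤ s
  cover : ∀ x ∈ W, x ∈ C ∨ x ∈ D ∨ x ∈ M ∨ ∃ B ∈ 𝓑, x ∈ B
  noadj : ∀ x ∈ C, ∀ y ∈ D, ¬ H.Adj x y
  charge : t * #M + #C ≤ #W
  Dle : 4 * #D ≤ 3 * #W

theorem step {h t L : ℕ} (ht : 1 ≤ t) (hH : ¬ HasKMinor H h) {W : Finset J} (hL : #W ≤ 2 ^ L)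
    {C D M : Finset J} {𝓑 : Finset (Finset J)}
    (S : St H W t (h * (2 * (t * L + 1)) + 1) C D M 𝓑) (hbig : 3 * #W < 4 * #C) :
    ∃ (C' D' M' : Finset J) (𝓑' : Finset (Finset J)),
      St H W t (h * (2 * (t * L + 1)) + 1) C' D' M' 𝓑' ∧ 2 * #C' + #𝓑' < 2 * #C + #𝓑 := by
  have hCW := Finset.card_le_card S.CW
  by_cases h1 : ∃ B ∈ 𝓑, ∀ x ∈ B, ∀ y ∈ C, ¬ H.Adj x y
  · -- drop a branch set
    obtain ⟨B, hB, hB'⟩ := h1
    have hdisj : Disjoint C (D ∪ B) := Finset.disjoint_union_right.2 ⟨S.CD, S.CB B hB⟩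
    refine ⟨C, D ∪ B, M, 𝓑.erase B, ⟨⟨fun B' h' => S.cov.cn B' (Finset.mem_of_mem_erase h'),
      fun B1 h1 B2 h2 => S.cov.disj B1 (Finset.mem_of_mem_erase h1) B2 (Finset.mem_of_mem_erase h2),
      fun B1 h1 B2 h2 => S.cov.adj B1 (Finset.mem_of_mem_erase h1) B2 (Finset.mem_of_mem_erase h2)⟩,
      S.CW, Finset.union_subset S.DW (S.BW B hB), fun B' h' => S.BW B' (Finset.mem_of_mem_erase h'),
      hdisj, fun B' h' => S.CB B' (Finset.mem_of_mem_erase h'),
      fun B' h' => S.small B' (Finset.mem_of_mem_erase h'), ?_, ?_, S.charge, ?_⟩, ?_⟩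
    · intro x hx
      rcases S.cover x hx with h | h | h | ⟨B', hB1, hB2⟩
      · exact Or.inl h
      · exact Or.inr (Or.inl (Finset.mem_union_left _ h))
      · exact Or.inr (Or.inr (Or.inl h))
      · by_cases he : B' = B
        · subst he; exact Or.inr (Or.inl (Finset.mem_union_right _ hB2))
        · exact Or.inr (Or.inr (Or.inr ⟨B', Finset.mem_erase.2 ⟨he, hB1⟩, hB2⟩))
    · intro x hx y hy hxy
      rcases Finset.mem_union.1 hy with hy | hy
      · exact S.noadj x hx y hy hxy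
      · exact hB' y hy x hx hxy.symm
    · have := Finset.card_le_card (Finset.union_subset S.CW (Finset.union_subset S.DW (S.BW B hB)))
      rw [Finset.card_union_of_disjoint hdisj] at this
      omega
    · have := Finset.card_erase_lt_of_mem hB
      omega
  by_cases h2 : Expd H t C
  · -- add a branch set
    push Not at h1
    obtain ⟨v, hv⟩ : C.Nonempty := Finset.card_pos.1 (by omega)
    obtain ⟨T, t1, t2, t3, t4, t5⟩ := hit H ht h2 (hCW.trans hL) hv 𝓑 h1
    have hlt := covey_lt H hH S.cov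
    have hTB : ∀ B ∈ 𝓑, Disjoint T B := fun B hB => (S.CB B hB).mono_left t1
    refine ⟨C \ T, D, M, insert T 𝓑, ⟨⟨?_, ?_, ?_⟩, Finset.sdiff_subset.trans S.CW, S.DW, ?_,
      S.CD.mono_left Finset.sdiff_subset, ?_, ?_, ?_,
      fun x hx => S.noadj x (Finset.mem_sdiff.1 hx).1, ?_, S.Dle⟩, ?_⟩
    · intro B hB
      rcases Finset.mem_insert.1 hB with rfl | hB
      · exact t4
      · exact S.cov.cn B hB
    · intro B1 h1 B2 h2 hne
      rcases Finset.mem_insert.1 h1 with rfl | h1' <;> rcases Finset.mem_insert.1 h2 with rfl | h2'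
      · exact absurd rfl hne
      · exact hTB _ h2'
      · exact (hTB _ h1').symm
      · exact S.cov.disj _ h1' _ h2' hne
    · intro B1 h1 B2 h2 hne
      rcases Finset.mem_insert.1 h1 with rfl | h1' <;> rcases Finset.mem_insert.1 h2 with rfl | h2'
      · exact absurd rfl hne
      · obtain ⟨x, hx, y, hy, hxy⟩ := t5 _ h2'
        exact ⟨y, hy, x, hx, hxy.symm⟩
      · exact t5 _ h1'
      · exact S.cov.adj _ h1' _ h2' hne
    · intro B hB
      rcases Finset.mem_insert.1 hB with rfl | hB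
      · exact t1.trans S.CW
      · exact S.BW B hB
    · intro B hB
      rcases Finset.mem_insert.1 hB with rfl | hB
      · exact Finset.sdiff_disjoint
      · exact (S.CB B hB).mono_left Finset.sdiff_subset
    · intro B hB
      rcases Finset.mem_insert.1 hB with rfl | hB
      · exact t2.trans (Nat.add_le_add_right (Nat.mul_le_mul_right _ hlt.le) _)
      · exact S.small B hB
    · intro x hx
      rcases S.cover x hx with h | h | h | ⟨B', hB1, hB2⟩
      · by_cases hxT : x ∈ T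
        · exact Or.inr (Or.inr (Or.inr ⟨T, Finset.mem_insert_self _ _, hxT⟩))
        · exact Or.inl (Finset.mem_sdiff.2 ⟨h, hxT⟩)
      · exact Or.inr (Or.inl h)
      · exact Or.inr (Or.inr (Or.inl h))
      · exact Or.inr (Or.inr (Or.inr ⟨B', Finset.mem_insert_of_mem hB1, hB2⟩))
    · have := S.charge
      have := Finset.card_le_card (Finset.sdiff_subset (s := C) (t := T))
      omega
    · have h3 := Finset.card_insert_le T 𝓑
      have h4 : #(C \ T) < #C :=
        Finset.card_lt_card (Finset.sdiff_ssubset t1 ⟨v, t3⟩)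
      omega
  · -- cut
    unfold Expd at h2
    push Not at h2
    obtain ⟨U, hU, hUne, hU2, hU3⟩ := h2
    have hcard : #(C \ U) + #U = #C := Finset.card_sdiff_add_card_eq_card hU
    have hsub : C \ (U ∪ bd H C U) ⊆ C \ U :=
      Finset.sdiff_subset_sdiff (subset_refl _) Finset.subset_union_left
    have hle := Finset.card_le_card hsub
    have hUpos := Finset.card_pos.2 hUne
    refine ⟨C \ (U ∪ bd H C U), D ∪ U, M ∪ bd H C U, 𝓑, ⟨S.cov, Finset.sdiff_subset.trans S.CW,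
      Finset.union_subset S.DW (hU.trans S.CW), S.BW, ?_,
      fun B hB => (S.CB B hB).mono_left Finset.sdiff_subset, S.small, ?_, ?_, ?_, ?_⟩, by omega⟩
    · refine Finset.disjoint_union_right.2 ⟨S.CD.mono_left Finset.sdiff_subset, ?_⟩
      exact Finset.sdiff_disjoint.mono_right Finset.subset_union_left
    · intro x hx
      rcases S.cover x hx with h | h | h | h
      · by_cases hxU : x ∈ U
        · exact Or.inr (Or.inl (Finset.mem_union_right _ hxU))
        by_cases hxb : x ∈ bd H C U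
        · exact Or.inr (Or.inr (Or.inl (Finset.mem_union_right _ hxb)))
        · exact Or.inl (Finset.mem_sdiff.2 ⟨h, by simp [hxU, hxb]⟩)
      · exact Or.inr (Or.inl (Finset.mem_union_left _ h))
      · exact Or.inr (Or.inr (Or.inl (Finset.mem_union_left _ h)))
      · exact Or.inr (Or.inr (Or.inr h))
    · intro x hx y hy hxy
      obtain ⟨hxC, hx2⟩ := Finset.mem_sdiff.1 hx
      rcases Finset.mem_union.1 hy with hy | hy
      · exact S.noadj x hxC y hy hxy
      · apply hx2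
        by_cases hxU : x ∈ U
        · exact Finset.mem_union_left _ hxU
        · exact Finset.mem_union_right _ ((mem_bd H).2 ⟨⟨hxC, y, hy, hxy.symm⟩, hxU⟩)
    · have h3 := S.charge
      have h4 := Finset.card_union_le M (bd H C U)
      have h5 : t * #(M ∪ bd H C U) ≤ t * #M + t * #(bd H C U) := by
        rw [← mul_add]; exact Nat.mul_le_mul_left _ h4
      omega
    · have h3 := Finset.card_union_le D U
      have h4 := Finset.card_le_card (Finset.union_subset S.CW S.DW)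
      rw [Finset.card_union_of_disjoint S.CD] at h4
      omega

theorem run {h t L : ℕ} (ht : 1 ≤ t) (hH : ¬ HasKMinor H h) {W : Finset J} (hL : #W ≤ 2 ^ L)
    (m : ℕ) : ∀ (C D M : Finset J) (𝓑 : Finset (Finset J)),
      St H W t (h * (2 * (t * L + 1)) + 1) C D M 𝓑 → 2 * #C + #𝓑 ≤ m →
      ∃ (C' D' M' : Finset J) (𝓑' : Finset (Finset J)),
        St H W t (h * (2 * (t * L + 1)) + 1) C' D' M' 𝓑' ∧ 4 * #C' ≤ 3 * #W := by
  induction m with
  | zero => intro C D M 𝓑 S hm; exact ⟨C, D, M, 𝓑, S, by omega⟩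
  | succ m ih =>
    intro C D M 𝓑 S hm
    by_cases hbig : 3 * #W < 4 * #C
    · obtain ⟨C', D', M', 𝓑', S', hlt⟩ := step H ht hH hL S hbig
      exact ih C' D' M' 𝓑' S' (by omega)
    · exact ⟨C, D, M, 𝓑, S, by omega⟩

/-- The separator theorem with explicit parameters. -/
theorem separator {h t L : ℕ} (ht : 1 ≤ t) (hH : ¬ HasKMinor H h) {W : Finset J}
    (hL : #W ≤ 2 ^ L) :
    ∃ C D M X : Finset J, C ⊆ W ∧ D ⊆ W ∧ Disjoint C D ∧ 4 * #C ≤ 3 * #W ∧ 4 * #D ≤ 3 * #W ∧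
      (∀ x ∈ C, ∀ y ∈ D, ¬ H.Adj x y) ∧ (∀ x ∈ W, x ∈ C ∨ x ∈ D ∨ x ∈ M ∨ x ∈ X) ∧
      t * #M ≤ #W ∧ #X ≤ h * (h * (2 * (t * L + 1)) + 1) := by
  obtain ⟨C, D, M, 𝓑, S, hC⟩ := run H ht hH hL _ W ∅ ∅ ∅
    ⟨⟨by simp, by simp, by simp⟩, subset_refl _, by simp, by simp, by simp, by simp, by simp,
      fun x hx => Or.inl hx, by simp, by simp, by simp⟩ le_rfl
  refine ⟨C, D, M, 𝓑.biUnion id, S.CW, S.DW, S.CD, hC, S.Dle, S.noadj, fun x hx => ?_, ?_, ?_⟩
  · rcases S.cover x hx with h | h | h | ⟨B, h1, h2⟩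
    · exact Or.inl h
    · exact Or.inr (Or.inl h)
    · exact Or.inr (Or.inr (Or.inl h))
    · exact Or.inr (Or.inr (Or.inr (Finset.mem_biUnion.2 ⟨B, h1, h2⟩)))
  · have := S.charge; omega
  · refine (Finset.card_biUnion_le_card_mul _ _ _ fun B hB => S.small B hB).trans ?_
    exact Nat.mul_le_mul_right _ (covey_lt H hH S.cov).le

/-- Fourth root. -/
noncomputable def rt (n : ℕ) : ℝ := √(√(n : ℝ))

theorem rt_pow (n : ℕ) : rt n ^ 4 = n := by
  unfold rt
  have h1 : √(√(n : ℝ)) ^ 2 = √(n : ℝ) := Real.sq_sqrt (Real.sqrt_nonneg _)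
  have h2 : √(n : ℝ) ^ 2 = n := Real.sq_sqrt (Nat.cast_nonneg _)
  calc √(√(n : ℝ)) ^ 4 = (√(√(n : ℝ)) ^ 2) ^ 2 := by ring
    _ = (n : ℝ) := by rw [h1, h2]

theorem rt_nonneg (n : ℕ) : 0 ≤ rt n := Real.sqrt_nonneg _

theorem one_le_rt {n : ℕ} (hn : 1 ≤ n) : 1 ≤ rt n := by
  have h : (1 : ℝ) ^ 4 ≤ rt n ^ 4 := by rw [rt_pow]; simpa using hn
  exact (pow_le_pow_iff_left₀ zero_le_one (rt_nonneg n) (by norm_num)).1 h

theorem separator' {h : ℕ} (hH : ¬ HasKMinor H h) {W : Finset J} (hW : 1 ≤ #W) :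
    ∃ C D X : Finset J, C ⊆ W ∧ D ⊆ W ∧ Disjoint C D ∧ 4 * #C ≤ 3 * #W ∧ 4 * #D ≤ 3 * #W ∧
      (∀ x ∈ C, ∀ y ∈ D, ¬ H.Adj x y) ∧ (∀ x ∈ W, x ∈ C ∨ x ∈ D ∨ x ∈ X) ∧
      (#X : ℝ) ≤ (1 + 35 * h ^ 2) * #W / rt #W := by
  set x := rt #W with hx
  have hx1 : 1 ≤ x := one_le_rt hW
  have hx4 : x ^ 4 = #W := rt_pow _
  set t := ⌈x⌉₊ with htdef
  have hxt : x ≤ t := Nat.le_ceil x
  have ht2 : (t : ℝ) ≤ 2 * x := by
    have := Nat.ceil_lt_add_one (show (0 : ℝ) ≤ x by linarith)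
    linarith
  have ht : 1 ≤ t := by
    have : (1 : ℝ) ≤ t := hx1.trans hxt
    exact_mod_cast this
  have hL : #W ≤ 2 ^ (4 * t) := by
    have h1 : (#W : ℝ) ≤ (t : ℝ) ^ 4 := by
      rw [← hx4]; exact pow_le_pow_left₀ (by linarith) hxt 4
    have h2 : #W ≤ t ^ 4 := by exact_mod_cast h1
    refine h2.trans ?_
    rw [mul_comm, pow_mul]
    exact Nat.pow_le_pow_left Nat.lt_two_pow_self.le 4
  obtain ⟨C, D, M, X, h1, h2, h3, h4, h5, h6, h7, h8, h9⟩ := separator H ht hH hL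
  refine ⟨C, D, M ∪ X, h1, h2, h3, h4, h5, h6, fun y hy => ?_, ?_⟩
  · rcases h7 y hy with h | h | h | h
    · exact Or.inl h
    · exact Or.inr (Or.inl h)
    · exact Or.inr (Or.inr (Finset.mem_union_left _ h))
    · exact Or.inr (Or.inr (Finset.mem_union_right _ h))
  · have hx0 : 0 < x := by linarith
    have e1 : (1 + 35 * (h : ℝ) ^ 2) * #W / x = (1 + 35 * h ^ 2) * x ^ 3 := by
      rw [← hx4]; field_simp
    rw [e1]
    have hM : (#M : ℝ) ≤ x ^ 3 := by
      have h8' : (t : ℝ) * #M ≤ x ^ 4 := by rw [hx4]; exact_mod_cast h8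
      have : x * #M ≤ x * x ^ 3 := by
        calc x * #M ≤ t * #M := mul_le_mul_of_nonneg_right hxt (Nat.cast_nonneg _)
          _ ≤ x ^ 4 := h8'
          _ = x * x ^ 3 := by ring
      exact le_of_mul_le_mul_left this hx0
    have hX : (#X : ℝ) ≤ 35 * h ^ 2 * x ^ 3 := by
      have h9' : (#X : ℝ) ≤ h * (h * (2 * (t * (4 * t) + 1)) + 1) := by exact_mod_cast h9
      have hh : (h : ℝ) ≤ h ^ 2 := by
        have : h ≤ h ^ 2 := Nat.le_self_pow (by norm_num) h
        exact_mod_cast this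
      have ht0 : (0 : ℝ) ≤ t := Nat.cast_nonneg _
      have htt : (t : ℝ) * t ≤ 4 * x ^ 2 := by nlinarith
      have hx23 : x ^ 2 ≤ x ^ 3 := pow_le_pow_right₀ hx1 (by norm_num)
      have hx3 : 1 ≤ x ^ 3 := one_le_pow₀ hx1
      have hb : 8 * ((t : ℝ) * t) + 3 ≤ 35 * x ^ 3 := by linarith
      have hh2 : (0 : ℝ) ≤ h ^ 2 := by positivity
      calc (#X : ℝ) ≤ h * (h * (2 * (t * (4 * t) + 1)) + 1) := h9'
        _ = h ^ 2 * (8 * (t * t) + 2) + h := by ring
        _ ≤ h ^ 2 * (8 * (t * t) + 3) := by linarith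
        _ ≤ h ^ 2 * (35 * x ^ 3) := mul_le_mul_of_nonneg_left hb hh2
        _ = 35 * h ^ 2 * x ^ 3 := by ring
    have : (#(M ∪ X) : ℝ) ≤ #M + #X := by exact_mod_cast Finset.card_union_le M X
    linarith

theorem part_le {ε A : ℝ} (hA : 0 ≤ A) {a n : ℕ} (hn : 1 ≤ n) (han : 4 * a ≤ 3 * n)
    (hpos : 0 ≤ ε - 16 / 15 * A / rt n) :
    (a : ℝ) * max 0 (ε - A / rt a) ≤ a * (ε - 16 / 15 * A / rt n) := by
  rcases Nat.eq_zero_or_pos a with rfl | ha
  · simp
  refine mul_le_mul_of_nonneg_left (max_le hpos ?_) (Nat.cast_nonneg _)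
  have h1 := one_le_rt hn
  have h2 := one_le_rt ha
  have h3 : rt a ≤ 15 / 16 * rt n := by
    refine (pow_le_pow_iff_left₀ (rt_nonneg a) (by linarith) (by norm_num : (4 : ℕ) ≠ 0)).1 ?_
    rw [mul_pow, rt_pow, rt_pow]
    have : (4 : ℝ) * a ≤ 3 * n := by exact_mod_cast han
    have hn0 : (0 : ℝ) ≤ n := Nat.cast_nonneg _
    norm_num
    linarith
  have h4 : 16 / 15 * A / rt n ≤ A / rt a := by
    rw [div_le_div_iff₀ (by linarith) (by linarith)]
    nlinarith
  linarith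

theorem recurse {h : ℕ} (hH : ¬ HasKMinor H h) {ε : ℝ} (hε : 0 < ε) {K : ℕ}
    (hK : (16 * (1 + 35 * (h : ℝ) ^ 2) / ε) ^ 4 ≤ K) (n : ℕ) :
    ∀ W : Finset J, #W = n → ∃ (S : Finset J) (cl : J → J),
      (#S : ℝ) ≤ #W * max 0 (ε - 15 * (1 + 35 * (h : ℝ) ^ 2) / rt #W) ∧
      (∀ a ∈ W, cl a ∈ W) ∧
      (∀ a ∈ W, ∀ b ∈ W, a ∉ S → b ∉ S → H.Adj a b → cl a = cl b) ∧
      ∀ κ, #{a ∈ W | a ∉ S ∧ cl a = κ} ≤ K := by
  induction n using Nat.strong_induction_on with
  | _ n ih =>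
  intro W hW
  set c : ℝ := 1 + 35 * (h : ℝ) ^ 2 with hc
  have hc0 : 0 < c := by positivity
  by_cases hWK : #W ≤ K
  · rcases W.eq_empty_or_nonempty with rfl | ⟨v, hv⟩
    · exact ⟨∅, id, by simp, by simp, by simp, by simp⟩
    · refine ⟨∅, fun _ => v, ?_, fun _ _ => hv, fun _ _ _ _ _ _ _ => rfl, fun κ => ?_⟩
      · simp only [Finset.card_empty, Nat.cast_zero]
        positivity
      · exact (Finset.card_filter_le _ _).trans hWK
  push Not at hWK
  have hW1 : 1 ≤ #W := by omega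
  obtain ⟨C, D, X, h1, h2, h3, h4, h5, h6, h7, h8⟩ := separator' H hH hW1
  obtain ⟨S1, cl1, a1, a2, a3, a4⟩ := ih #C (by omega) C rfl
  obtain ⟨S2, cl2, b1, b2, b3, b4⟩ := ih #D (by omega) D rfl
  have hx1 := one_le_rt hW1
  have hx : 16 * c / ε ≤ rt #W := by
    refine (pow_le_pow_iff_left₀ (by positivity) (rt_nonneg _) (by norm_num : (4 : ℕ) ≠ 0)).1 ?_
    rw [rt_pow]
    exact hK.trans (by exact_mod_cast hWK.le)
  have hpos : 0 ≤ ε - 16 / 15 * (15 * c) / rt #W := by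
    rw [div_le_iff₀ hε] at hx
    rw [sub_nonneg, div_le_iff₀ (by linarith)]
    linarith
  refine ⟨X ∪ (S1 ∪ S2), fun a => if a ∈ C then cl1 a else if a ∈ D then cl2 a else a, ?_, ?_, ?_,
    ?_⟩
  · have e1 := part_le (ε := ε) (A := 15 * c) (by positivity) hW1 h4 hpos
    have e2 := part_le (ε := ε) (A := 15 * c) (by positivity) hW1 h5 hpos
    have e3 : (#(X ∪ (S1 ∪ S2)) : ℝ) ≤ #X + (#S1 + #S2) := by
      have := (Finset.card_union_le X (S1 ∪ S2)).trans
        (Nat.add_le_add_left (Finset.card_union_le S1 S2) _)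
      exact_mod_cast this
    have e4 : (#C : ℝ) + #D ≤ #W := by
      have := Finset.card_le_card (Finset.union_subset h1 h2)
      rw [Finset.card_union_of_disjoint h3] at this
      exact_mod_cast this
    have e5 : ((#C : ℝ) + #D) * (ε - 16 / 15 * (15 * c) / rt #W) ≤
        #W * (ε - 16 / 15 * (15 * c) / rt #W) := mul_le_mul_of_nonneg_right e4 hpos
    have e6 : (#W : ℝ) * (ε - 15 * c / rt #W) ≤ #W * max 0 (ε - 15 * c / rt #W) :=
      mul_le_mul_of_nonneg_left (le_max_right _ _) (Nat.cast_nonneg _)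
    have e7 : c * #W / rt #W + #W * (ε - 16 / 15 * (15 * c) / rt #W) =
        #W * (ε - 15 * c / rt #W) := by ring
    linarith
  · intro a ha
    by_cases haC : a ∈ C
    · simpa [haC] using h1 (a2 a haC)
    by_cases haD : a ∈ D
    · simpa [haC, haD] using h2 (b2 a haD)
    · simpa [haC, haD] using ha
  · intro a ha b hb haS hbS hab
    simp only [Finset.mem_union, not_or] at haS hbS
    rcases h7 a ha with ha' | ha' | ha'
    · rcases h7 b hb with hb' | hb' | hb'
      · simpa [ha', hb'] using a3 a ha' b hb' haS.2.1 hbS.2.1 hab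
      · exact absurd hab (h6 a ha' b hb')
      · exact absurd hb' hbS.1
    · rcases h7 b hb with hb' | hb' | hb'
      · exact absurd hab.symm (h6 b hb' a ha')
      · have ha'' : a ∉ C := fun h => Finset.disjoint_left.1 h3 h ha'
        have hb'' : b ∉ C := fun h => Finset.disjoint_left.1 h3 h hb'
        simpa [ha', hb', ha'', hb''] using b3 a ha' b hb' haS.2.2 hbS.2.2 hab
      · exact absurd hb' hbS.1
    · exact absurd ha' haS.1
  · intro κ
    by_cases hκ : κ ∈ C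
    · refine (Finset.card_le_card fun a ha => ?_).trans (a4 κ)
      simp only [Finset.mem_filter, Finset.mem_union, not_or] at ha ⊢
      obtain ⟨haW, haS, hcl⟩ := ha
      rcases h7 a haW with ha' | ha' | ha'
      · exact ⟨ha', haS.2.1, by simpa [ha'] using hcl⟩
      · have ha'' : a ∉ C := fun h => Finset.disjoint_left.1 h3 h ha'
        simp only [ha'', ha', if_true, if_false] at hcl
        exact absurd (hcl ▸ b2 a ha') (Finset.disjoint_left.1 h3 hκ)
      · exact absurd ha' haS.1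
    · refine (Finset.card_le_card fun a ha => ?_).trans (b4 κ)
      simp only [Finset.mem_filter, Finset.mem_union, not_or] at ha ⊢
      obtain ⟨haW, haS, hcl⟩ := ha
      rcases h7 a haW with ha' | ha' | ha'
      · simp only [ha', if_true] at hcl
        exact absurd (hcl ▸ a2 a ha') hκ
      · have ha'' : a ∉ C := fun h => Finset.disjoint_left.1 h3 h ha'
        exact ⟨ha', haS.2.2, by simpa [ha', ha''] using hcl⟩
      · exact absurd ha' haS.1

end SepAux

theorem sep : SepStmt := by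
  intro h ε hε
  refine ⟨⌈(16 * (1 + 35 * (h : ℝ) ^ 2) / ε) ^ 4⌉₊, fun J _ _ H hH => ?_⟩
  obtain ⟨S, cl, h1, -, h3, h4⟩ := SepAux.recurse H hH hε (Nat.le_ceil _) _ univ rfl
  refine ⟨S, cl, h1.trans ?_, fun a b ha hb hab => h3 a (mem_univ _) b (mem_univ _) ha hb hab,
    fun κ => h4 κ⟩
  rw [Finset.card_univ, mul_comm]
  refine mul_le_mul_of_nonneg_right (max_le hε.le ?_) (Nat.cast_nonneg _)
  have : 0 ≤ 15 * (1 + 35 * (h : ℝ) ^ 2) / SepAux.rt (Fintype.card J) :=
    div_nonneg (by positivity) (SepAux.rt_nonneg _)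
  linarith

end Crest.Agent.KP
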