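import Crest.Agent.KP.Stmts
import Crest.Agent.KP.GloSeam

/-!
# KP / SHEET: sorting the sides of a map into sheets
-/

set_option autoImplicit false

namespace Crest.Agent.KP

open Finset

namespace Sheet

section posn

variable {T β : Type} [LinearOrder β] (X : Finset T) (key : T → β)

/-- Position of `x` in `X` sorted by `key`. -/
def posn (x : T) : ℕ := #{y ∈ X | key y < key x}

lemma posn_lt_of_lt {x y : T} (hx : x ∈ X) (h : key x < key y) : posn X key x < posn X key y := by
  apply Finset.card_lt_card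
  rw [Finset.ssubset_iff_of_subset]
  · exact ⟨x, Finset.mem_filter.mpr ⟨hx, h⟩, fun h' => lt_irrefl _ (Finset.mem_filter.mp h').2⟩
  · intro z hz
    exact Finset.mem_filter.mpr ⟨(Finset.mem_filter.mp hz).1, (Finset.mem_filter.mp hz).2.trans h⟩

lemma posn_inj (hk : Function.Injective key) {x y : T} (hx : x ∈ X) (hy : y ∈ X)
    (h : posn X key x = posn X key y) : x = y := by
  rcases lt_trichotomy (key x) (key y) with h' | h' | h'
  · exact absurd h (posn_lt_of_lt X key hx h').ne
  · exact hk h'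
  · exact absurd h (posn_lt_of_lt X key hy h').ne'

lemma posn_lt_card {x : T} (hx : x ∈ X) : posn X key x < #X := by
  apply Finset.card_lt_card
  rw [Finset.ssubset_iff_of_subset (Finset.filter_subset _ _)]
  exact ⟨x, hx, fun h' => lt_irrefl _ (Finset.mem_filter.mp h').2⟩

lemma posn_surj (hk : Function.Injective key) {i : ℕ} (hi : i < #X) :
    ∃ x ∈ X, posn X key x = i := by
  have := Finset.surj_on_of_inj_on_of_card_le (s := X) (t := Finset.range #X)
    (fun x _ => posn X key x) (fun x hx => Finset.mem_range.mpr (posn_lt_card X key hx))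
    (fun x y hx hy h => posn_inj X key hk hx hy h) (by simp) i (Finset.mem_range.mpr hi)
  obtain ⟨x, hx, h⟩ := this
  exact ⟨x, hx, h.symm⟩

end posn

lemma exists_idx {T : Type} [Fintype T] [DecidableEq T] (φ : Equiv.Perm T) (B : Finset T)
    (hB : ∀ t, ∃ k : ℕ, (φ ^ k) t ∈ B) :
    ∃ idx : T → ℤ, Function.Injective idx ∧ ∀ t, t ∉ B → idx (φ t) = idx t + 1 := by
  let e := Fintype.equivFin T
  have hd : ∀ t, Glo.dist φ B hB t < Fintype.card T := fun t =>
    lt_of_lt_of_le (Glo.dist_lt_len φ B hB t) (Finset.card_le_univ _)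
  refine ⟨fun t => ((e (Glo.nxt φ B hB t) : ℕ) : ℤ) * Fintype.card T - Glo.dist φ B hB t, ?_, ?_⟩
  · intro a b h
    simp only at h
    have ha : (Glo.dist φ B hB a : ℤ) < Fintype.card T := by exact_mod_cast hd a
    have hb : (Glo.dist φ B hB b : ℤ) < Fintype.card T := by exact_mod_cast hd b
    have ha0 : (0 : ℤ) ≤ Glo.dist φ B hB a := Int.natCast_nonneg _
    have hb0 : (0 : ℤ) ≤ Glo.dist φ B hB b := Int.natCast_nonneg _
    have h1 : ((e (Glo.nxt φ B hB a) : ℕ) : ℤ) = ((e (Glo.nxt φ B hB b) : ℕ) : ℤ) := by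
      rcases lt_trichotomy ((e (Glo.nxt φ B hB a) : ℕ) : ℤ) ((e (Glo.nxt φ B hB b) : ℕ) : ℤ) with
        h' | h' | h'
      · nlinarith
      · exact h'
      · nlinarith
    have h2 : Glo.nxt φ B hB a = Glo.nxt φ B hB b := by
      apply e.injective
      apply Fin.ext
      exact_mod_cast h1
    rw [h1] at h
    exact Glo.eq_of_nxt_dist φ B hB h2 (by omega)
  · intro t ht
    have h1 := Glo.dist_pow φ B hB t (k := 1) (Glo.dist_pos φ B hB ht)
    have h2 := Glo.dist_pos φ B hB ht
    rw [pow_one] at h1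
    simp only
    rw [Glo.nxt_step φ B hB ht, h1]
    omega

end Sheet

open Sheet in
theorem sheet : SheetStmt := by
  intro S V lb L Γ c0 T _ _ M B hne hloop hcut hB
  classical
  obtain ⟨idx, hinj, hidx⟩ := exists_idx M.φ B hB
  have rr : ∀ t, Γ.rev (Γ.rev (M.d t)) = M.d t := fun t =>
    Prod.ext (Γ.inv _ _ (M.valid t)) (lb.op_op _)
  have rne : ∀ x : V × S, Γ.rev x ≠ x := by
    intro x h
    have h1 : lb.op x.2 = x.2 := congrArg Prod.snd h
    have h2 := lb.pos_op x.2
    rw [h1] at h2
    cases hx : lb.pos x.2 <;> simp [hx] at h2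
  let rel : T → T → Prop := fun t t' => M.d t' = M.d t ∨ M.d t' = Γ.rev (M.d t)
  have rrefl : ∀ t, rel t t := fun t => Or.inl rfl
  have rsymm : ∀ a b, rel a b → rel b a := by
    rintro a b (h | h)
    · exact Or.inl h.symm
    · right; rw [h, rr]
  have rtrans : ∀ a b c, rel a b → rel b c → rel a c := by
    rintro a b c (h | h) (h' | h')
    · left; rw [h', h]
    · right; rw [h', h]
    · right; rw [h', h]
    · left; rw [h', h, rr]
  let cls : T → Finset T := fun t => Finset.univ.filter (rel t)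
  have memc : ∀ a b, b ∈ cls a ↔ rel a b := fun a b => by simp [cls]
  have clseq : ∀ a b, rel a b → cls a = cls b := by
    intro a b h
    ext c
    rw [memc, memc]
    exact ⟨rtrans _ _ _ (rsymm _ _ h), rtrans _ _ _ h⟩
  let rank : T → ℕ := fun t => posn (cls t) idx t
  have hrk : ∀ a b, rel a b → rank a = rank b → a = b := by
    intro a b h h'
    refine posn_inj (cls a) idx hinj ((memc _ _).mpr (rrefl a)) ((memc _ _).mpr h) ?_
    simp only [rank] at h'
    rw [h', clseq a b h]
  have hrs : ∀ a j, j < #(cls a) → ∃ b, rel a b ∧ rank b = j := by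
    intro a j hj
    obtain ⟨b, hb, h⟩ := posn_surj (cls a) idx hinj hj
    have hab := (memc _ _).mp hb
    exact ⟨b, hab, by simp only [rank]; rw [← clseq a b hab, h]⟩
  have hrlt : ∀ a, rank a < #(cls a) := fun a => posn_lt_card _ _ ((memc _ _).mpr (rrefl a))
  choose rep hrep1 hrep2 using fun a => hrs a 0 (lt_of_le_of_lt (Nat.zero_le _) (hrlt a))
  have repu : ∀ a r, rel a r → rank r = 0 → r = rep a := fun a r h h' =>
    hrk _ _ (rtrans _ _ _ (rsymm _ _ h) (hrep1 a)) (h'.trans (hrep2 a).symm)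
  have repeq : ∀ a b, rel a b → rep a = rep b := fun a b h =>
    repu _ _ (rtrans _ _ _ (rsymm _ _ h) (hrep1 a)) (hrep2 a)
  let Reps : Finset T := Finset.univ.filter (fun r => rank r = 0)
  have memR : ∀ r, r ∈ Reps ↔ rank r = 0 := fun r => by simp [Reps]
  let key : T → ℕᵒᵈ ×ₗ ℤ := fun r => toLex (OrderDual.toDual #(cls r), idx r)
  have keylt : ∀ a b, key a < key b ↔
      #(cls b) < #(cls a) ∨ (#(cls a) = #(cls b) ∧ idx a < idx b) := by
    intro a b
    simp only [key, Prod.Lex.toLex_lt_toLex, OrderDual.toDual_lt_toDual, OrderDual.toDual_inj]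
  have kinj : Function.Injective key := by
    intro a b h
    exact hinj (congrArg (fun x => (ofLex x).2) h)
  let ord : T → ℕ := fun t => posn Reps key (rep t)
  have hord : ∀ t t', ord t = ord t' ↔ rel t t' := by
    intro t t'
    constructor
    · intro h
      have := posn_inj Reps key kinj ((memR _).mpr (hrep2 t)) ((memR _).mpr (hrep2 t')) h
      exact rtrans _ _ _ (hrep1 t) (this ▸ rsymm _ _ (hrep1 t'))
    · intro h
      simp only [ord]
      rw [repeq _ _ h]
  obtain ⟨t0⟩ := hne
  let D : ℕ → V × S := fun i => if h : ∃ t, ord t = i then M.d (rep h.choose) else M.d t0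
  have hD : ∀ t, D (ord t) = M.d (rep t) := by
    intro t
    have h : ∃ t', ord t' = ord t := ⟨t, rfl⟩
    simp only [D, dif_pos h]
    rw [repeq _ _ ((hord _ _).mp h.choose_spec)]
  have hini : ∀ j r, j < #(cls r) →
      posn (Reps.filter fun r => j < #(cls r)) key r = posn Reps key r := by
    intro j r hr
    unfold posn
    congr 1
    ext y
    simp only [Finset.mem_filter]
    constructor
    · rintro ⟨⟨h1, _⟩, h3⟩
      exact ⟨h1, h3⟩
    · rintro ⟨h1, h3⟩
      refine ⟨⟨h1, ?_⟩, h3⟩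
      rcases (keylt _ _).mp h3 with h | h <;> omega
  refine ⟨rank, ord, fun t => decide (M.d t = M.d (rep t)),
    fun j => #(Reps.filter fun r => j < #(cls r)), D, hord,
    fun t t' h h' => hrk _ _ ((hord _ _).mp h') h, ?_, ?_, ?_, ?_, ?_, ?_⟩
  · intro t
    have h1 : rank t < #(cls (rep t)) := by rw [← clseq _ _ (hrep1 t)]; exact hrlt t
    simp only [ord]
    rw [← hini _ _ h1]
    exact posn_lt_card _ _ (Finset.mem_filter.mpr ⟨(memR _).mpr (hrep2 t), h1⟩)
  · intro j i hi
    obtain ⟨r, hr, h⟩ := posn_surj _ key kinj hi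
    obtain ⟨hr1, hr2⟩ := Finset.mem_filter.mp hr
    obtain ⟨b, hb, hb2⟩ := hrs r j hr2
    refine ⟨b, hb2, ?_⟩
    simp only [ord]
    rw [← repu b r (rsymm _ _ hb) ((memR _).mp hr1), ← hini _ _ hr2, h]
  · intro t
    refine lt_of_lt_of_le (hrlt t) (Finset.card_le_card ?_)
    intro a ha
    simpa using ((hord _ _).mpr ((memc _ _).mp ha)).symm
  · intro t
    rw [hD]
    exact M.valid _
  · intro t
    rw [hD]
    by_cases h : M.d t = M.d (rep t)
    · simp [← h]
    · rcases rsymm _ _ (hrep1 t) with h' | h'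
      · exact absurd h' h
      · simp only [h, decide_false, cond_false]
        exact h'
  · intro l hl
    obtain ⟨-, hc1, hc2, hc3⟩ := hl
    have hlB : l ∉ B := hc1 l rfl
    have hlk := M.link l (fun h => hlB (hcut h))
    have hnb : M.d l ≠ Γ.rev (M.d (M.φ l)) := fun h => hlk.2 (by rw [h, rr])
    have hnrel : ¬ rel l (M.φ l) := by
      rintro (h | h)
      · have h1 := hlk.1
        rw [h] at h1
        exact hloop _ _ (M.valid l) h1.symm
      · exact hlk.2 h
    -- forward moves
    have fA : ∀ t, M.d t = M.d l → t ∉ B ∧ M.d (M.φ t) = M.d (M.φ l) := by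
      intro t ht
      refine ⟨hc1 t (by rw [ht]), ?_⟩
      rcases hc3 l t rfl (by rw [ht]) with h | h
      · exact h.2
      · exact absurd (ht ▸ h.1) hnb
    have fB : ∀ s, M.d (M.φ s) = Γ.rev (M.d l) → s ∉ B ∧ M.d s = Γ.rev (M.d (M.φ l)) := by
      intro s hs
      have h0 : (M.d (M.φ s)).1 = Γ.hd (M.d l) := by rw [hs]; rfl
      have hsB := hc2 s h0
      refine ⟨hsB, ?_⟩
      rcases hc3 l s rfl (by rw [← (M.link s (fun h => hsB (hcut h))).1, h0]) with h | h
      · exact absurd (h.2 ▸ hs) hlk.2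
      · exact h.1
    have fC : ∀ s, M.d (M.φ s) = M.d (M.φ l) → M.d s = M.d l := by
      intro s hs
      have h0 : (M.d (M.φ s)).1 = Γ.hd (M.d l) := by rw [hs, hlk.1]
      have hsB := hc2 s h0
      rcases hc3 l s rfl (by rw [← (M.link s (fun h => hsB (hcut h))).1, h0]) with h | h
      · exact h.1
      · exact absurd (hs ▸ h.2) hlk.2
    have fD : ∀ t, M.d t = Γ.rev (M.d (M.φ l)) → M.d (M.φ t) = Γ.rev (M.d l) := by
      intro t ht
      have h0 : Γ.hd (M.d t) = Γ.hd (M.d l) := by
        rw [ht, ← hlk.1]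
        exact congrArg Prod.fst (rr (M.φ l))
      rcases hc3 l t rfl h0 with h | h
      · exact absurd (h.1 ▸ ht) hnb
      · exact h.2
    let ψ : T → T := fun t => if M.d t = M.d l then M.φ t else M.φ.symm t
    have ψ1 : ∀ t, M.d t = M.d l →
        ψ t = M.φ t ∧ M.d (ψ t) = M.d (M.φ l) ∧ idx (ψ t) = idx t + 1 := by
      intro t ht
      have e : ψ t = M.φ t := if_pos ht
      rw [e]
      exact ⟨rfl, (fA t ht).2, hidx t (fA t ht).1⟩
    have ψ2 : ∀ t, M.d t = Γ.rev (M.d l) →
        ψ t = M.φ.symm t ∧ M.d (ψ t) = Γ.rev (M.d (M.φ l)) ∧ idx (ψ t) + 1 = idx t := by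
      intro t ht
      have e : ψ t = M.φ.symm t := if_neg (by rw [ht]; exact rne _)
      rw [e]
      have h := fB (M.φ.symm t) (by rw [M.φ.apply_symm_apply, ht])
      refine ⟨rfl, h.2, ?_⟩
      rw [← hidx _ h.1, M.φ.apply_symm_apply]
    have ψmem : ∀ t, rel l t → rel (M.φ l) (ψ t) := by
      rintro t (h | h)
      · exact Or.inl (ψ1 t h).2.1
      · exact Or.inr (ψ2 t h).2.1
    have ψidx : ∀ t, rel l t → idx (ψ t) = idx t + 1 ∨ idx (ψ t) + 1 = idx t := by
      rintro t (h | h)
      · exact Or.inl (ψ1 t h).2.2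
      · exact Or.inr (ψ2 t h).2.2
    have ψinj : ∀ a b, rel l a → rel l b → ψ a = ψ b → a = b := by
      rintro a b (ha | ha) (hb | hb) h
      · rw [(ψ1 a ha).1, (ψ1 b hb).1] at h
        exact M.φ.injective h
      · have h1 := (ψ1 a ha).2.1
        rw [h, (ψ2 b hb).2.1] at h1
        exact absurd h1 (rne _)
      · have h1 := (ψ1 b hb).2.1
        rw [← h, (ψ2 a ha).2.1] at h1
        exact absurd h1 (rne _)
      · rw [(ψ2 a ha).1, (ψ2 b hb).1] at h
        exact M.φ.symm.injective h
    have ψsurj : ∀ b, rel (M.φ l) b → ∃ a, rel l a ∧ ψ a = b := by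
      rintro b (hb | hb)
      · have h := fC (M.φ.symm b) (by rw [M.φ.apply_symm_apply, hb])
        exact ⟨M.φ.symm b, Or.inl h, by rw [(ψ1 _ h).1, M.φ.apply_symm_apply]⟩
      · have h := fD b hb
        exact ⟨M.φ b, Or.inr h, by rw [(ψ2 _ h).1, M.φ.symm_apply_apply]⟩
    have ψmono : ∀ a b, rel l a → rel l b → idx a < idx b → idx (ψ a) < idx (ψ b) := by
      intro a b ha hb hab
      by_contra hn
      have h1 : idx (ψ a) ≠ idx (ψ b) := fun h => by
        have := ψinj a b ha hb (hinj h)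
        rw [this] at hab
        exact lt_irrefl _ hab
      have h2 := ψidx a ha
      have h3 := ψidx b hb
      have h4 : idx (ψ a) = idx b := by omega
      have h5 := ψmem a ha
      rw [hinj h4] at h5
      exact hnrel (rtrans _ _ _ hb (rsymm _ _ h5))
    have ψiff : ∀ a b, rel l a → rel l b → (idx (ψ a) < idx (ψ b) ↔ idx a < idx b) := by
      intro a b ha hb
      refine ⟨fun h => ?_, ψmono a b ha hb⟩
      rcases lt_trichotomy (idx a) (idx b) with h' | h' | h'
      · exact h'
      · rw [hinj h'] at h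
        exact absurd h (lt_irrefl _)
      · exact absurd (ψmono b a hb ha h') (not_lt.mpr h.le)
    have ψrank : ∀ a, rel l a → rank (ψ a) = rank a := by
      intro a ha
      simp only [rank, posn]
      rw [← clseq _ _ ha, ← clseq _ _ (ψmem a ha)]
      symm
      apply Finset.card_bij (fun t _ => ψ t)
      · intro t ht
        obtain ⟨h1, h2⟩ := Finset.mem_filter.mp ht
        have h3 := (memc _ _).mp h1
        exact Finset.mem_filter.mpr ⟨(memc _ _).mpr (ψmem t h3), ψmono _ _ h3 ha h2⟩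
      · intro x hx y hy h
        exact ψinj _ _ ((memc _ _).mp (Finset.mem_filter.mp hx).1)
          ((memc _ _).mp (Finset.mem_filter.mp hy).1) h
      · intro b hb
        obtain ⟨h1, h2⟩ := Finset.mem_filter.mp hb
        obtain ⟨x, hx, rfl⟩ := ψsurj b ((memc _ _).mp h1)
        exact ⟨x, Finset.mem_filter.mpr ⟨(memc _ _).mpr hx, (ψiff _ _ hx ha).mp h2⟩, rfl⟩
    have hm : #(cls l) = #(cls (M.φ l)) := by
      apply Finset.card_bij (fun t _ => ψ t)
      · intro t ht
        exact (memc _ _).mpr (ψmem t ((memc _ _).mp ht))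
      · intro x hx y hy h
        exact ψinj _ _ ((memc _ _).mp hx) ((memc _ _).mp hy) h
      · intro b hb
        obtain ⟨x, hx, rfl⟩ := ψsurj b ((memc _ _).mp hb)
        exact ⟨x, (memc _ _).mpr hx, rfl⟩
    have hrepψ : ψ (rep l) = rep (M.φ l) :=
      repu _ _ (ψmem _ (hrep1 l)) ((ψrank _ (hrep1 l)).trans (hrep2 l))
    have hm' : #(cls (rep l)) = #(cls (rep (M.φ l))) := by
      rw [← clseq _ _ (hrep1 l), ← clseq _ _ (hrep1 (M.φ l)), hm]
    have hsucc : ∀ a b, a ∈ Reps → #(cls a) = #(cls b) → idx b = idx a + 1 →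
        posn Reps key b = posn Reps key a + 1 := by
      intro a b ha hab hi
      unfold posn
      have hna : a ∉ ({y ∈ Reps | key y < key a} : Finset T) :=
        fun h => lt_irrefl _ (Finset.mem_filter.mp h).2
      rw [← Finset.card_insert_of_notMem hna]
      congr 1
      ext y
      simp only [Finset.mem_insert, Finset.mem_filter, keylt]
      constructor
      · rintro ⟨h1, h2⟩
        by_cases hy : y = a
        · exact Or.inl hy
        · have : idx y ≠ idx a := fun h => hy (hinj h)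
          refine Or.inr ⟨h1, ?_⟩
          omega
      · rintro (rfl | ⟨h1, h2⟩)
        · exact ⟨ha, Or.inr ⟨hab, by omega⟩⟩
        · refine ⟨h1, ?_⟩
          omega
    have hrank : rank (M.φ l) = rank l := by
      rw [← (ψ1 l rfl).1]
      exact ψrank l (rrefl l)
    rcases hrep1 l with h | h
    · obtain ⟨-, e2, e3⟩ := ψ1 _ h
      rw [hrepψ] at e2 e3
      refine ⟨hrank, by simp [h, e2], fun _ => ?_, fun h' => ?_⟩
      · exact hsucc _ _ ((memR _).mpr (hrep2 l)) hm' e3
      · simp [h] at h'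
    · obtain ⟨-, e2, e3⟩ := ψ2 _ h
      rw [hrepψ] at e2 e3
      have n1 : M.d l ≠ M.d (rep l) := by rw [h]; exact (rne _).symm
      have n2 : M.d (M.φ l) ≠ M.d (rep (M.φ l)) := by rw [e2]; exact (rne _).symm
      refine ⟨hrank, by simp [n1, n2], fun h' => ?_, fun _ => ?_⟩
      · simp [n1] at h'
      · exact hsucc _ _ ((memR _).mpr (hrep2 (M.φ l))) hm'.symm e3.symm

end Crest.Agent.KP
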