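import Crest.Agent.KP.VKc

set_option autoImplicit false

namespace Crest.Agent.KP.VK

open Finset Sum

variable {X R : Type} {P : TriPres X R}

lemma del_pair {A : Finset (Tr P)} {L : List (Ou P)} {α : Sd P → Sd P} (D : Dg A L α)
    {t t' : Tr P} (ht : t ∈ A) (ht' : t' ∈ A)
    (h : ∀ i, α (inl (t, i)) = inl (t', i.rev)) [DecidableEq (Tr P)] :
    Dg ((A.erase t).erase t') L α := by
  classical
  have h' : ∀ i, α (inl (t', i)) = inl (t, i.rev) := fun i => by
    have := D.inv (inl (t, i.rev)) ht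
    rwa [h, Fin.rev_rev] at this
  have up : ∀ s, al ((A.erase t).erase t') L s ↔
      al A L s ∧ (∀ i, s ≠ inl (t, i)) ∧ ∀ i, s ≠ inl (t', i) := by
    rintro (⟨s, i⟩ | o)
    · simp only [al, mem_erase, ne_eq, inl.injEq, Prod.mk.injEq, not_and]
      constructor
      · rintro ⟨a, b, c⟩; exact ⟨c, fun _ e => (b e).elim, fun _ e => (a e).elim⟩
      · rintro ⟨a, b, c⟩; exact ⟨fun e => c i e rfl, fun e => b i e rfl, a⟩
    · simp [al]
  have hal : ∀ s, al ((A.erase t).erase t') L s → al ((A.erase t).erase t') L (α s) := fun s hs => by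
    obtain ⟨c1, c2, c3⟩ := (up s).1 hs
    exact (up _).2 ⟨D.hal s c1, fun i e => c3 i.rev (by rw [← D.inv s c1, e, h]),
      fun i e => c2 i.rev (by rw [← D.inv s c1, e, h'])⟩
  refine ⟨hal, fun s hs => D.inv s ((up s).1 hs).1, fun s hs => D.glue s ((up s).1 hs).1,
    fun z hz hF => ?_⟩
  let z' : Sd P → ZMod 2 := fun s => if (∃ i, s = inl (t, i)) ∨ ∃ i, s = inl (t', i) then 0 else z s
  have z1 : ∀ s, al ((A.erase t).erase t') L s → z' s = z s := fun s hs => by
    simp [z', ((up s).1 hs).2.1, ((up s).1 hs).2.2]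
  have z3 : ∀ i, z' (inl (t, i)) = 0 := fun i => by simp [z']
  have z4 : ∀ i, z' (inl (t', i)) = 0 := fun i => by simp [z']
  obtain ⟨u, hu, hu'⟩ := D.pl z' (fun s hs => by
    by_cases c1 : ∃ i, s = inl (t, i); · obtain ⟨i, rfl⟩ := c1; rw [h, z3, z4]
    by_cases c2 : ∃ i, s = inl (t', i); · obtain ⟨i, rfl⟩ := c2; rw [h', z3, z4]
    have := (up s).2 ⟨hs, not_exists.1 c1, not_exists.1 c2⟩
    rw [z1 s this, z1 _ (hal s this), hz s this]) (fun s hs => by
    by_cases c1 : s = t; · simp [c1, z3]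
    by_cases c2 : s = t'; · simp [c2, z4]
    have : s ∈ (A.erase t).erase t' := by simp [hs, c1, c2]
    rw [z1 (inl (s, 0)) this, z1 (inl (s, 1)) this, z1 (inl (s, 2)) this]; exact hF s this)
  refine ⟨u, ⟨fun s hs i => ?_, hu.2.imp_of_mem_imp fun x y _ hy e => ?_⟩,
    fun s hs => by rw [hu' s ((up s).1 hs).1, z1 s hs]⟩
  · rw [hu.1 s (mem_of_mem_erase (mem_of_mem_erase hs)) i, z1 (inl (s, i)) hs]
  · rw [e, z1 (inr y) hy]

lemma exists_red {l : List (X × Bool)} {m : P.G × R →₀ ℤ} (h : P.Der l m) :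
    ∃ A L α, Dg A L α ∧ L.Nodup ∧ wd L = l ∧ Pth 1 L ∧ ch A = m ∧
      ∀ t ∈ A, ∀ t' i, α (inl (t, i)) = inl (t', i.rev) → t'.2.2.1 = t.2.2.1 →
        t'.2.2.2 = t.2.2.2 := by
  classical
  have hex : ∃ n, ∃ A, Full l m A ∧ #A = n := (exists_full h).elim fun A h => ⟨_, A, h, rfl⟩
  obtain ⟨A, ⟨L, α, D, hnd, hw, hp, hc⟩, hA⟩ := Nat.find_spec hex
  refine ⟨A, L, α, D, hnd, hw, hp, hc, fun t ht t' i e hr => ?_⟩
  by_contra hs
  have ht' : t' ∈ A := by have := D.hal (inl (t, i)) ht; rwa [e] at this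
  obtain ⟨n, g, r, b⟩ := t
  obtain ⟨n', g', r', b'⟩ := t'
  simp only at hr hs
  subst hr
  obtain rfl : b' = !b := by revert hs; cases b <;> cases b' <;> simp
  have hg := D.glue (inl ((n, g, r', b), i)) ht
  rw [e] at hg
  simp only [ed, ← tri_rev] at hg
  obtain rfl := tri_inj hg
  have hne : ((n', g', r', !b) : Tr P) ≠ (n, g', r', b) := by simp
  have he : ∀ i : Fin 3, ed P (inl ((n', g', r', !b), i.rev)) =
      P.revE (ed P (inl ((n, g', r', b), i))) := fun i => tri_rev _ _ _ _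
  obtain ⟨β, E, b1, b2⟩ := repair_tri D ht ht' hne he i e
  obtain ⟨γ, F, c1, c2⟩ := repair_tri E ht ht' hne he (i + 1) b1
  have all : ∀ j, γ (inl ((n, g', r', b), j)) = inl ((n', g', r', !b), j.rev) := fun j => by
    by_cases d1 : j = i + 1 + 1; · rw [d1, c1]
    by_cases d2 : j = i + 1; · exact c2 j d1 (d2 ▸ b1)
    obtain rfl : j = i := by clear * - d1 d2; revert i j; decide
    exact c2 j d1 (b2 j d2 e)
  have hm : (n', g', r', !b) ∈ A.erase (n, g', r', b) := mem_erase.2 ⟨hne, ht'⟩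
  refine Nat.find_min hex (m := #((A.erase (n, g', r', b)).erase (n', g', r', !b))) ?_
    ⟨_, ⟨L, γ, del_pair F ht ht' all, hnd, hw, hp, ?_⟩, rfl⟩
  · rw [← hA]; exact (card_erase_lt_of_mem hm).trans (card_erase_lt_of_mem ht)
  · rw [← hc, ch, ch, ← add_sum_erase _ _ ht, ← add_sum_erase _ _ hm, ← add_assoc,
      ← Finsupp.single_add]
    cases b <;> simp

lemma pth_get {L : List (Ou P)} (hp : Pth 1 L) (j : ℕ) (hj : j < L.length) :
    L[j].2.1 = P.ev ((wd L).take j) := by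
  have := (pth_append 1 (L.take j) (L.drop j)).1 (by rwa [List.take_append_drop])
  rw [List.drop_eq_getElem_cons hj] at this
  rw [this.2.1, one_mul, wd, wd, List.map_take]

end Crest.Agent.KP.VK

namespace Crest.Agent.KP

open VK Finset Sum

theorem vk : VKStmt := by
  classical
  intro X R P l m h
  obtain ⟨A, L, α, D, hnd, rfl, hp, hc, hr⟩ := exists_red h
  have hl : (wd L).length = L.length := List.length_map _
  let e : (A × Fin 3) ⊕ Fin (wd L).length → Sd P := fun s => match s with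
    | inl (t, i) => inl (t.1, i)
    | inr j => inr (L[j.1]'(hl ▸ j.2))
  have ei : Function.Injective e := by
    rintro (⟨t, i⟩ | j) (⟨t', i'⟩ | j') c
    · simp only [e, inl.injEq, Prod.mk.injEq] at c
      rw [Subtype.ext c.1, c.2]
    · simp [e] at c
    · simp [e] at c
    · simp only [e, inr.injEq] at c
      rw [Fin.ext ((List.Nodup.getElem_inj_iff hnd).1 c)]
  have ea : ∀ s, al A L (e s) := by
    rintro (⟨t, i⟩ | j)
    · exact t.2
    · exact List.getElem_mem _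
  have es : ∀ s, al A L s → ∃ s', e s' = s := by
    rintro (⟨t, i⟩ | o) hs
    · exact ⟨inl (⟨t, hs⟩, i), rfl⟩
    · obtain ⟨j, hj, rfl⟩ := List.getElem_of_mem hs
      exact ⟨inr ⟨j, hl ▸ hj⟩, rfl⟩
  choose β hβ using fun s => es _ (D.hal _ (ea s))
  have ee : ∀ s, P.sideEdge (wd L) (fun t : A => t.1.2.2.1) (fun t => t.1.2.2.2) (fun t => t.1.2.1) s =
      ed P (e s) := by
    rintro (⟨t, i⟩ | j)
    · rfl
    · simp only [TriPres.sideEdge, ed, e, ← pth_get hp j.1 (hl ▸ j.2)]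
      exact congrArg P.revE (Prod.ext rfl (List.getElem_map _))
  refine ⟨A, inferInstance, ⟨fun t => t.1.2.2.1, fun t => t.1.2.2.2, fun t => t.1.2.1, β,
    fun s => ei (by rw [hβ, hβ, D.inv _ (ea s)]), fun s => by rw [ee, ee, hβ, D.glue _ (ea s)]⟩,
    fun z hz hF => ?_, fun t t' i c => hr t.1 t.2 t'.1 i ?_, ?_⟩
  · have ze : ∀ s, Function.extend e z 0 (e s) = z s := fun s => ei.extend_apply _ _ _
    obtain ⟨u, hu, hu'⟩ := D.pl (Function.extend e z 0) (fun s hs => by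
      obtain ⟨s, rfl⟩ := es s hs
      rw [← hβ, ze, ze]; exact hz s) (fun t ht => by
      have := hF ⟨t, ht⟩
      rwa [← ze, ← ze (inl (_, 1)), ← ze (inl (_, 2))] at this)
    refine ⟨u ∘ e, fun t i => ?_, fun s => ?_, fun j j' c => ?_⟩
    · rw [← ze]; exact hu.1 t.1 t.2 i
    · rw [← ze]; exact (congrArg u (hβ s)).trans (hu' _ (ea s))
    · rw [← ze]
      obtain ⟨j, hj⟩ := j
      obtain ⟨j', hj'⟩ := j'
      simp only at c
      subst c
      exact List.isChain_iff_getElem.1 hu.2 j' (hl ▸ hj)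
  · exact (hβ (inl (t, i))).symm.trans (congrArg e c)
  · rw [← hc]; exact sum_coe_sort A fun t => Finsupp.single (t.2.1, t.2.2.1) (cond t.2.2.2 (1 : ℤ) (-1))

end Crest.Agent.KP
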