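import Crest.Agent.KP.Alg
import Crest.Agent.KP.Asm
import Crest.Agent.KP.Clean
import Crest.Agent.KP.Design
import Crest.Agent.KP.Eul
import Crest.Agent.KP.Glo
import Crest.Agent.KP.Loc
import Crest.Agent.KP.Min
import Crest.Agent.KP.Plane
import Crest.Agent.KP.Pop
import Crest.Agent.KP.Prob
import Crest.Agent.KP.Rim
import Crest.Agent.KP.Sep
import Crest.Agent.KP.Sheet
import Crest.Agent.KP.VK

/-! # KP: the main existence theorem -/

namespace Crest.Agent.KP

theorem main : MainStmt :=
  asm plane design pop (loc prob clean sheet) (glo eul minor sep) vk rim alg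

end Crest.Agent.KP
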