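import Crest.Agent.KP.Stmts

/-! PROB, part A: switchings preserve the girth. -/

set_option autoImplicit false

namespace Crest.Agent.KP.Prob

open Finset

variable {S V Col : Type}

/-- normalised colour-respecting graph structures -/
structure Ok (lb : Lab S) (L : V → Finset S) (col : V → Col) (tr : Col → S → Col)
    (f : V → S → V) : Prop where
  mem : ∀ v s, s ∈ L v → lb.op s ∈ L (f v s)
  inv : ∀ v s, s ∈ L v → f (f v s) (lb.op s) = v
  cl : ∀ v s, s ∈ L v → col (f v s) = tr (col v) s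
  junk : ∀ v s, s ∉ L v → f v s = v

def rv (lb : Lab S) (f : V → S → V) (d : V × S) : V × S := (f d.1 d.2, lb.op d.2)

def IsP (lb : Lab S) (L : V → Finset S) (f : V → S → V) (k : ℕ) (p : ℕ → V × S) : Prop :=
  (∀ i, i < k → (p i).2 ∈ L (p i).1) ∧
    ∀ i, i + 1 < k → (p (i + 1)).1 = f (p i).1 (p i).2 ∧ p (i + 1) ≠ rv lb f (p i)

/-- closed non-backtracking path -/
def Cl (lb : Lab S) (L : V → Finset S) (f : V → S → V) (k : ℕ) (p : ℕ → V × S) : Prop :=
  0 < k ∧ IsP lb L f k p ∧ f (p (k - 1)).1 (p (k - 1)).2 = (p 0).1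

def Gir (lb : Lab S) (L : V → Finset S) (f : V → S → V) (g : ℕ) : Prop :=
  ∀ k p, k < g → ¬ Cl lb L f k p

lemma op_ne (lb : Lab S) (s : S) : lb.op s ≠ s := fun h => by
  have := lb.pos_op s
  rw [h] at this
  cases h' : lb.pos s <;> simp [h'] at this

/-- one step or no step -/
def St (f : V → S → V) (x y : V) : Prop := y = x ∨ ∃ t, y = f x t

/-- at distance at most `n` -/
def Nr (f : V → S → V) : ℕ → V → V → Prop
  | 0, x, y => y = x
  | n + 1, x, y => ∃ z, Nr f n x z ∧ St f z y

lemma Nr.trans {f : V → S → V} {m : ℕ} {x y : V} (h : Nr f m x y) :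
    ∀ {n : ℕ} {z : V}, Nr f n y z → Nr f (m + n) x z
  | 0, z, h' => by rw [show z = y from h']; exact h
  | n + 1, z, ⟨u, h1, h2⟩ => ⟨u, h.trans h1, h2⟩

lemma Nr.mono {f : V → S → V} {m n : ℕ} {x y : V} (h : Nr f m x y) (hmn : m ≤ n) : Nr f n x y := by
  induction hmn with
  | refl => exact h
  | step _ ih => exact ⟨y, ih, Or.inl rfl⟩

variable {lb : Lab S} {L : V → Finset S} {col : V → Col} {tr : Col → S → Col} {f : V → S → V}

lemma St.symm (hf : Ok lb L col tr f) {x y : V} (h : St f x y) : St f y x := by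
  rcases h with h | ⟨t, h⟩
  · exact Or.inl h.symm
  · by_cases ht : t ∈ L x
    · exact Or.inr ⟨lb.op t, by rw [h, hf.inv x t ht]⟩
    · exact Or.inl (by rw [h, hf.junk x t ht])

lemma Nr.symm (hf : Ok lb L col tr f) : ∀ {n : ℕ} {x y : V}, Nr f n x y → Nr f n y x
  | 0, _, _, h => Eq.symm h
  | n + 1, x, y, ⟨z, h1, h2⟩ => by
    have h3 : Nr f 1 y z := ⟨y, rfl, h2.symm hf⟩
    rw [add_comm]; exact h3.trans (h1.symm hf)

open Classical in
lemma card_Nr [Fintype S] [Fintype V] (f : V → S → V) (x : V) (n : ℕ) :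
    #{y | Nr f n x y} ≤ (Fintype.card S + 1) ^ n := by
  induction n with
  | zero => exact card_le_one.2 fun a ha b hb =>
      Eq.trans (mem_filter.1 ha).2 (Eq.symm (mem_filter.1 hb).2)
  | succ n ih =>
    have : ({y | Nr f (n + 1) x y} : Finset V) ⊆
        (({y | Nr f n x y} : Finset V) ×ˢ (univ : Finset (Option S))).image
          fun q => q.2.elim q.1 (f q.1) := by
      intro y hy
      obtain ⟨z, h1, h2⟩ := (mem_filter.1 hy).2
      rcases h2 with h2 | ⟨t, h2⟩
      · exact mem_image.2 ⟨(z, none), by simpa using h1, h2.symm⟩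
      · exact mem_image.2 ⟨(z, some t), by simpa using h1, h2.symm⟩
    refine (card_le_card this).trans (card_image_le.trans ?_)
    rw [card_product, card_univ, Fintype.card_option, pow_succ]
    exact Nat.mul_le_mul_right _ ih

lemma Nr_path {p : ℕ → V × S} (i n : ℕ)
    (h : ∀ m, i ≤ m → m < i + n → (p (m + 1)).1 = f (p m).1 (p m).2) :
    Nr f n (p i).1 (p (i + n)).1 := by
  induction n with
  | zero => rfl
  | succ n ih =>
    exact ⟨_, ih fun m h1 h2 => h m h1 (by omega), Or.inr ⟨_, h (i + n) (by omega) (by omega)⟩⟩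

/-- Abstract form of the switching lemma: `f'` differs from `f` on a set `N` of darts. -/
lemma avoid {f' : V → S → V} {N : Set (V × S)} {g h : ℕ} (hf : Ok lb L col tr f)
    (hG : Gir lb L f h) (h1 : ∀ x, x ∉ N → f' x.1 x.2 = f x.1 x.2)
    (h2 : ∀ x ∈ N, rv lb f' x ∈ N ∧ (rv lb f' x).2 ∈ L (rv lb f' x).1 ∧
      ¬ Nr f (g - 1) (rv lb f' x).1 x.1)
    (h3 : ∀ r ∈ N, ∀ y ∈ N, Nr f (g - 1) r.1 y.1 → y = r ∨ y = rv lb f r)
    {k : ℕ} {p : ℕ → V × S} (hkh : k ≤ h) (hkg : k < g) (hp : Cl lb L f' k p) :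
    ∀ i, i < k → p i ∉ N := by
  classical
  by_contra hcon
  push Not at hcon
  obtain ⟨hk, ⟨hv, hl⟩, hc⟩ := hp
  set i := Nat.find hcon with hi
  obtain ⟨hik, hiN⟩ : i < k ∧ p i ∈ N := Nat.find_spec hcon
  have hmin : ∀ m, m < i → p m ∉ N := fun m hm h => Nat.find_min hcon hm ⟨by omega, h⟩
  obtain ⟨hr, hrL, hfar⟩ := h2 _ hiN
  by_cases hex : ∃ j, i < j ∧ j < k ∧ p j ∈ N
  · set j := Nat.find hex with hj
    obtain ⟨hij, hjk, hjN⟩ : i < j ∧ j < k ∧ p j ∈ N := Nat.find_spec hex
    have hold : ∀ m, i < m → m < j → p m ∉ N := fun m h1 h2 h =>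
      Nat.find_min hex h2 ⟨h1, by omega, h⟩
    have hlink : ∀ m, i < m → m < j →
        (p (m + 1)).1 = f (p m).1 (p m).2 ∧ p (m + 1) ≠ rv lb f (p m) := by
      intro m h4 h5
      have := hl m (by omega)
      rwa [rv, h1 _ (hold m h4 h5)] at this
    have ht : (p (i + 1)).1 = (rv lb f' (p i)).1 := (hl i (by omega)).1
    have hn := Nr_path (f := f) (p := p) (i + 1) (j - (i + 1))
      fun m h4 h5 => (hlink m (by omega) (by omega)).1
    rw [show i + 1 + (j - (i + 1)) = j by omega, ht] at hn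
    rcases h3 _ hr _ hjN (hn.mono (by omega)) with he | he
    · have hne : i + 1 ≠ j := fun h => (hl i (by omega)).2 (by rw [h, he])
      refine hG (j - (i + 1)) (fun m => p (i + 1 + m)) (by omega)
        ⟨by omega, ⟨fun m hm => hv _ (by omega), fun m hm => hlink (i + 1 + m) (by omega) (by omega)⟩, ?_⟩
      have := (hlink (j - 1) (by omega) (by omega)).1
      rw [show j - 1 + 1 = j by omega] at this
      simp only [show i + 1 + (j - (i + 1) - 1) = j - 1 by omega, add_zero]
      rw [← this, ht, he]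
    · set r := rv lb f' (p i) with hrdef
      have hrr : f (rv lb f r).1 (rv lb f r).2 = r.1 := hf.inv _ _ hrL
      have hrr' : rv lb f (rv lb f r) = r := by
        rw [rv, hrr]; simp [rv, lb.op_op]
      refine hG (j - i) (fun m => if m = 0 then rv lb f r else p (i + m)) (by omega)
        ⟨by omega, ⟨fun m hm => ?_, fun m hm => ?_⟩, ?_⟩
      · dsimp only
        split_ifs
        · exact hf.mem _ _ hrL
        · exact hv _ (by omega)
      · dsimp only
        rw [if_neg (by omega)]
        split_ifs with hm0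
        · subst hm0
          rw [hrr, hrr']
          exact ⟨ht, (hl i (by omega)).2⟩
        · exact hlink (i + m) (by omega) (by omega)
      · dsimp only
        rw [if_pos rfl, ← he]
        split_ifs with hm0
        · rw [he, hrr, ← ht, show i + 1 = j by omega, he]
        · have := (hlink (j - 1) (by omega) (by omega)).1
          rw [show j - 1 + 1 = j by omega] at this
          rw [show i + (j - i - 1) = j - 1 by omega, ← this]
  · push Not at hex
    set q : ℕ → V × S := fun m => if m = k then p 0 else p m with hq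
    have hq1 : ∀ m, m < k → (q (m + 1)).1 = f' (p m).1 (p m).2 := by
      intro m hm
      simp only [hq]
      split_ifs with h
      · rw [← hc, ← h]; simp
      · exact (hl m (by omega)).1
    have hA := Nr_path (f := f) (p := q) (i + 1) (k - (i + 1)) fun m h4 h5 => by
      rw [hq1 m (by omega), h1 _ (hex m (by omega) (by omega))]
      simp only [hq, if_neg (show m ≠ k by omega)]
    have hB := Nr_path (f := f) (p := p) 0 i fun m _ h5 => by
      rw [(hl m (by omega)).1, h1 _ (hmin m (by omega))]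
    rw [show i + 1 + (k - (i + 1)) = k by omega, hq1 i hik] at hA
    simp only [hq, if_true] at hA
    rw [zero_add] at hB
    exact hfar ((hA.trans hB).mono (by omega))

variable [DecidableEq S] [DecidableEq V]

/-- the switching -/
def sw (lb : Lab S) (L : V → Finset S) (a w : V) (s : S) (f : V → S → V) : V → S → V :=
  fun v t => if t = s then f (Equiv.swap a w v) s
    else if t = lb.op s ∧ t ∈ L v then Equiv.swap a w (f v t) else f v t

lemma sw_sw (a w : V) (s : S) (f : V → S → V) : sw lb L a w s (sw lb L a w s f) = f := by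
  funext v t
  by_cases h : t = s
  · simp [sw, h]
  · by_cases h' : t = lb.op s ∧ t ∈ L v
    · simp only [sw, if_neg h, if_pos h', Equiv.swap_apply_self]
    · simp only [sw, if_neg h, if_neg h']

lemma sw_ok (hf : Ok lb L col tr f) {a w : V} {s : S} (ha : s ∈ L a) (hw : s ∈ L w)
    (hc : col w = col a) : Ok lb L col tr (sw lb L a w s f) := by
  have hL : ∀ v, s ∈ L v → s ∈ L (Equiv.swap a w v) := fun v hv => by
    rw [Equiv.swap_apply_def]; split_ifs <;> assumption
  have hC : ∀ v, col (Equiv.swap a w v) = col v := fun v => by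
    rw [Equiv.swap_apply_def]; split_ifs with h1 h2 <;> simp_all
  have hne := op_ne lb s
  refine ⟨fun v t ht => ?_, fun v t ht => ?_, fun v t ht => ?_, fun v t ht => ?_⟩
  · by_cases h : t = s
    · subst h; simpa [sw] using hf.mem _ _ (hL v ht)
    · by_cases h' : t = lb.op s
      · subst h'
        have := hf.mem _ _ ht
        rw [lb.op_op] at this ⊢
        simpa [sw, hne, ht] using hL _ this
      · simpa [sw, h, h'] using hf.mem _ _ ht
  · by_cases h : t = s
    · subst h; simp [sw, hne, hf.mem _ _ (hL v ht), hf.inv _ _ (hL v ht)]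
    · by_cases h' : t = lb.op s
      · subst h'
        have := hf.inv _ _ ht
        rw [lb.op_op] at this ⊢
        simpa [sw, hne, ht] using this
      · have h1 : lb.op t ≠ s := fun e => h' (by rw [← e, lb.op_op])
        have h2 : lb.op t ≠ lb.op s := fun e => h (by rw [← lb.op_op t, e, lb.op_op])
        simpa [sw, h, h', h1, h2] using hf.inv _ _ ht
  · by_cases h : t = s
    · subst h; simpa [sw, hC] using hf.cl _ _ (hL v ht)
    · by_cases h' : t = lb.op s
      · subst h'; simpa [sw, hne, ht, hC] using hf.cl _ _ ht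
      · simpa [sw, h, h'] using hf.cl _ _ ht
  · by_cases h : t = s
    · subst h
      have h1 : v ≠ a := fun e => ht (e ▸ ha)
      have h2 : v ≠ w := fun e => ht (e ▸ hw)
      simpa [sw, Equiv.swap_apply_of_ne_of_ne h1 h2] using hf.junk _ _ ht
    · simpa [sw, h, ht] using hf.junk _ _ ht

/-- the four changed darts -/
def ch (lb : Lab S) (f : V → S → V) (a w : V) (s : S) : Set (V × S) :=
  {(a, s), (f a s, lb.op s), (w, s), (f w s, lb.op s)}

lemma sw_old (hf : Ok lb L col tr f) (a w : V) (s : S) (x : V × S) (hx : x ∉ ch lb f a w s) :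
    sw lb L a w s f x.1 x.2 = f x.1 x.2 := by
  obtain ⟨v, t⟩ := x
  simp only [ch, Set.mem_insert_iff, Prod.mk.injEq, Set.mem_singleton_iff, not_or, not_and] at hx
  obtain ⟨h1, h2, h3, h4⟩ := hx
  simp only [sw]
  split_ifs with h h'
  · rw [Equiv.swap_apply_of_ne_of_ne (fun e => h1 e h) (fun e => h3 e h), h]
  · obtain ⟨rfl, h'⟩ := h'
    have := hf.inv _ _ h'
    rw [lb.op_op] at this
    exact Equiv.swap_apply_of_ne_of_ne (fun e => h2 (by rw [← e, this]) rfl)
      (fun e => h4 (by rw [← e, this]) rfl)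
  · rfl

lemma sw_cl (hf : Ok lb L col tr f) {g h : ℕ} (hG : Gir lb L f h) {a w : V} {s : S}
    (ha : s ∈ L a) (hw : s ∈ L w) (hfa : ¬ Nr f g a w) (hfb : ¬ Nr f g (f a s) w)
    {k : ℕ} {p : ℕ → V × S} (hkh : k ≤ h) (hkg : k < g) (hp : Cl lb L (sw lb L a w s f) k p) :
    Cl lb L f k p ∧ p 0 ≠ (a, s) := by
  have hne := op_ne lb s
  have hb := hf.mem _ _ ha
  have hw' := hf.mem _ _ hw
  have e1 : rv lb (sw lb L a w s f) (a, s) = (f w s, lb.op s) := by simp [rv, sw]
  have e2 : rv lb (sw lb L a w s f) (w, s) = (f a s, lb.op s) := by simp [rv, sw]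
  have e3 : rv lb (sw lb L a w s f) (f a s, lb.op s) = (w, s) := by
    simp [rv, sw, hne, hb, hf.inv _ _ ha, lb.op_op]
  have e4 : rv lb (sw lb L a w s f) (f w s, lb.op s) = (a, s) := by
    simp [rv, sw, hne, hw', hf.inv _ _ hw, lb.op_op]
  have r1 : rv lb f (f a s, lb.op s) = (a, s) := by simp [rv, hf.inv _ _ ha, lb.op_op]
  have r2 : rv lb f (f w s, lb.op s) = (w, s) := by simp [rv, hf.inv _ _ hw, lb.op_op]
  have hst : ∀ x, Nr f (g - 1) x (f w s) → Nr f g x w := fun x hx => by
    have : Nr f (g - 1 + 1) x w := ⟨_, hx, Or.inr ⟨lb.op s, (hf.inv _ _ hw).symm⟩⟩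
    exact this.mono (by omega)
  have f1 : ¬ Nr f (g - 1) a w := fun h => hfa (h.mono (by omega))
  have f2 : ¬ Nr f (g - 1) (f a s) w := fun h => hfb (h.mono (by omega))
  have f3 : ¬ Nr f (g - 1) a (f w s) := fun h => hfa (hst _ h)
  have f4 : ¬ Nr f (g - 1) (f a s) (f w s) := fun h => hfb (hst _ h)
  have g1 : ¬ Nr f (g - 1) w a := fun h => f1 (h.symm hf)
  have g2 : ¬ Nr f (g - 1) w (f a s) := fun h => f2 (h.symm hf)
  have g3 : ¬ Nr f (g - 1) (f w s) a := fun h => f3 (h.symm hf)
  have g4 : ¬ Nr f (g - 1) (f w s) (f a s) := fun h => f4 (h.symm hf)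
  have key := avoid (g := g) hf hG (sw_old hf a w s) (by
      rintro x (rfl | rfl | rfl | rfl)
      · rw [e1]; exact ⟨by simp [ch], hw', g3⟩
      · rw [e3]; exact ⟨by simp [ch], hw, g2⟩
      · rw [e2]; exact ⟨by simp [ch], hb, f2⟩
      · rw [e4]; exact ⟨by simp [ch], ha, f3⟩)
    (by
      rintro r (rfl | rfl | rfl | rfl) y (rfl | rfl | rfl | rfl) hn <;>
        first
        | exact Or.inl rfl
        | exact Or.inr rfl
        | exact Or.inr r1.symm
        | exact Or.inr r2.symm
        | contradiction) hkh hkg hp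
  obtain ⟨hk, ⟨hv, hl⟩, hc⟩ := hp
  refine ⟨⟨hk, ⟨hv, fun i hi => ?_⟩, ?_⟩, fun e => key 0 hk (by simp [e, ch])⟩
  · have := hl i hi
    rwa [rv, sw_old hf a w s _ (key i (by omega))] at this
  · rwa [sw_old hf a w s _ (key _ (by omega))] at hc

end Crest.Agent.KP.Prob
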