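import Crest.Agent.KP.Defs

/-!
# KP: the sub-task statements

Each `…Stmt` is proved in its own file `Crest/Agent/KP/<Name>.lean` (importing this file), as a
theorem with the name and hypotheses given at the start of the docstring.
-/

set_option autoImplicit false

namespace Crest.Agent.KP

open Finset
open Crest.Topology Crest.GroupTheory Crest.AlgebraR.GroupRingDet

/-! ## Algebra and topology of triangular presentations -/

/-- **ALG** (`Alg.lean`, `theorem alg : AlgStmt`).
(1) The words with a derivation: closed under concatenation (`Der l m → Der l' m' → Der (l ++ l')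
(m + m')`, as `ev l = 1`; induct on the second derivation; for insertion in the middle,
`Der (l₁ ++ l₂) m → Der l m' → Der (l₁ ++ l ++ l₂) (m + ev l₁ • m')`, translate with `mapDomain`),
under `FreeGroup.invRev` (chain negated), under free reduction/expansion (`FreeGroup.Red`); so
`{w | ∃ l m, mk l = w ∧ Der l m}` is a normal subgroup containing the relators.
(2) Stokes: induction on `Der` (`pathSum` over `++`).
(3) `Iso C` at `[]` gives uniqueness of the chain `ψ l` of a trivial word (`Der l m`, `Der l m'` give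
`Der (l ++ invRev l) (m - m')`, which reduces to `[]`).  Choose a word `t g` for each `g`, put
`Ψ g x = ψ (t g ++ (x,true) :: invRev (t (g x)))`; then `Ψ g a + Ψ (g a) b - Ψ g c = single (g,r) 1`
(both are chains of words freely equal to `t g ++ a b c⁻¹ ++ invRev (t g)`), so
`β g x = (Ψ g x).sum (fun gr k => k • γ gr.1 gr.2)` has `cob β = γ`.  `LinIso` is Stokes.
(4) Let `x` have order `n ≥ 2`; pick `a : G → ZMod n` with `a (x g) = a g + 1` (coset
representatives).  `η g y = (a (g y) - a g).val : ℤ` is invariant under `g ↦ x g`, `cob η = n • c`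
with `c` invariant; `c' = c · 1[a g = 0] = cob β'`, `Nβ' g y = Σ_{i<n} β' (x^i g) y` has
`cob Nβ' = c`; the cocycle `η - n Nβ'` has zero `pathSum` on the trivial word `l^n` (`ev l = x`), and
invariance gives `n * pathSum η 1 l = n * n * pathSum Nβ' 1 l`; but `pathSum η 1 l ≡ 1 (mod n)`. -/
def AlgStmt : Prop :=
  ∀ (X R : Type) (P : TriPres X R),
    (∀ l, P.ev l = 1 → ∃ m, P.Der l m) ∧
    (∀ (A : Type) [AddCommGroup A] (β : P.G → X → A) (l : List (X × Bool)) (m : P.G × R →₀ ℤ),
      P.Der l m → P.pathSum β 1 l = m.sum fun gr k => k • P.cob β gr.1 gr.2) ∧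
    (∀ C : ℕ, P.Iso C → P.H2zero ∧ P.LinIso C) ∧
    (P.H2zero → ∀ g : P.G, IsOfFinOrder g → g = 1)

/-- **HYP** (`Hyp.lean`, `theorem hyp : HypStmt`).  `d` = word distance of the generators.
For 1-Lipschitz `ρ₁ ρ₂ : G → ℝ`, `β g x = ρ₁ g * (ρ₂ (g x) - ρ₂ g)` has `|cob β| ≤ 1`, so for a closed
edge path `p₀,…,p_n`: `|Σ ρ₁(p_i)(ρ₂(p_{i+1}) - ρ₂(p_i))| ≤ (C+1) n`.  Besicovitch: if a closed path is
cut into four arcs I, II, III, IV with `d(I,III) ≥ r₁`, `d(II,IV) ≥ r₂` then `ρ₁ = min (d(·,I)) r₁`,
`ρ₂ = min (d(·,II)) r₂` give `r₁ r₂ ≤ (C+1) n`.  Slim triangles: if `p ∈ [x,y]` is at distance `≥ 10k`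
from `Q = [x,z] ∪ [z,y]`, let `u`, `v` be the nearest points of `[x,y]` before and after `p` at distance
exactly `k` from `Q` (feet `u'`, `v'`), `α = d(u,v) ≥ 18k`.  Feet on one side: quadrilateral
`u v v' u'`, `k (α - 2k) ≤ (C+1)(2α + 4k)`.  Feet on different sides: walk from `u'` towards `z` to the
first `u''` within `k` of a point `v''` of `[v',z]`; hexagon `u v v' v'' u'' u'`, take I = the longest of
the three long sides (distance `≥ k/2` from the opposite three sides); if `u'' = u'` replace `u'` by
`v''` and use the quadrilateral.  So `k` is bounded.  Then `(x|y)_w ≤ d(w,[x,y]) ≤ (x|y)_w + 2δ` and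
slimness of `x y z` give the four-point condition. -/
def HypStmt : Prop :=
  ∀ (X R : Type) [Fintype X] (P : TriPres X R) (C : ℝ), P.LinIso C → IsHyperbolicGroup P.G

/-- **TOP1** (`Top1.lean`, `theorem top1 : Top1Stmt`).  For any data (vertices `C0`, edges `C1` with
ends, triangles `C2` with sides) take the space of normal forms
`C0 ⊕ (C1 × Ioo 0 1) ⊕ (C2 × Ioo 0 1 × Ioo 0 1)` with characteristic maps defined by cases and the
topology coinduced by them (supremum of coinduced topologies): the gluing property is then by cases.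
With barycentric coordinates `(1-s, s(1-t), s t)` on the squares, gluing gives continuous real
coordinates (top cell: `x0 x1 x2 · x_i`; edge `e`: `x_i x_j · x_i`, `x_i x_j · x_j` summed over the
sides equal to `e`; vertex: sum of the `x_i` at that vertex), which separate points (T2) and invert
the open cells continuously.  Apply it to the Cayley data (`Y`) and to the one-vertex data (`X₀`).
`G` acts on `Y` freely, `Y → X₀` is a quotient map whose fibres are the orbits; the open set where the
coordinate of a vertex is positive meets finitely many of its translates, so with T2 we get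
`IsQuotientCoveringMap`; `IsQuotientCoveringMap.fundamentalGroupEquiv`, `MulEquiv.inv'`,
`CWComplex.mkFinite` (cells `Unit`, `X`, `R`, then `PEmpty`; rescale `[-1,1]` to `[0,1]`). -/
def Top1Stmt : Prop :=
  ∀ (X R : Type) [Fintype X] [Fintype R] (P : TriPres X R),
    (∀ (Y : Type) [TopologicalSpace Y], P.CayleyCells Y → ContractibleSpace Y) →
    HasFiniteClassifyingComplex P.G 2

/-- **TOP2** (`Top2.lean`, `theorem top2 : Top2Stmt`).  Obstruction theory by hand.  `* = v 1`,
`Ω g = Path * (v g)`.  (a) Paths `γ g : Ω g` with `γ g · ε g x ≃ γ (g x)`: the free group acts on pairs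
`(g, class of a path * → v g)` by appending edges, relators act trivially (the squares), so
`PresentedGroup.toGroup` gives the family.  (b) `A = π₁(Ω 1, refl)` is commutative (Eckmann–Hilton);
for a loop `β` in `Ω g` at a point joined to `γ g`, `J g β ∈ A` is the class of `β · (γ g)⁻¹`
transported to `refl` (independent of the transport); `J g` is bijective on each vertex group
(`· (γ g)⁻¹` is a homotopy equivalence, `FundamentalGroupoidFunctor.equivOfHomotopyEquiv`), and
`J (g x) (β · ε g x) = J g β` (`homotopicMapsNatIso`).  (c) Choose `h e : Path (γ g · ε g x) (γ (g x))`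
in `Ω (g x)`.  A square gives a path `θ` in `Ω` from `γ g · ε c` to `(γ g · ε a) · ε b` (straight-line
interpolation in `[-1,1] × [0,1]`, mapped by `(x,y) ↦ γ (x+1)` for `x ≤ 0`, `χ (x,y)` for `x ≥ 0`); the
obstruction compares `h c` with `θ · (h a · ε b) · h b`; replacing `h e` by `h e · β e` changes it by a
coboundary, so `H2zero` (in `Additive A`) kills it.  (d) With `ap γ ε a u = Λ (u (1 + a) - 1)`
(`Λ x = γ (x+1)` for `x ≤ 0`, `ε x` for `x ≥ 0`; `ap γ ε 0 = γ`, `ap γ ε 1 = γ.trans ε`) glue a map
`s : Y → C(I, Y)`: on an edge `ap γ ε (4s)` for `s ≤ 1/2`, `h (4s - 2)` after (clamped); on a square,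
by zones: `s ≤ 1/4` append the horizontal segment of `χ` at height `4t`; `1/4 ≤ s ≤ 1/2`, `t ≤ 1/4`
interpolate; `s ≥ 1/2`, `t ≤ 1/4` append part of `ε b` to `h a`; the rest lies in `Ω (g c)` and is
filled by `ap` of two paths in `Ω` and then the homotopy.  `s y` joins `*` to `ρ y`, where `ρ` clamps
the cell coordinates by `s ↦ min (4 s) 1`, and `ρ ≃ id` by gluing too. -/
def Top2Stmt : Prop :=
  ∀ (X R : Type) (P : TriPres X R), P.H2zero →
    ∀ (Y : Type) [TopologicalSpace Y], P.CayleyCells Y → ContractibleSpace Y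

/-- **VK** (`VK.lean`, `theorem vk : VKStmt`).  First a planar diagram with chain `m`, by induction on
`Der` (an intermediate structure whose outer sides are any finite type with a position function, or a
list, may be easier than `Fin`).  `ins`: two new outer sides glued together; `pos`/`neg`: a new
triangle glued to three new outer sides; `del`: if the two outer sides `p, p+1` are glued together
drop them, otherwise glue `α p` to `α (p+1)` (extend `z` to `p, p+1` by the common value).  Then take
a planar diagram with chain `m` with fewest triangles.  If `d = (t,i)` is glued to `d' = (t', i.rev)`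
with mirror triangles (so `t ≠ t'`, equal `pot`), re-pair `x = (t,i+1)` with `y = (t',(i+1).rev)` and
`α x` with `α y`: planarity is kept (if `z x ≠ z (α x)` first add the coboundary of the indicator of
the corners `{x, d'}`, which is the indicator of `{x, y, d, d'}`); do it twice, then delete the closed
pair `t, t'` (extend `z` by zero). -/
def VKStmt : Prop :=
  ∀ (X R : Type) (P : TriPres X R) (l : List (X × Bool)) (m : P.G × R →₀ ℤ), P.Der l m →
    ∃ (T : Type) (_ : Fintype T) (D : P.TDiag l T), D.Planar ∧ D.Reduced ∧ D.chain = m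

/-- **RIM** (`Rim.lean`, `theorem rim : RimStmt`).  The dart of `t` is `rl t` or its reverse according
to `sg t`; then side `0` has letter `(inr tail, true)`, side `1` the label, side `2` `(inr head, false)`.
`α (t,2)` is `(t',0)` (put `φ t = t'`) or outer (`t ∈ cut`); extend the partial injection by
`Equiv.extendSubtype`.  `M.α t = t'` if `α (t,1) = (t',1)`, else `t`.  For `t ∈ cut`, `(φ t, 0)` is glued
to an outer side whose letter in `l` is `(inr tail, true)`.  Planarity: apply `D.Planar` to
`z (t,0) = y t`, `z (t,1) = z t`, `z (t,2) = y t + z t`, `0` on outer sides; `u t = u (t,1)`. -/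
def RimStmt : Prop :=
  ∀ (S V : Type) (lb : Lab S) (L : V → Finset S) (Γ : LGraph lb L)
    (l : List (({s : S // lb.pos s = true} ⊕ V) × Bool)) (T : Type) [Fintype T] [DecidableEq T]
    (D : Γ.pres.TDiag l T), D.Planar → D.Reduced →
    ∃ M : RMap Γ T, PlanarC M.φ M.α M.cut ∧
      #{t : T | M.α t = t} ≤ l.countP (fun y => y.1.isLeft) ∧
      #M.cut ≤ l.countP (fun y => y.1.isRight && y.2) ∧
      ∀ t ∈ M.cut, (Sum.inr (M.d (M.φ t)).1, true) ∈ l

/-! ## Planar maps -/

/-- **EUL** (`Eul.lean`, `theorem eul : EulStmt`).  `U` = number of unglued sides, `E = (|T| - U)/2`.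
`y ↦ y + y ∘ φ` is injective on `{y | y = 0 on φ(cut)}` (every cycle is cut), so its range has
codimension `#cut`; the `α`-invariant `z` vanishing on unglued sides have dimension `E`.  By planarity
each `z` in the intersection is `t ↦ u t + u (α t)` with `u (φ t) = u (α t)` off `cut`; such `u` are the
functions on the classes ("vertices") of the relation generated by `φ t ~ α t` (`t ∉ cut`).  So
`E - #cut ≤ V`.  `V = Σ_s 1/|class s| ≤ V₁ + (|T| - D₃ - V₁)/2 + D₃/3` (`D₃` = elements in classes of size
`≥ 3`), a singleton class lies in `α(cut)` or is unglued, and an irregular `t` is cut, or `t` or `φ t`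
is unglued, or `α (φ t) ∈ cut`, or the class of `φ t` contains the distinct `φ t`, `α t`, `φ (α (φ t))`.
Second part: now every invariant `z` has total sum zero so lies in the range, and constants are in
the kernel of `u ↦ z`, so `E ≤ V - 1`, forcing `V₁ ≥ 2 > #cut`. -/
def EulStmt : Prop :=
  ∀ (T : Type) [Fintype T] [DecidableEq T] (φ : Equiv.Perm T) (α : T → T) (cut : Finset T),
    (∀ t, α (α t) = t) → PlanarC φ α cut → (∀ t, ∃ k : ℕ, (φ ^ k) t ∈ cut) →
    (∀ t, t ∉ cut → α t ≠ t → φ t ≠ α t) →
    (∃ B : Finset T, (∀ t, t ∉ B → Reg φ α cut t) ∧ #B ≤ 12 * (#cut + #{t : T | α t = t})) ∧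
    ((∀ t, α t ≠ t) → #cut ≠ 1)

/-- **MIN** (`Min.lean`, `theorem minor : MinStmt`).  Suppose branch sets `B i`; choose for `i < j` a
glued pair `{t i j, α (t i j)}` joining `B i` to `B j` (the set `M` of 28 pairs); `I` = glued pairs with
both faces in one `B i`.  Each even subgraph `ζ` of `K₈` (dimension `≥ 28 - 8`) extends to an invariant
`z` supported on `M ∪ I`, equal to `ζ` on `M`, with zero sum on every face (T-join lemma: in a
connected graph any demand of even total is the boundary of an edge set), so `z = y + y ∘ φ` (zero sum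
on each cycle) and planarity gives `u` with `u ∘ φ = u ∘ α = u + z`.  Regions = classes of the relation
generated by `φ t ~ α t` and by `t ~ α t` for pairs not in `M ∪ I`; `u` is a sum of indicators of
regions.  The coboundary of one region has zero face sums, so its restriction to `M` is an even
subgraph of `K₈`: empty or with `≥ 3` edges; each pair of `M` is met by at most two regions.  Hence
`20 ≤ 2 * 28 / 3`, false. -/
def MinStmt : Prop :=
  ∀ (T J : Type) [Fintype T] [DecidableEq T] (φ : Equiv.Perm T) (α : T → T) (f : T → J),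
    (∀ t, α (α t) = t) → PlanarC φ α ∅ → (∀ a b, f a = f b ↔ φ.SameCycle a b) →
    ¬ HasKMinor (dualGraph α f) 8

/-- **SEP** (`Sep.lean`, `theorem sep : SepStmt`): graphs without a `K_h` minor are hyperfinite.
Separator theorem of Alon–Seymour–Thomas (in any vertex set `W`, at most `h^{3/2} √|W|` vertices whose
removal leaves components of size `≤ 2|W|/3`; their Lemma: for `A₁..A_k ⊆ W` and `r ≥ 1` there is a
connected set of `≤ r` vertices meeting all `A_i`, or a set `Z` of `≤ (k-1)|W|/r` vertices such that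
no component of `W \ Z` meets all `A_i` — BFS layers in `k-1` chained copies), or the ball-growing
version of Plotkin–Rao–Smith; any bound `c |W|^β`, `β < 1`, will do.  Then recurse on components:
cost at most `|W| · A (K'^{-1/2} - |W|^{-1/2})` for `|W| > K`, `K' = 2K/3`. -/
def SepStmt : Prop :=
  ∀ (h : ℕ) (ε : ℝ), 0 < ε → ∃ K : ℕ, ∀ (J : Type) [Fintype J] [DecidableEq J] (H : SimpleGraph J),
    ¬ HasKMinor H h → ∃ (S : Finset J) (cl : J → J), (#S : ℝ) ≤ ε * Fintype.card J ∧
      (∀ a b, a ∉ S → b ∉ S → H.Adj a b → cl a = cl b) ∧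
      ∀ κ, #{a : J | a ∉ S ∧ cl a = κ} ≤ K

/-- **GLO** (`Glo.lean`, `theorem glo (hE : EulStmt) (hM : MinStmt) (hS : SepStmt) : GloStmt`).
`Δ = Λ g`.  Seams `Sm ⊇ cut` meeting every cycle, cutting `T` into arcs ("pieces", `f t` = the first
`φ^k t ∈ Sm`) of length `< 2Δ`, each of length `≥ Δ`, or a whole uncut cycle (length `≥ g` by girth), or
a whole short fan from a cut to a cut.  `φ'` closes each piece (`φ' t = φ t` off `Sm`, the start of the
piece on `Sm`).  `PlanarC φ α Sm` (monotone) and `PlanarC φ' α ∅` (use `y t = y' t + y' (start)`; `u + y'`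
is constant on a piece).  EUL gives `B ⊇ Sm`; MIN and SEP on `J = Sm` give removed pieces `S` and
clusters of `≤ K₁` pieces; in part one also remove the short fans (`≤ #cut`).  A cluster `T_κ` is an
`RMap` (`φ'`, `α` restricted, partners outside become unglued; cuts = seams except those of whole uncut
cycles); links off `B` stay regular.  Clusters with `#(B ∩ T_κ) > K₂` hold at most
`2 K₁ Δ #B / K₂` sides; for the others `Good` applies with `K = max (2 K₁ Λ) K₂` (except a cluster that
is one short rooted fan).  Unglued sides in clusters: `≤ U + 2Δ #S`.  With `g (#J - #short) ≤ |T|`, small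
`ε` and large `K₂` give the bound.  Part two: `#J = 1` contradicts the second half of EUL; if `#J ≥ 2`
the pieces other than the short fan have total length `≥ g #J / 2`. -/
def GloStmt : Prop :=
  ∀ (c : ℝ) (Λ : ℕ), 0 < c → 1 ≤ Λ → ∃ K : ℕ,
    ∀ (S V : Type) [DecidableEq V] (lb : Lab S) (L : V → Finset S) (Γ : LGraph lb L) (c0 : V)
      (g : ℕ), 1 ≤ g → Good Γ c0 g Λ K c →
      (∃ C : ℕ, ∀ (T : Type) [Fintype T] [DecidableEq T] (M : RMap Γ T), PlanarC M.φ M.α M.cut →
        Fintype.card T ≤ C * (#{t : T | M.α t = t} + #M.cut)) ∧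
      ∀ (T : Type) [Fintype T] [DecidableEq T] (M : RMap Γ T), PlanarC M.φ M.α M.cut →
        (∀ t, M.α t ≠ t) → #M.cut ≤ 1 → (∀ t ∈ M.cut, (M.d (M.φ t)).1 = c0) → IsEmpty T

/-! ## The random graph -/

/-- **PROB** (`Prob.lean`, `theorem prob : ProbStmt`).  `Ω` = colour-respecting graph structures
(equivalently bijections from positive darts `(v,s)` to negative darts `(v', op s)` with
`col v' = tr (col v) s`; nonempty by `bal`), a finite type.  Switching: for positive darts `d ↦ d'`,
`d₂ ↦ d₂'` of the same colour and label with the tail of `d₂` at distance `> g` from both ends of `d`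
(this excludes at most `2 (|S|+1)^g` darts), send `d ↦ d₂'`, `d₂ ↦ d'`.  If the old graph has girth
`≥ h` (`h ≤ g`), no closed non-backtracking path of length `≤ h`, `< g`, uses a new edge (new edges cross
between the two far regions, so they are used at least twice, and between two consecutive uses there
is an old path of length `≥ h - 1`).  So girth `≥ g` is reachable (induct on `h`, minimise the number of
darts starting a closed path of length `h`), and on `Ω_g` the switch `(ω, d₂) ↦ ω'` is injective for a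
fixed prescribed edge `z = (d ↦ d')`: `#(Z ∪ {z} realised) · (N - |Z| - 2(|S|+1)^g) ≤ #(Z realised)`.
Finish with a union bound over the `ξ` violating the inequality. -/
def ProbStmt : Prop :=
  ∀ (S V Col : Type) [Fintype S] [DecidableEq S] [Fintype V] [DecidableEq V] [DecidableEq Col]
    (lb : Lab S) (L : V → Finset S) (col : V → Col) (tr : Col → S → Col) (g M : ℕ),
    (∀ κ s, tr (tr κ s) (lb.op s) = κ) →
    (∀ κ s, N1 L col κ s = N1 L col (tr κ s) (lb.op s)) →
    (∀ v s, s ∈ L v → M + 2 * (Fintype.card S + 1) ^ g < N1 L col (col v) s) →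
    ∀ (Ξ : Type) [Fintype Ξ] (W : Ξ → ℝ) (Z : Ξ → Finset (V × S × V)), (∀ ξ, 0 ≤ W ξ) →
    ∃ Γ : LGraph lb L, (∀ v s, s ∈ L v → col (Γ.nxt v s) = tr (col v) s) ∧ Γ.Girth g ∧
      ∀ ξ, #(Z ξ) ≤ M →
        (∀ z ∈ Z ξ, lb.pos z.2.1 = true ∧ z.2.1 ∈ L z.1 ∧ Γ.nxt z.1 z.2.1 = z.2.2) →
        W ξ * ∏ z ∈ Z ξ, ((N1 L col (col z.1) z.2.1 : ℝ) - (M + 2 * (Fintype.card S + 1) ^ g)) ≤
          2 * ∑ ξ', W ξ'

/-- **CLEAN** (`Clean.lean`, `theorem clean : CleanStmt`).  Add seams every `h = (g-1)/2` steps
(`B' = B ∪ {t | h ∣ dist t}`, `dist t` = least `k` with `φ^k t ∈ B`), so segments are non-backtracking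
paths of length `≤ h` and there are at most `K + 4K` of them.  Heads inside a segment are distinct
(girth).  Two non-backtracking paths with the same ends and total length `< g` are equal (strip equal
last darts, else concatenate one with the reverse of the other).  An unclean vertex is `c0`, or the head
of `t` or the tail of `φ t` for some `t ∈ B'`, or has two visits off `B'` with different dart pairs
(note: entering by the same dart or by the reverse of the other's exit); a given pair of segments
produces at most two such vertices (for three, the middle one lies inside the common subpath). -/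
def CleanStmt : Prop :=
  ∀ K : ℕ, ∃ C : ℕ, ∀ (S V : Type) [DecidableEq V] (lb : Lab S) (L : V → Finset S)
    (Γ : LGraph lb L) (c0 : V) (g : ℕ) (T : Type) [Fintype T] [DecidableEq T] (M : RMap Γ T)
    (B : Finset T), Γ.Girth g → 3 ≤ g → M.cut ⊆ B → (∀ t, ∃ k : ℕ, (M.φ ^ k) t ∈ B) → #B ≤ K →
    Fintype.card T ≤ K * g →
    (∀ v, #{t : T | Γ.hd (M.d t) = v} ≤ C) ∧ (∀ v, #{t : T | (M.d t).1 = v} ≤ C) ∧
      ∃ Bad : Finset T, #Bad ≤ C ∧ ∀ t, t ∉ Bad → Clean M B c0 (Γ.hd (M.d t))

/-- **SHEET** (`Sheet.lean`, `theorem sheet : SheetStmt`).  Take `idx : T → ℕ` injective with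
`idx (φ t) = idx t + 1` for `t ∉ B` (from the distance to the next element of `B`).  `t ≈ t'` when they
carry the same unoriented edge; `m t` = size of the class; `rank t` = number of `t' ≈ t` with smaller
`idx`; the representative has rank `0`; `ord` = position of the representative in the order by
decreasing `m`, then increasing `idx`; `E j` = number of representatives with `m > j`; `D i` = dart of
the `i`-th representative; `fw t` = same orientation as the representative.  At a clean link `λ`, the
map `t ↦ if d t = d λ then φ t else φ⁻¹ t` is a bijection from the class of `λ` to the class of `φ λ`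
(a different class: no loops, no backtracking) moving `idx` by `± 1`, hence monotone. -/
def SheetStmt : Prop :=
  ∀ (S V : Type) (lb : Lab S) (L : V → Finset S) (Γ : LGraph lb L) (c0 : V) (T : Type) [Fintype T]
    [DecidableEq T] (M : RMap Γ T) (B : Finset T), Nonempty T →
    (∀ v s, s ∈ L v → Γ.nxt v s ≠ v) → M.cut ⊆ B → (∀ t, ∃ k : ℕ, (M.φ ^ k) t ∈ B) →
    ∃ (rank ord : T → ℕ) (fw : T → Bool) (E : ℕ → ℕ) (D : ℕ → V × S),
      (∀ t t', ord t = ord t' ↔ (M.d t' = M.d t ∨ M.d t' = Γ.rev (M.d t))) ∧
      (∀ t t', rank t = rank t' → ord t = ord t' → t = t') ∧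
      (∀ t, ord t < E (rank t)) ∧ (∀ j i, i < E j → ∃ t, rank t = j ∧ ord t = i) ∧
      (∀ t, rank t < #{t' : T | ord t' = ord t}) ∧
      (∀ t, (D (ord t)).2 ∈ L (D (ord t)).1) ∧
      (∀ t, M.d t = cond (fw t) (D (ord t)) (Γ.rev (D (ord t)))) ∧
      ∀ t, Clean M B c0 (Γ.hd (M.d t)) →
        rank (M.φ t) = rank t ∧ fw (M.φ t) = fw t ∧
          (fw t = true → ord (M.φ t) = ord t + 1) ∧ (fw t = false → ord t = ord (M.φ t) + 1)

/-- **LOC** (`Loc.lean`, `theorem loc (hP : ProbStmt) (hC : CleanStmt) (hS : SheetStmt) : LocStmt`;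
helper13). -/
def LocStmt : Prop :=
  ∀ (S Col Cl : Type) [Fintype S] [DecidableEq S] [DecidableEq Col] [Fintype Cl] (lb : Lab S)
    (Fr : Frame S Col Cl lb) (C0 : ℕ), Nonempty S →
    ∃ (c : ℝ) (Λ : ℕ), 0 < c ∧ 1 ≤ Λ ∧ ∀ K : ℕ, ∃ g n : ℕ, 1 ≤ g ∧ 1 ≤ n ∧
      ∀ (V : Type) [Fintype V] [DecidableEq V] (L : V → Finset S) (col : V → Col) (c0 : V),
        Pop Fr n L col → Fintype.card V ≤ C0 * n →
        ∃ Γ : LGraph lb L, (∀ v s, s ∈ L v → col (Γ.nxt v s) = Fr.tr (col v) s) ∧
          Good Γ c0 g Λ K c

/-! ## The design -/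

/-- **PLANE** (`Plane.lean`, `theorem plane : PlaneStmt`).  `r = p^k`, `q = r²`, `E` the field with `r⁶`
elements, `K = {x | x^q = x}` (or any model with `finrank K E = 3`), points = lines = `Q = Eˣ ⧸ Kˣ`
(or `ℙ K E`), incidence `Tr_{E/K} (a b) = 0` (nondegenerate form; or transport Mathlib's
`Configuration.ofField` plane along `E ≃ₗ[K] Fin 3 → K`).  `U = {x | x^(r³) = x}`, an additive subgroup
with `q < |U| ≤ r³`; `X` = image of `Uˣ`, a subgroup of `Q` (odd order `q² + q + 1`, so `#X` is odd), `Y` =
another coset `ω X`.  For a line `W` (kernel of a `K`-functional, nontrivial on `U` by counting), the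
nonzero elements of the `p`-group `U ∩ W` are partitioned by points, each met point taking `p^w - 1`
of them (`w ≥ 1`): the number of met points is `≡ 1 (mod p)`; the same for `ω U`. -/
def PlaneStmt : Prop :=
  ∀ p q0 : ℕ, p.Prime → ∃ (q : ℕ) (Pt Ln : Type) (_ : Fintype Pt) (_ : DecidableEq Pt)
    (_ : Fintype Ln), q0 ≤ q ∧ p ∣ q ∧ Nonempty (Plane p q Pt Ln)

/-- **DESIGN** (`Design.lean`, `theorem design : DesignStmt`).  Labels `S = Pt ⊕ Fin 3`; split points
`p 0 ∈ X`, `p 1 ∈ Y`, `p 2` in the rest, with partners `u i`, `u' i` in the same part;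
`op (p i) = u i`, `op (inr i) = u' i`, the remaining (even number of) points of each part matched
arbitrarily; `pos` from any linear order.  `sp false = X ∪ {inr 0}`, `sp true = Y ∪ {inr 1}`.  `ι = Ln × (Fin 3 → Bool)`.
Family `false` chooses one copy at `Ch = {1}`, family `true` at `Ch = {0, 2}`: on a line through `p i` the
block keeps `p i` or `inr i` according to the bit if `i ∈ Ch`, and both ("twins") if `i ∉ Ch`.  With
`δ = 3` at `p i`, `-1` at `u i`, `u' i` (`i ∈ Ch`), `s = Σ δ`: weight `5 q + (q+1) Σ_{x ∈ l} δ x - s > 0`; the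
weights of the lines through `x` sum to `q (q+1) (5 + δ x)`.  Subcriticality: for labels over distinct
points the ratio is at most `w(line)/f(x)`; `Σ_{y} w² = q Σ_{l ∋ x} w²`, and by the variance formula
`q Σ w²/f² ≤ q/(q+1) + (1/q) Σ_{l ∋ x} δ(l \ x)² / (5 + δ x)²`; the last sum is `≤ 22` when `x` is on no
line through two `δ`-points (so the total is `≤ 1 - 1/(10 q)`), and `≤ 100` always.  Take `ψ = 3` on
twins, `1 + 8/q` on the `≤ 36 (q+1)` points of lines through two `δ`-points (and copies of them), `1`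
elsewhere; all corrections are `O(1/q²)`. -/
def DesignStmt : Prop :=
  ∃ q0 : ℕ, ∀ (p q : ℕ) (Pt Ln : Type) [Fintype Pt] [DecidableEq Pt] [Fintype Ln], q0 ≤ q → p ∣ q →
    Plane p q Pt Ln → ∃ (S ι : Type) (_ : Fintype S) (_ : DecidableEq S) (_ : Fintype ι)
      (lb : Lab S), Nonempty (Design p S ι lb)

/-- **POP** (`Pop.lean`, `theorem pop : PopStmt`).  Family of class `c`: `c = 1`.  Vertices: for each
class `c`, grade `e`, block `i`, `n * wt` copies, plus `a0` (labels `sp false`, colour `(0,false)`) and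
`b0` (labels `sp true`, colour `(1,false)`).  `tr (c,e) s = (c, xor e (fl c s))` with `fl 1 s = (s ∉ sp
true)` and `fl c s = (s ∈ sp true)` for `c ≠ 1`. -/
def PopStmt : Prop :=
  ∀ (p : ℕ) (S ι : Type) [Fintype S] [DecidableEq S] [Fintype ι] (lb : Lab S),
    Design p S ι lb → DesFor p

/-! ## Assembly -/

/-- **ASM** (`Asm.lean`, `theorem asm (hPl : PlaneStmt) (hD : DesignStmt) (hPo : PopStmt)
(hL : LocStmt) (hG : GloStmt) (hV : VKStmt) (hR : RimStmt) (hA : AlgStmt) : MainStmt`). -/
def MainStmt : Prop :=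
  ∀ p : ℕ, p.Prime → ∃ (X R : Type) (_ : Fintype X) (_ : Fintype R) (P : TriPres X R) (C : ℕ),
    P.Iso C ∧ ∃ a b : MonoidAlgebra (ZMod p) P.G, a * b = 1 ∧ b * a ≠ 1

/-- **DET1** (`Det1.lean`, `theorem det1 : Det1Stmt`).  Build the unital star representation `ρ` of
matrices over `ℝ[G]` (or `ℂ[G]`) on `lp (fun _ : Fin n × G => ℂ) 2`; `opTrace b (ρ Y)` is the algebraic
trace `τ`, which is tracial and star invariant.  For `Y t = X (1 + t Z)`, `Z² = λ Z`, `X` invertible,
`P t = (Y t)⋆ (Y t)` has spectrum in a fixed `[δ, M]` for `t ∈ [0,1]`; with `W = 1 - P/M`,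
`log P = log M - Σ_{k ≥ 1} W^k / k` (norm convergent), `d/dt τ (W^k) = k τ (W^(k-1) W')`, so
`d/dt τ (log P) = τ (P⁻¹ P') = 2 τ ((1 + t Z)⁻¹ Z) = 2 τ Z / (1 + t λ)`.  Hence unipotent factors do not
change `logDet` and the factor `1 + Z` increases it strictly. -/
def Det1Stmt : Prop :=
  ∀ (G : Type) [Group G] (n : ℕ) (A : Matrix (Fin n) (Fin n) (MonoidAlgebra ℤ G)), DetData A →
    IsUnit (A.map (MonoidAlgebra.mapRingHom G (Int.castRingHom ℚ))) ∧
    ∃ (H : Type) (_ : NormedAddCommGroup H) (_ : InnerProductSpace ℂ H) (_ : CompleteSpace H)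
      (b : HilbertBasis (Fin n × G) ℂ H) (T : H →L[ℂ] H),
      IsRegularRepOperator b A T ∧ logDet b T < 0

/-- **DET2** (`Det2.lean`, `theorem det2 : Det2Stmt`).  `G'` = lamplighter `ℤ/2 ≀ G` (e.g. the subgroup of
`Perm (G × Bool)` generated by `G` and the swaps `δ k` of `(k,true)`, `(k,false)`; `g δ k g⁻¹ = δ (g k)`).
`e = 1 - b a ≠ 0`, `e g₀ ≠ 0`, `K = {g g₀⁻¹ | g ∈ supp e, g ≠ g₀}`, `F = (1 - δ 1) Π_{k ∈ K} (1 + δ k)`:
`F² = 2^j F`, identity coefficient `1`, `F k F = 0` for `k ∈ K`.  `π = p^i`, `π - 1 = 2^j ρ`, `w = ρ F`,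
`u = 1 + w`, `(π - w) u = π`.  Integral lifts `a`, `b₀`; `b = b₀ Σ_{l<i} (1 - a b₀)^l`, `a b - 1 = π c`,
`y = (1 - b a) g₀⁻¹`.  Modulo `p`, `F y F ≡ e(g₀) 2^j F`, so `1 ∈ R u + R y + p R`, hence (iterate)
`1 = x y + x' u`.  `A = !![a, c, -c a g₀⁻¹ (π - w); π, b, y (π - w); -x, 0, x']`, `Z = w E₃₃`,
`λ = π - 1`, and `A (1 + Z) = (1 + (a/π) E₁₂)(1 - π⁻¹ E₁₂)(1 + π E₂₁)(1 - π⁻¹ E₁₂)(1 + (b/π) E₁₂)
(1 - x E₃₁)(1 + y E₁₃)`. -/
def Det2Stmt : Prop :=
  ∀ (p : ℕ) (G : Type) [Group G], p.Prime → Odd p → Group.FG G →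
    ∀ a b : MonoidAlgebra (ZMod p) G, a * b = 1 → b * a ≠ 1 →
    ∃ (G' : Type) (_ : Group G') (A : Matrix (Fin 3) (Fin 3) (MonoidAlgebra ℤ G')),
      Group.FG G' ∧ DetData A

end Crest.Agent.KP
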