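import Crest.Agent.KP.Stmts

/-!
# KP, TOP1: the Cayley complex and the presentation complex of a triangular presentation
-/

set_option autoImplicit false

namespace Crest.Agent.KP

open Crest.Topology Metric Set _root_.Topology
open scoped unitInterval

namespace Top1

/-- Combinatorial data of a triangle complex. -/
structure Cx where
  C0 : Type
  C1 : Type
  C2 : Type
  src : C1 → C0
  tgt : C1 → C0
  A : C2 → C1
  B : C2 → C1
  C : C2 → C1
  hAC : ∀ f, src (C f) = src (A f)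
  hAB : ∀ f, src (B f) = tgt (A f)
  hBC : ∀ f, tgt (C f) = tgt (B f)

/-- Points of the realisation, in normal form. -/
inductive Sp (D : Cx) : Type
  | v (x : D.C0) : Sp D
  | e (x : D.C1) (s : I) (h0 : s ≠ 0) (h1 : s ≠ 1) : Sp D
  | f (x : D.C2) (s t : I) (hs0 : s ≠ 0) (hs1 : s ≠ 1) (ht0 : t ≠ 0) (ht1 : t ≠ 1) : Sp D

variable {D : Cx}

open Classical in
noncomputable def ε (x : D.C1) (s : I) : Sp D :=
  if h0 : s = 0 then .v (D.src x) else if h1 : s = 1 then .v (D.tgt x) else .e x s h0 h1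

open Classical in
noncomputable def χ (x : D.C2) (q : I × I) : Sp D :=
  if hs0 : q.1 = 0 then .v (D.src (D.A x)) else if ht0 : q.2 = 0 then ε (D.A x) q.1
  else if hs1 : q.1 = 1 then ε (D.B x) q.2 else if ht1 : q.2 = 1 then ε (D.C x) q.1
  else .f x q.1 q.2 hs0 hs1 ht0 ht1

lemma ε0 (x : D.C1) : ε x 0 = .v (D.src x) := by simp [ε]

lemma ε1 (x : D.C1) : ε x 1 = .v (D.tgt x) := by simp [ε]

lemma εe (x : D.C1) (s : I) (h0 : s ≠ 0) (h1 : s ≠ 1) : ε x s = .e x s h0 h1 := by
  simp [ε, h0, h1]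

lemma χl (x : D.C2) (t : I) : χ x (0, t) = .v (D.src (D.A x)) := by simp [χ]

lemma χb (x : D.C2) (s : I) : χ x (s, 0) = ε (D.A x) s := by
  by_cases h : s = 0
  · subst h; rw [χl, ε0]
  · simp [χ, h]

lemma χr (x : D.C2) (t : I) : χ x (1, t) = ε (D.B x) t := by
  by_cases h : t = 0
  · subst h; rw [χb, ε0, ε1, D.hAB]
  · simp [χ, h]

lemma χt (x : D.C2) (s : I) : χ x (s, 1) = ε (D.C x) s := by
  by_cases h : s = 0
  · subst h; rw [χl, ε0, D.hAC]
  · by_cases h1 : s = 1
    · subst h1; rw [χr, ε1, ε1, D.hBC]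
    · simp [χ, h, h1]

lemma χf (x : D.C2) (s t : I) (hs0 : s ≠ 0) (hs1 : s ≠ 1) (ht0 : t ≠ 0) (ht1 : t ≠ 1) :
    χ x (s, t) = .f x s t hs0 hs1 ht0 ht1 := by
  simp [χ, hs0, hs1, ht0, ht1]

noncomputable instance : TopologicalSpace (Sp D) :=
  (⨆ x : D.C1, TopologicalSpace.coinduced (ε x) inferInstance) ⊔
    (⨆ x : D.C2, TopologicalSpace.coinduced (χ x) inferInstance)

lemma continuous_iff {Z : Type*} [TopologicalSpace Z] (F : Sp D → Z) :
    Continuous F ↔ (∀ x, Continuous (F ∘ ε x)) ∧ ∀ x, Continuous (F ∘ χ x) := by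
  refine (continuous_sup_dom
    (t₁ := ⨆ x : D.C1, TopologicalSpace.coinduced (ε x) inferInstance)
    (t₂ := ⨆ x : D.C2, TopologicalSpace.coinduced (χ x) inferInstance)).trans (and_congr ?_ ?_)
  · exact continuous_iSup_dom.trans (forall_congr' fun x => continuous_coinduced_dom)
  · exact continuous_iSup_dom.trans (forall_congr' fun x => continuous_coinduced_dom)

lemma continuous_ε (x : D.C1) : Continuous (ε x : I → Sp D) :=
  ((continuous_iff id).1 continuous_id).1 x

lemma continuous_χ (x : D.C2) : Continuous (χ x : I × I → Sp D) :=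
  ((continuous_iff id).1 continuous_id).2 x

lemma isOpen_iff (U : Set (Sp D)) :
    IsOpen U ↔ (∀ x, IsOpen (ε x ⁻¹' U)) ∧ ∀ x, IsOpen (χ x ⁻¹' U) := by
  refine isOpen_sup.trans (and_congr ?_ ?_)
  · exact isOpen_iSup_iff.trans (forall_congr' fun x => isOpen_coinduced)
  · exact isOpen_iSup_iff.trans (forall_congr' fun x => isOpen_coinduced)

/-- A function on the realisation given cell by cell. -/
def lift {Z : Type*} (z0 : D.C0 → Z) (z1 : D.C1 → I → Z) (z2 : D.C2 → I × I → Z) : Sp D → Z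
  | .v x => z0 x
  | .e x s _ _ => z1 x s
  | .f x s t _ _ _ _ => z2 x (s, t)

/-- Compatibility of cellwise data. -/
structure Compat {Z : Type*} (z0 : D.C0 → Z) (z1 : D.C1 → I → Z) (z2 : D.C2 → I × I → Z) :
    Prop where
  h0 : ∀ x, z1 x 0 = z0 (D.src x)
  h1 : ∀ x, z1 x 1 = z0 (D.tgt x)
  hl : ∀ x t, z2 x (0, t) = z0 (D.src (D.A x))
  hb : ∀ x s, z2 x (s, 0) = z1 (D.A x) s
  hr : ∀ x t, z2 x (1, t) = z1 (D.B x) t
  ht : ∀ x s, z2 x (s, 1) = z1 (D.C x) s

section lift

variable {Z : Type*} {z0 : D.C0 → Z} {z1 : D.C1 → I → Z} {z2 : D.C2 → I × I → Z}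

lemma Compat.lift_ε (h : Compat z0 z1 z2) (x : D.C1) (s : I) :
    lift z0 z1 z2 (ε x s) = z1 x s := by
  by_cases h0 : s = 0
  · subst h0; rw [ε0, h.h0]; rfl
  · by_cases h1 : s = 1
    · subst h1; rw [ε1, h.h1]; rfl
    · rw [εe x s h0 h1]; rfl

lemma Compat.lift_χ (h : Compat z0 z1 z2) (x : D.C2) (q : I × I) :
    lift z0 z1 z2 (χ x q) = z2 x q := by
  obtain ⟨s, t⟩ := q
  by_cases hs0 : s = 0
  · subst hs0; rw [χl, h.hl]; rfl
  by_cases ht0 : t = 0
  · subst ht0; rw [χb, h.lift_ε, h.hb]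
  by_cases hs1 : s = 1
  · subst hs1; rw [χr, h.lift_ε, h.hr]
  by_cases ht1 : t = 1
  · subst ht1; rw [χt, h.lift_ε, h.ht]
  rw [χf x s t hs0 hs1 ht0 ht1]; rfl

lemma Compat.continuous [TopologicalSpace Z] (h : Compat z0 z1 z2)
    (c1 : ∀ x, Continuous (z1 x)) (c2 : ∀ x, Continuous (z2 x)) :
    Continuous (lift z0 z1 z2) := by
  rw [continuous_iff]
  refine ⟨fun x => ?_, fun x => ?_⟩
  · have : lift z0 z1 z2 ∘ ε x = z1 x := funext fun s => h.lift_ε x s
    rw [this]; exact c1 x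
  · have : lift z0 z1 z2 ∘ χ x = z2 x := funext fun s => h.lift_χ x s
    rw [this]; exact c2 x

end lift

lemma cover (y : Sp D) : (∃ x, y = .v x) ∨ (∃ x s, y = ε x s) ∨ ∃ x q, y = χ x q := by
  cases y with
  | v x => exact Or.inl ⟨x, rfl⟩
  | e x s h0 h1 => exact Or.inr (Or.inl ⟨x, s, (εe x s h0 h1).symm⟩)
  | f x s t hs0 hs1 ht0 ht1 => exact Or.inr (Or.inr ⟨x, (s, t), (χf x s t hs0 hs1 ht0 ht1).symm⟩)

/-! ### Coordinates -/

/-- Vertex coordinate with weights `w`. -/
noncomputable def vF (w : D.C0 → ℝ) : Sp D → ℝ :=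
  lift w (fun x s => (1 - s) * w (D.src x) + s * w (D.tgt x))
    (fun x q => (1 - q.1) * w (D.src (D.A x)) + q.1 * (1 - q.2) * w (D.tgt (D.A x)) +
      q.1 * q.2 * w (D.tgt (D.B x)))

lemma continuous_vF (w : D.C0 → ℝ) : Continuous (vF w) := by
  refine Compat.continuous ⟨?_, ?_, ?_, ?_, ?_, ?_⟩ ?_ ?_
  · intro x; simp
  · intro x; simp
  · intro x t; simp
  · intro x s; simp
  · intro x t; simp [D.hAB]
  · intro x s; simp [D.hAC, D.hBC]
  · intro x; fun_prop
  · intro x; fun_prop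

/-- Edge coordinate with weights `w`. -/
noncomputable def eF (w : D.C1 → ℝ) (k : ℕ) : Sp D → ℝ :=
  lift (fun _ => 0) (fun x s => w x * ((1 - s) * s * s ^ k))
    (fun x q => w (D.A x) * ((1 - q.1) * (q.1 * (1 - q.2)) * (q.1 * (1 - q.2)) ^ k) +
      w (D.B x) * ((q.1 * (1 - q.2)) * (q.1 * q.2) * (q.1 * q.2) ^ k) +
      w (D.C x) * ((1 - q.1) * (q.1 * q.2) * (q.1 * q.2) ^ k))

lemma continuous_eF (w : D.C1 → ℝ) (k : ℕ) : Continuous (eF w k) := by
  refine Compat.continuous ⟨?_, ?_, ?_, ?_, ?_, ?_⟩ ?_ ?_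
  · intro x; simp
  · intro x; simp
  · intro x t; simp
  · intro x s; simp
  · intro x t; simp
  · intro x s; simp
  · intro x; fun_prop
  · intro x; fun_prop

/-- Face coordinate with weights `w`. -/
noncomputable def fF (w : D.C2 → ℝ) (k l : ℕ) : Sp D → ℝ :=
  lift (fun _ => 0) (fun _ _ => 0)
    (fun x q => w x * ((1 - q.1) * q.1 * (1 - q.2) * q.2 * (q.1 ^ k * q.2 ^ l)))

lemma continuous_fF (w : D.C2 → ℝ) (k l : ℕ) : Continuous (fF w k l) := by
  refine Compat.continuous ⟨?_, ?_, ?_, ?_, ?_, ?_⟩ ?_ ?_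
  · intro x; simp
  · intro x; simp
  · intro x t; simp
  · intro x s; simp
  · intro x t; simp
  · intro x s; simp
  · intro x; fun_prop
  · intro x; fun_prop

lemma pos_of_ne {s : I} (h : s ≠ 0) : (0 : ℝ) < s :=
  lt_of_le_of_ne s.2.1 fun h' => h (Subtype.ext h'.symm)

lemma sub_pos_of_ne {s : I} (h : s ≠ 1) : (0 : ℝ) < 1 - s :=
  sub_pos.2 (lt_of_le_of_ne s.2.2 fun h' => h (Subtype.ext h'))

lemma vF_le {w w' w'' : D.C0 → ℝ} (h : ∀ x, w x + w' x ≤ w'' x) (y : Sp D) :
    vF w y + vF w' y ≤ vF w'' y := by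
  cases y with
  | v x => exact h x
  | e x s h0 h1 =>
    have a := pos_of_ne h0
    have b := sub_pos_of_ne h1
    simp only [vF, lift]
    nlinarith [mul_le_mul_of_nonneg_left (h (D.src x)) b.le,
      mul_le_mul_of_nonneg_left (h (D.tgt x)) a.le]
  | f x s t hs0 hs1 ht0 ht1 =>
    have a := pos_of_ne hs0
    have b := sub_pos_of_ne hs1
    have c := pos_of_ne ht0
    have d := sub_pos_of_ne ht1
    simp only [vF, lift]
    nlinarith [mul_le_mul_of_nonneg_left (h (D.src (D.A x))) b.le,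
      mul_le_mul_of_nonneg_left (h (D.tgt (D.A x))) (mul_pos a d).le,
      mul_le_mul_of_nonneg_left (h (D.tgt (D.B x))) (mul_pos a c).le]

lemma eF_le {w w' w'' : D.C1 → ℝ} (h : ∀ x, w x + w' x ≤ w'' x) (y : Sp D) :
    eF w 0 y + eF w' 0 y ≤ eF w'' 0 y := by
  cases y with
  | v x => simp [eF, lift]
  | e x s h0 h1 =>
    have a := pos_of_ne h0
    have b := sub_pos_of_ne h1
    simp only [eF, lift, pow_zero, mul_one]
    nlinarith [mul_le_mul_of_nonneg_left (h x) (mul_pos b a).le]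
  | f x s t hs0 hs1 ht0 ht1 =>
    have a := pos_of_ne hs0
    have b := sub_pos_of_ne hs1
    have c := pos_of_ne ht0
    have d := sub_pos_of_ne ht1
    simp only [eF, lift, pow_zero, mul_one]
    nlinarith [mul_le_mul_of_nonneg_left (h (D.A x)) (mul_pos b (mul_pos a d)).le,
      mul_le_mul_of_nonneg_left (h (D.B x)) (mul_pos (mul_pos a d) (mul_pos a c)).le,
      mul_le_mul_of_nonneg_left (h (D.C x)) (mul_pos b (mul_pos a c)).le]

lemma fF_le {w w' w'' : D.C2 → ℝ} (h : ∀ x, w x + w' x ≤ w'' x) (y : Sp D) :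
    fF w 0 0 y + fF w' 0 0 y ≤ fF w'' 0 0 y := by
  cases y with
  | v x => simp [fF, lift]
  | e x s h0 h1 => simp [fF, lift]
  | f x s t hs0 hs1 ht0 ht1 =>
    have a := pos_of_ne hs0
    have b := sub_pos_of_ne hs1
    have c := pos_of_ne ht0
    have d := sub_pos_of_ne ht1
    simp only [fF, lift, pow_zero, mul_one]
    nlinarith [mul_le_mul_of_nonneg_left (h x) (mul_pos (mul_pos (mul_pos b a) d) c).le]

open Classical in
/-- Indicator weight. -/
noncomputable def ind {J : Type} (j : J) : J → ℝ := fun i => if i = j then 1 else 0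

@[simp] lemma ind_self {J : Type} (j : J) : ind j j = 1 := by simp [ind]

lemma ind_ne {J : Type} {j i : J} (h : i ≠ j) : ind j i = 0 := by simp [ind, h]

lemma ind_add_le {J : Type} {j j' : J} (h : j ≠ j') (i : J) : ind j i + ind j' i ≤ 1 := by
  unfold ind
  split_ifs with h1 h2
  · exact absurd (h1.symm.trans h2) h
  all_goals norm_num

lemma eF_e (x : D.C1) (s : I) (h0 : s ≠ 0) (h1 : s ≠ 1) (w : D.C1 → ℝ) (k : ℕ) :
    eF w k (.e x s h0 h1) = w x * ((1 - s) * s * s ^ k) := rfl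

lemma fF_f (x : D.C2) (s t : I) (hs0 : s ≠ 0) (hs1 : s ≠ 1) (ht0 : t ≠ 0) (ht1 : t ≠ 1)
    (w : D.C2 → ℝ) (k l : ℕ) :
    fF w k l (.f x s t hs0 hs1 ht0 ht1) =
      w x * ((1 - s) * s * (1 - t) * t * (s ^ k * t ^ l)) := rfl

/-- The coordinates separate points. -/
lemma eq_of_coords {y y' : Sp D} (hv : ∀ w, vF w y = vF w y') (he : ∀ w k, eF w k y = eF w k y')
    (hf : ∀ w k l, fF w k l y = fF w k l y') : y = y' := by
  have key : ∀ (x : D.C2) (s t : I) (hs0 : s ≠ 0) (hs1 : s ≠ 1) (ht0 : t ≠ 0) (ht1 : t ≠ 1)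
      (z : Sp D), (∀ w k l, fF w k l (.f x s t hs0 hs1 ht0 ht1) = fF w k l z) →
      .f x s t hs0 hs1 ht0 ht1 = z := by
    intro x s t hs0 hs1 ht0 ht1 z hz
    have p := mul_pos (mul_pos (mul_pos (sub_pos_of_ne hs1) (pos_of_ne hs0)) (sub_pos_of_ne ht1))
      (pos_of_ne ht0)
    have h00 := hz (ind x) 0 0
    rw [fF_f] at h00
    simp only [ind_self, pow_zero, mul_one, one_mul] at h00
    cases z with
    | v x' => exact absurd h00 p.ne'
    | e x' s' _ _ => exact absurd h00 p.ne'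
    | f x' s' t' hs0' hs1' ht0' ht1' =>
      by_cases hx : x' = x
      · subst hx
        have h10 := hz (ind x') 1 0
        have h01 := hz (ind x') 0 1
        rw [fF_f] at h00
        rw [fF_f, fF_f] at h10 h01
        simp only [ind_self, pow_zero, mul_one, one_mul, pow_one] at h00 h10 h01
        rw [← h00] at h10 h01
        have e1 : s = s' := Subtype.ext (mul_left_cancel₀ p.ne' h10)
        have e2 : t = t' := Subtype.ext (mul_left_cancel₀ p.ne' h01)
        subst e1 e2; rfl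
      · rw [fF_f, ind_ne hx, zero_mul] at h00
        exact absurd h00 p.ne'
  have key2 : ∀ (x : D.C1) (s : I) (h0 : s ≠ 0) (h1 : s ≠ 1) (z : Sp D),
      (∀ w k, eF w k (.e x s h0 h1) = eF w k z) →
      (∀ w k l, fF w k l z = fF w k l (.e x s h0 h1)) → .e x s h0 h1 = z := by
    intro x s h0 h1 z hz hz'
    have p := mul_pos (sub_pos_of_ne h1) (pos_of_ne h0)
    have h00 := hz (ind x) 0
    rw [eF_e] at h00
    simp only [ind_self, pow_zero, mul_one, one_mul] at h00
    cases z with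
    | v x' => exact absurd h00 p.ne'
    | e x' s' h0' h1' =>
      by_cases hx : x' = x
      · subst hx
        have h10 := hz (ind x') 1
        rw [eF_e] at h00
        rw [eF_e, eF_e] at h10
        simp only [ind_self, pow_zero, mul_one, one_mul, pow_one] at h00 h10
        rw [← h00] at h10
        have e1 : s = s' := Subtype.ext (mul_left_cancel₀ p.ne' h10)
        subst e1; rfl
      · rw [eF_e, ind_ne hx, zero_mul] at h00
        exact absurd h00 p.ne'
    | f x' s' t' hs0' hs1' ht0' ht1' => exact (key _ _ _ _ _ _ _ _ hz').symm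
  cases y with
  | f x s t hs0 hs1 ht0 ht1 => exact key _ _ _ _ _ _ _ _ hf
  | e x s h0 h1 => exact key2 _ _ _ _ _ he fun w k l => (hf w k l).symm
  | v x =>
    cases y' with
    | f x s t hs0 hs1 ht0 ht1 => exact (key _ _ _ _ _ _ _ _ fun w k l => (hf w k l).symm).symm
    | e x s h0 h1 => exact (key2 _ _ _ _ _ (fun w k => (he w k).symm) hf).symm
    | v x' =>
      have h := hv (ind x)
      change ind x x = ind x x' at h
      by_contra hne
      have : x' ≠ x := fun h' => hne (by rw [h'])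
      rw [ind_self, ind_ne this] at h
      exact one_ne_zero h

instance : T2Space (Sp D) := by
  refine ⟨fun y y' hne => ?_⟩
  by_contra hcon
  refine hne (eq_of_coords (fun w => ?_) (fun w k => ?_) (fun w k l => ?_))
  · by_contra h; exact hcon (separated_by_continuous (continuous_vF w) h)
  · by_contra h; exact hcon (separated_by_continuous (continuous_eF w k) h)
  · by_contra h; exact hcon (separated_by_continuous (continuous_fF w k l) h)

/-! ### The CW structure -/

/-- A partial equivalence from a map with a left inverse on `s`. -/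
def mkPE {α β : Type} (f : α → β) (g : β → α) (s : Set α) (h : ∀ x ∈ s, g (f x) = x) :
    PartialEquiv α β where
  toFun := f
  invFun := g
  source := s
  target := f '' s
  map_source' := fun _ hx => mem_image_of_mem f hx
  map_target' := by rintro _ ⟨x, hx, rfl⟩; rwa [h x hx]
  left_inv' := h
  right_inv' := by rintro _ ⟨x, hx, rfl⟩; rw [h x hx]

/-- Rescaling `[-1,1]` to `[0,1]`. -/
noncomputable def pr (r : ℝ) : I := projIcc 0 1 zero_le_one ((r + 1) / 2)

lemma continuous_pr : Continuous pr := continuous_projIcc.comp (by fun_prop)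

lemma pr_coe {r : ℝ} (h : |r| ≤ 1) : (pr r : ℝ) = (r + 1) / 2 := by
  have := abs_le.1 h
  rw [pr, projIcc_of_mem _ ⟨by linarith, by linarith⟩]

lemma pr_ne_zero {r : ℝ} (h : |r| < 1) : pr r ≠ 0 := by
  intro h'
  have h1 := pr_coe h.le
  have := abs_lt.1 h
  rw [h'] at h1
  simp at h1; linarith

lemma pr_ne_one {r : ℝ} (h : |r| < 1) : pr r ≠ 1 := by
  intro h'
  have h1 := pr_coe h.le
  have := abs_lt.1 h
  rw [h'] at h1
  simp at h1; linarith

lemma pr_of_abs {r : ℝ} (h : |r| = 1) : pr r = 0 ∨ pr r = 1 := by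
  have h1 := pr_coe h.le
  rcases abs_eq (zero_le_one) |>.1 h with h' | h'
  · right; apply Subtype.ext; rw [h1, h']; simp
  · left; apply Subtype.ext; rw [h1, h']; simp

lemma pr_inv (s : I) : pr (2 * s - 1) = s := by
  apply Subtype.ext
  rw [pr_coe (abs_le.2 ⟨by linarith [s.2.1], by linarith [s.2.2]⟩)]; ring

lemma abs_inv_le (s : I) : |2 * (s : ℝ) - 1| ≤ 1 :=
  abs_le.2 ⟨by linarith [s.2.1], by linarith [s.2.2]⟩

lemma mem_ball_iff {n : ℕ} (z : Fin n → ℝ) : z ∈ ball (0 : Fin n → ℝ) 1 ↔ ∀ i, |z i| < 1 := by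
  rw [mem_ball_zero_iff, pi_norm_lt_iff one_pos]; rfl

lemma mem_closedBall_iff {n : ℕ} (z : Fin n → ℝ) :
    z ∈ closedBall (0 : Fin n → ℝ) 1 ↔ ∀ i, |z i| ≤ 1 := by
  rw [mem_closedBall_zero_iff, pi_norm_le_iff_of_nonneg zero_le_one]; rfl

lemma exists_of_mem_sphere {n : ℕ} {z : Fin n → ℝ} (h : z ∈ sphere (0 : Fin n → ℝ) 1) :
    ∃ i, |z i| = 1 := by
  have h1 := (mem_closedBall_iff z).1 (sphere_subset_closedBall h)
  by_contra hcon
  push Not at hcon
  have h2 := (mem_ball_iff z).2 fun i => lt_of_le_of_ne (h1 i) (hcon i)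
  rw [mem_ball] at h2
  rw [mem_sphere] at h
  linarith

/-- The cells. -/
def cell (D : Cx) : ℕ → Type
  | 0 => D.C0
  | 1 => D.C1
  | 2 => D.C2
  | _ + 3 => PEmpty

noncomputable def map0 (x : D.C0) : PartialEquiv (Fin 0 → ℝ) (Sp D) :=
  mkPE (fun _ => .v x) (fun _ => 0) (ball 0 1) fun _ _ => Subsingleton.elim _ _

noncomputable def map1 (x : D.C1) : PartialEquiv (Fin 1 → ℝ) (Sp D) :=
  mkPE (fun z => ε x (pr (z 0))) (fun y _ => 2 * (eF (ind x) 1 y / eF (ind x) 0 y) - 1)
    (ball 0 1) fun z hz => by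
      have h := (mem_ball_iff z).1 hz 0
      have p := mul_pos (sub_pos_of_ne (pr_ne_one h)) (pos_of_ne (pr_ne_zero h))
      funext i
      rw [Subsingleton.elim i 0, εe x _ (pr_ne_zero h) (pr_ne_one h), eF_e, eF_e]
      simp only [ind_self, one_mul, pow_one, pow_zero, mul_one]
      rw [mul_div_cancel_left₀ _ p.ne', pr_coe h.le]; ring

noncomputable def map2 (x : D.C2) : PartialEquiv (Fin 2 → ℝ) (Sp D) :=
  mkPE (fun z => χ x (pr (z 0), pr (z 1)))
    (fun y => ![2 * (fF (ind x) 1 0 y / fF (ind x) 0 0 y) - 1,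
      2 * (fF (ind x) 0 1 y / fF (ind x) 0 0 y) - 1])
    (ball 0 1) fun z hz => by
      have h := (mem_ball_iff z).1 hz 0
      have h' := (mem_ball_iff z).1 hz 1
      have p := mul_pos (mul_pos (mul_pos (sub_pos_of_ne (pr_ne_one h)) (pos_of_ne (pr_ne_zero h)))
        (sub_pos_of_ne (pr_ne_one h'))) (pos_of_ne (pr_ne_zero h'))
      rw [χf x _ _ (pr_ne_zero h) (pr_ne_one h) (pr_ne_zero h') (pr_ne_one h'), fF_f, fF_f, fF_f]
      simp only [ind_self, one_mul, pow_one, pow_zero, mul_one]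
      rw [mul_div_cancel_left₀ _ p.ne', mul_div_cancel_left₀ _ p.ne', pr_coe h.le, pr_coe h'.le]
      funext i
      fin_cases i
      · simp; ring
      · simp; ring

noncomputable def cmap (D : Cx) : (n : ℕ) → cell D n → PartialEquiv (Fin n → ℝ) (Sp D)
  | 0, x => map0 x
  | 1, x => map1 x
  | 2, x => map2 x
  | _ + 3, x => PEmpty.elim x

/-- The open cell containing a point. -/
def cellOf : Sp D → Σ n, cell D n
  | .v x => ⟨0, x⟩
  | .e x _ _ _ => ⟨1, x⟩
  | .f x _ _ _ _ _ _ => ⟨2, x⟩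

lemma cellOf_map (n : ℕ) (x : cell D n) (z : Fin n → ℝ) (hz : z ∈ ball (0 : Fin n → ℝ) 1) :
    cellOf (cmap D n x z) = ⟨n, x⟩ := by
  match n, x with
  | 0, x => rfl
  | 1, x =>
    have h := (mem_ball_iff z).1 hz 0
    change cellOf (ε x (pr (z 0))) = _
    rw [εe x _ (pr_ne_zero h) (pr_ne_one h)]; rfl
  | 2, x =>
    have h := (mem_ball_iff z).1 hz 0
    have h' := (mem_ball_iff z).1 hz 1
    change cellOf (χ x (pr (z 0), pr (z 1))) = _
    rw [χf x _ _ (pr_ne_zero h) (pr_ne_one h) (pr_ne_zero h') (pr_ne_one h')]; rfl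
  | _ + 3, x => exact PEmpty.elim x

lemma v_mem (x : D.C0) : Sp.v x ∈ cmap D 0 x '' closedBall 0 1 :=
  ⟨0, mem_closedBall_self zero_le_one, rfl⟩

lemma ε_mem (x : D.C1) (s : I) : ε x s ∈ cmap D 1 x '' closedBall 0 1 :=
  ⟨fun _ => 2 * s - 1, (mem_closedBall_iff _).2 fun _ => abs_inv_le s, by
    change ε x (pr (2 * s - 1)) = _
    rw [pr_inv]⟩

lemma χ_mem (x : D.C2) (q : I × I) : χ x q ∈ cmap D 2 x '' closedBall 0 1 :=
  ⟨![2 * q.1 - 1, 2 * q.2 - 1], (mem_closedBall_iff _).2 fun i => by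
    fin_cases i
    · exact abs_inv_le q.1
    · exact abs_inv_le q.2, by
    change χ x (pr (2 * q.1 - 1), pr (2 * q.2 - 1)) = _
    rw [pr_inv, pr_inv]⟩

lemma cw_eventually : ∀ᶠ n in Filter.atTop, IsEmpty (cell D n) := by
  rw [Filter.eventually_atTop]
  refine ⟨3, fun n hn => ?_⟩
  obtain ⟨m, rfl⟩ := Nat.exists_eq_add_of_le' hn
  exact inferInstanceAs (IsEmpty PEmpty)

lemma cw_finite [h0 : Finite D.C0] [h1 : Finite D.C1] [h2 : Finite D.C2] (n : ℕ) :
    Finite (cell D n) := by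
  match n with
  | 0 => exact h0
  | 1 => exact h1
  | 2 => exact h2
  | _ + 3 => exact inferInstanceAs (Finite PEmpty)

lemma cw_source (n : ℕ) (x : cell D n) : (cmap D n x).source = ball 0 1 := by
  match n, x with
  | 0, x => rfl
  | 1, x => rfl
  | 2, x => rfl
  | _ + 3, x => exact PEmpty.elim x

lemma cw_cont (n : ℕ) (x : cell D n) : ContinuousOn (cmap D n x) (closedBall 0 1) := by
  match n, x with
  | 0, x => exact continuousOn_const
  | 1, x =>
    exact ((continuous_ε x).comp (continuous_pr.comp (continuous_apply 0))).continuousOn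
  | 2, x =>
    exact ((continuous_χ x).comp ((continuous_pr.comp (continuous_apply 0)).prodMk
      (continuous_pr.comp (continuous_apply 1)))).continuousOn
  | _ + 3, x => exact PEmpty.elim x

lemma cw_cont_symm (n : ℕ) (x : cell D n) :
    ContinuousOn (cmap D n x).symm (cmap D n x).target := by
  match n, x with
  | 0, x => exact continuousOn_const
  | 1, x =>
    have hne : ∀ y ∈ (cmap D 1 x).target, eF (ind x) 0 y ≠ 0 := by
      rintro _ ⟨z, hz, rfl⟩
      have h := (mem_ball_iff z).1 hz 0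
      have p := mul_pos (sub_pos_of_ne (pr_ne_one h)) (pos_of_ne (pr_ne_zero h))
      beta_reduce
      rw [εe x _ (pr_ne_zero h) (pr_ne_one h), eF_e]
      simpa using p.ne'
    refine continuousOn_pi.2 fun _ => ?_
    exact (continuousOn_const.mul ((continuous_eF _ _).continuousOn.div
      (continuous_eF _ _).continuousOn hne)).sub continuousOn_const
  | 2, x =>
    have hne : ∀ y ∈ (cmap D 2 x).target, fF (ind x) 0 0 y ≠ 0 := by
      rintro _ ⟨z, hz, rfl⟩
      have h := (mem_ball_iff z).1 hz 0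
      have h' := (mem_ball_iff z).1 hz 1
      have p := mul_pos (mul_pos (mul_pos (sub_pos_of_ne (pr_ne_one h)) (pos_of_ne (pr_ne_zero h)))
        (sub_pos_of_ne (pr_ne_one h'))) (pos_of_ne (pr_ne_zero h'))
      beta_reduce
      rw [χf x _ _ (pr_ne_zero h) (pr_ne_one h) (pr_ne_zero h') (pr_ne_one h'), fF_f]
      simpa using p.ne'
    refine continuousOn_pi.2 fun i => ?_
    fin_cases i
    · exact (continuousOn_const.mul ((continuous_fF _ _ _).continuousOn.div
        (continuous_fF _ _ _).continuousOn hne)).sub continuousOn_const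
    · exact (continuousOn_const.mul ((continuous_fF _ _ _).continuousOn.div
        (continuous_fF _ _ _).continuousOn hne)).sub continuousOn_const
  | _ + 3, x => exact PEmpty.elim x

lemma cw_disj : (univ : Set (Σ n, cell D n)).PairwiseDisjoint
    (fun ni => cmap D ni.1 ni.2 '' ball 0 1) := by
  intro a _ b _ hab
  rw [Function.onFun, Set.disjoint_left]
  rintro _ ⟨z, hz, rfl⟩ ⟨z', hz', h⟩
  have h1 := cellOf_map a.1 a.2 z hz
  have h2 := cellOf_map b.1 b.2 z' hz'
  rw [h, h1] at h2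
  exact hab h2

lemma cw_mapsTo (n : ℕ) (x : cell D n) :
    MapsTo (cmap D n x) (sphere 0 1) (⋃ (m < n) (j : cell D m), cmap D m j '' closedBall 0 1) := by
  intro z hz
  obtain ⟨i, hi⟩ := exists_of_mem_sphere hz
  simp only [mem_iUnion]
  match n, x with
  | 0, x => exact i.elim0
  | 1, x =>
    rw [Subsingleton.elim i 0] at hi
    change ∃ m, ∃ (_ : m < 1), ∃ j, ε x (pr (z 0)) ∈ _
    rcases pr_of_abs hi with h | h
    · rw [h, ε0]; exact ⟨0, one_pos, _, v_mem _⟩
    · rw [h, ε1]; exact ⟨0, one_pos, _, v_mem _⟩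
  | 2, x =>
    change ∃ m, ∃ (_ : m < 2), ∃ j, χ x (pr (z 0), pr (z 1)) ∈ _
    fin_cases i
    · rcases pr_of_abs hi with h | h
      · change pr (z 0) = 0 at h
        rw [h, χl]; exact ⟨0, two_pos, _, v_mem _⟩
      · change pr (z 0) = 1 at h
        rw [h, χr]; exact ⟨1, one_lt_two, _, ε_mem _ _⟩
    · rcases pr_of_abs hi with h | h
      · change pr (z 1) = 0 at h
        rw [h, χb]; exact ⟨1, one_lt_two, _, ε_mem _ _⟩
      · change pr (z 1) = 1 at h
        rw [h, χt]; exact ⟨1, one_lt_two, _, ε_mem _ _⟩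
  | _ + 3, x => exact PEmpty.elim x

lemma cw_union : ⋃ (n : ℕ) (j : cell D n), cmap D n j '' closedBall 0 1 = univ := by
  refine eq_univ_of_forall fun y => ?_
  simp only [mem_iUnion]
  rcases cover y with ⟨x, rfl⟩ | ⟨x, s, rfl⟩ | ⟨x, q, rfl⟩
  · exact ⟨0, x, v_mem x⟩
  · exact ⟨1, x, ε_mem x s⟩
  · exact ⟨2, x, χ_mem x q⟩

lemma exists_cw (D : Cx) [Finite D.C0] [Finite D.C1] [Finite D.C2] :
    ∃ _ : CWComplex (univ : Set (Sp D)), RelCWComplex.Finite (univ : Set (Sp D)) ∧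
      ∀ n : ℕ, 2 < n → IsEmpty (RelCWComplex.cell (univ : Set (Sp D)) n) := by
  refine ⟨CWComplex.mkFinite univ (cell D) (cmap D) cw_eventually cw_finite cw_source cw_cont
    cw_cont_symm cw_disj cw_mapsTo cw_union, CWComplex.finite_mkFinite .., fun n hn => ?_⟩
  obtain ⟨m, rfl⟩ := Nat.exists_eq_add_of_le' (show 3 ≤ n from hn)
  exact inferInstanceAs (IsEmpty PEmpty)

/-! ### Cellular maps -/

/-- A morphism of combinatorial data. -/
structure Hom (D D' : Cx) where
  φ0 : D.C0 → D'.C0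
  φ1 : D.C1 → D'.C1
  φ2 : D.C2 → D'.C2
  src : ∀ x, D'.src (φ1 x) = φ0 (D.src x)
  tgt : ∀ x, D'.tgt (φ1 x) = φ0 (D.tgt x)
  A : ∀ x, D'.A (φ2 x) = φ1 (D.A x)
  B : ∀ x, D'.B (φ2 x) = φ1 (D.B x)
  C : ∀ x, D'.C (φ2 x) = φ1 (D.C x)

namespace Hom

variable {D' : Cx} (φ : Hom D D')

/-- The induced map of realisations. -/
def sp : Sp D → Sp D'
  | .v x => .v (φ.φ0 x)
  | .e x s h0 h1 => .e (φ.φ1 x) s h0 h1
  | .f x s t a b c d => .f (φ.φ2 x) s t a b c d

lemma sp_ε (x : D.C1) (s : I) : φ.sp (ε x s) = ε (φ.φ1 x) s := by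
  by_cases h0 : s = 0
  · subst h0; rw [ε0, ε0, φ.src]; rfl
  · by_cases h1 : s = 1
    · subst h1; rw [ε1, ε1, φ.tgt]; rfl
    · rw [εe x s h0 h1, εe _ s h0 h1]; rfl

lemma sp_χ (x : D.C2) (q : I × I) : φ.sp (χ x q) = χ (φ.φ2 x) q := by
  obtain ⟨s, t⟩ := q
  by_cases hs0 : s = 0
  · subst hs0; rw [χl, χl, φ.A, φ.src]; rfl
  by_cases ht0 : t = 0
  · subst ht0; rw [χb, χb, φ.A, sp_ε]
  by_cases hs1 : s = 1
  · subst hs1; rw [χr, χr, φ.B, sp_ε]
  by_cases ht1 : t = 1
  · subst ht1; rw [χt, χt, φ.C, sp_ε]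
  rw [χf x s t hs0 hs1 ht0 ht1, χf _ s t hs0 hs1 ht0 ht1]; rfl

lemma continuous_sp : Continuous φ.sp := by
  rw [continuous_iff]
  refine ⟨fun x => ?_, fun x => ?_⟩
  · have : φ.sp ∘ ε x = ε (φ.φ1 x) := funext fun s => φ.sp_ε x s
    rw [this]; exact continuous_ε _
  · have : φ.sp ∘ χ x = χ (φ.φ2 x) := funext fun s => φ.sp_χ x s
    rw [this]; exact continuous_χ _

lemma isQuotientMap (h0 : Function.Surjective φ.φ0) (h1 : Function.Surjective φ.φ1)
    (h2 : Function.Surjective φ.φ2) : IsQuotientMap φ.sp := by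
  rw [isQuotientMap_iff]
  refine ⟨.of_isOpen_preimage_iff_isOpen fun U =>
    ⟨fun h => ?_, fun h => h.preimage φ.continuous_sp⟩, fun y => ?_⟩
  · rw [isOpen_iff]
    refine ⟨fun x => ?_, fun x => ?_⟩
    · obtain ⟨x, rfl⟩ := h1 x
      have : ε (φ.φ1 x) = φ.sp ∘ ε x := funext fun s => (φ.sp_ε x s).symm
      rw [this]; exact h.preimage (continuous_ε x)
    · obtain ⟨x, rfl⟩ := h2 x
      have : χ (φ.φ2 x) = φ.sp ∘ χ x := funext fun s => (φ.sp_χ x s).symm
      rw [this]; exact h.preimage (continuous_χ x)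
  · cases y with
    | v x => obtain ⟨x, rfl⟩ := h0 x; exact ⟨.v x, rfl⟩
    | e x s a b => obtain ⟨x, rfl⟩ := h1 x; exact ⟨.e x s a b, rfl⟩
    | f x s t a b c d => obtain ⟨x, rfl⟩ := h2 x; exact ⟨.f x s t a b c d, rfl⟩

lemma vF_sp (w : D'.C0 → ℝ) (y : Sp D) : vF w (φ.sp y) = vF (w ∘ φ.φ0) y := by
  cases y <;> simp [vF, lift, sp, φ.src, φ.tgt, φ.A, φ.B]

lemma eF_sp (w : D'.C1 → ℝ) (k : ℕ) (y : Sp D) : eF w k (φ.sp y) = eF (w ∘ φ.φ1) k y := by
  cases y <;> simp [eF, lift, sp, φ.A, φ.B, φ.C]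

lemma fF_sp (w : D'.C2 → ℝ) (k l : ℕ) (y : Sp D) :
    fF w k l (φ.sp y) = fF (w ∘ φ.φ2) k l y := by
  cases y <;> simp [fF, lift, sp]

end Hom

/-! ### The Cayley complex and the presentation complex -/

variable {X R : Type} (P : TriPres X R)

lemma gen_rel (r : R) : P.gen (P.a r) * P.gen (P.b r) = P.gen (P.c r) := by
  have h : PresentedGroup.mk (Set.range P.rel) (P.rel r) = 1 :=
    PresentedGroup.one_of_mem ⟨r, rfl⟩
  rw [TriPres.rel, map_mul, map_mul, map_inv, mul_inv_eq_one] at h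
  exact h

/-- The Cayley data. -/
def cay : Cx where
  C0 := P.G
  C1 := P.G × X
  C2 := P.G × R
  src x := x.1
  tgt x := x.1 * P.gen x.2
  A x := (x.1, P.a x.2)
  B x := (x.1 * P.gen (P.a x.2), P.b x.2)
  C x := (x.1, P.c x.2)
  hAC _ := rfl
  hAB _ := rfl
  hBC x := by simp only [mul_assoc, gen_rel]

/-- The one-vertex data. -/
def pre : Cx where
  C0 := Unit
  C1 := X
  C2 := R
  src _ := ()
  tgt _ := ()
  A := P.a
  B := P.b
  C := P.c
  hAC _ := rfl
  hAB _ := rfl
  hBC _ := rfl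

/-- Left translation. -/
def act (g : P.G) : Hom (cay P) (cay P) where
  φ0 x := (g * (show P.G from x) : P.G)
  φ1 x := (g * x.1, x.2)
  φ2 x := (g * x.1, x.2)
  src _ := rfl
  tgt x := mul_assoc g x.1 (P.gen x.2)
  A _ := rfl
  B x := Prod.ext (mul_assoc g x.1 (P.gen (P.a x.2))) rfl
  C _ := rfl

/-- The projection. -/
def prj : Hom (cay P) (pre P) where
  φ0 _ := ()
  φ1 x := x.2
  φ2 x := x.2
  src _ := rfl
  tgt _ := rfl
  A _ := rfl
  B _ := rfl
  C _ := rfl

noncomputable instance : MulAction P.G (Sp (cay P)) where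
  smul g y := (act P g).sp y
  one_smul y := by
    change (act P 1).sp y = y
    cases y <;> simp [Hom.sp, act]
  mul_smul g h y := by
    change (act P (g * h)).sp y = (act P g).sp ((act P h).sp y)
    cases y <;> simp [Hom.sp, act, mul_assoc]

lemma smul_def (g : P.G) (y : Sp (cay P)) : g • y = (act P g).sp y := rfl

lemma ind_comp {J : Type} (j j' : J) (τ : J → J) (h : ∀ i, τ i = j ↔ i = j') :
    ind j ∘ τ = ind j' := by
  funext i
  by_cases hi : i = j'
  · rw [Function.comp_apply, (h i).2 hi, hi, ind_self, ind_self]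
  · rw [Function.comp_apply, ind_ne hi, ind_ne fun h' => hi ((h i).1 h')]

lemma prod_iff {G J : Type} [Group G] (g : G) (i x : G × J) :
    (g * i.1, i.2) = x ↔ i = (g⁻¹ * x.1, x.2) := by
  rw [Prod.ext_iff, Prod.ext_iff, eq_inv_mul_iff_mul_eq]

lemma disj_of {G Y : Type} [Group G] [MulAction G Y] [TopologicalSpace Y] (μ tot : Y → ℝ)
    (hμ : Continuous μ) (ht : Continuous tot) (hinv : ∀ (g : G) y, tot (g • y) = tot y)
    (hle : ∀ g : G, g ≠ 1 → ∀ y, μ y + μ (g • y) ≤ tot y) (y : Y) (hy : tot y < 2 * μ y) :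
    ∃ U ∈ 𝓝 y, ∀ g : G, ((g • ·) '' U ∩ U).Nonempty → g = 1 := by
  refine ⟨{z | tot z < 2 * μ z}, (isOpen_lt ht (continuous_const.mul hμ)).mem_nhds hy, ?_⟩
  rintro g ⟨_, ⟨z, hz, rfl⟩, hz'⟩
  by_contra hg
  have h1 := hle g hg z
  have h2 := hinv g z
  simp only [mem_ofPred_eq] at hz hz'
  linarith

lemma isQuotientCoveringMap : IsQuotientCoveringMap (prj P).sp P.G where
  __ := (prj P).isQuotientMap (fun _ => ⟨(1 : P.G), rfl⟩) (fun x => ⟨(1, x), rfl⟩)
    (fun x => ⟨(1, x), rfl⟩)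
  continuous_const_smul g := (act P g).continuous_sp
  apply_eq_iff_mem_orbit {y y'} := by
    constructor
    · intro h
      cases y with
      | v x =>
        cases y' with
        | v x' =>
          refine ⟨(show P.G from x) * (show P.G from x')⁻¹, ?_⟩
          simp [smul_def, Hom.sp, act]
        | e x' s a b => simp [Hom.sp] at h
        | f x' s t a b c d => simp [Hom.sp] at h
      | e x s a b =>
        cases y' with
        | v x' => simp [Hom.sp] at h
        | e x' s' a' b' =>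
          simp only [Hom.sp, prj, Sp.e.injEq] at h
          refine ⟨x.1 * x'.1⁻¹, ?_⟩
          simp only [smul_def, Hom.sp, act, Sp.e.injEq, inv_mul_cancel_right]
          exact ⟨Prod.ext rfl h.1.symm, h.2.symm⟩
        | f x' s t a b c d => simp [Hom.sp] at h
      | f x s t a b c d =>
        cases y' with
        | v x' => simp [Hom.sp] at h
        | e x' s' a' b' => simp [Hom.sp] at h
        | f x' s' t' a' b' c' d' =>
          simp only [Hom.sp, prj, Sp.f.injEq] at h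
          refine ⟨x.1 * x'.1⁻¹, ?_⟩
          simp only [smul_def, Hom.sp, act, Sp.f.injEq, inv_mul_cancel_right]
          exact ⟨Prod.ext rfl h.1.symm, h.2.1.symm, h.2.2.symm⟩
    · rintro ⟨g, rfl⟩
      cases y' <;> rfl
  disjoint y := by
    cases y with
    | v x =>
      refine disj_of (vF (ind x)) (vF fun _ => 1) (continuous_vF _) (continuous_vF _)
        (fun g y => (act P g).vF_sp _ y) (fun g hg y => ?_) _ ?_
      · rw [smul_def, Hom.vF_sp, ind_comp x (g⁻¹ * (show P.G from x) : P.G) (act P g).φ0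
          fun i => (eq_inv_mul_iff_mul_eq (G := P.G)).symm]
        refine vF_le (ind_add_le fun h => hg ?_) y
        have h' : g⁻¹ * (show P.G from x) = 1 * (show P.G from x) := by
          rw [one_mul]; exact h.symm
        exact inv_eq_one.1 (mul_right_cancel h')
      · change (1 : ℝ) < 2 * ind x x
        simp
    | e x s a b =>
      refine disj_of (eF (ind x) 0) (eF (fun _ => 1) 0) (continuous_eF _ _) (continuous_eF _ _)
        (fun g y => (act P g).eF_sp _ _ y) (fun g hg y => ?_) _ ?_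
      · rw [smul_def, Hom.eF_sp, ind_comp x (g⁻¹ * x.1, x.2) _ fun i => ?_]
        · refine eF_le (ind_add_le fun h => hg ?_) y
          have h' : g⁻¹ * x.1 = 1 * x.1 := by
            rw [one_mul]; exact (congrArg Prod.fst h).symm
          exact inv_eq_one.1 (mul_right_cancel h')
        · exact prod_iff g i x
      · have p := mul_pos (sub_pos_of_ne b) (pos_of_ne a)
        rw [eF_e, eF_e, ind_self]
        simp only [pow_zero, mul_one, one_mul]
        linarith
    | f x s t a b c d =>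
      refine disj_of (fF (ind x) 0 0) (fF (fun _ => 1) 0 0) (continuous_fF _ _ _)
        (continuous_fF _ _ _) (fun g y => (act P g).fF_sp _ _ _ y) (fun g hg y => ?_) _ ?_
      · rw [smul_def, Hom.fF_sp, ind_comp x (g⁻¹ * x.1, x.2) _ fun i => ?_]
        · refine fF_le (ind_add_le fun h => hg ?_) y
          have h' : g⁻¹ * x.1 = 1 * x.1 := by
            rw [one_mul]; exact (congrArg Prod.fst h).symm
          exact inv_eq_one.1 (mul_right_cancel h')
        · exact prod_iff g i x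
      · have p := mul_pos (mul_pos (mul_pos (sub_pos_of_ne b) (pos_of_ne a)) (sub_pos_of_ne d))
          (pos_of_ne c)
        rw [fF_f, fF_f, ind_self]
        simp only [pow_zero, mul_one, one_mul]
        linarith

/-- The realisation of the Cayley data has the Cayley cell structure. -/
noncomputable def cells : P.CayleyCells (Sp (cay P)) where
  v g := .v g
  ε g x := ⟨ε (D := cay P) (g, x), continuous_ε _⟩
  χ g r := ⟨χ (D := cay P) (g, r), continuous_χ _⟩
  ε0 g x := ε0 (D := cay P) (g, x)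
  ε1 g x := ε1 (D := cay P) (g, x)
  χl g r t := χl (D := cay P) (g, r) t
  χb g r s := χb (D := cay P) (g, r) s
  χr g r t := χr (D := cay P) (g, r) t
  χt g r s := χt (D := cay P) (g, r) s
  cover y := by
    rcases cover y with ⟨x, rfl⟩ | ⟨x, s, rfl⟩ | ⟨x, q, rfl⟩
    · exact Or.inl ⟨x, rfl⟩
    · exact Or.inr (Or.inl ⟨x.1, x.2, s, rfl⟩)
    · exact Or.inr (Or.inr ⟨x.1, x.2, q, rfl⟩)
  glue Z _ z0 z1 z2 h0 h1 hl hb hr ht := by
    have hc : Compat (D := cay P) z0 (fun x => z1 x.1 x.2) (fun x => z2 x.1 x.2) :=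
      ⟨fun x => h0 x.1 x.2, fun x => h1 x.1 x.2, fun x => hl x.1 x.2, fun x => hb x.1 x.2,
        fun x => hr x.1 x.2, fun x => ht x.1 x.2⟩
    exact ⟨⟨_, hc.continuous (fun x => (z1 x.1 x.2).continuous) fun x => (z2 x.1 x.2).continuous⟩,
      fun g => rfl, fun g x s => hc.lift_ε (g, x) s, fun g r q => hc.lift_χ (g, r) q⟩

end Top1

open Top1 in
theorem top1 : Top1Stmt := by
  intro X R _ _ P hc
  have hY : ContractibleSpace (Sp (cay P)) := hc _ (cells P)
  have hq := isQuotientCoveringMap P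
  haveI : Finite (pre P).C0 := inferInstanceAs (Finite Unit)
  haveI : Finite (pre P).C1 := inferInstanceAs (Finite X)
  haveI : Finite (pre P).C2 := inferInstanceAs (Finite R)
  obtain ⟨cw, hfin, hemp⟩ := exists_cw (pre P)
  refine ⟨Sp (pre P), inferInstance, cw, inferInstance, hfin, hemp,
    ⟨Sp (cay P), inferInstance, (prj P).sp, hY, hq.isCoveringMap, hq.surjective⟩,
    .v (), ⟨(hq.fundamentalGroupEquiv ⟨.v (1 : P.G), rfl⟩).trans (MulEquiv.inv' P.G).symm⟩⟩

end Crest.Agent.KP
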