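import Crest.Agent.KP.Top2P

/-!
# KP / TOP2, part 3: loop spaces, lifting, sections over edges and squares
-/

set_option autoImplicit false

namespace Crest.Agent.KP.Top2

open scoped unitInterval
open Set

variable {Y : Type} [TopologicalSpace Y]

/-- Paths from `y0` to `y`. -/
def Om (y0 y : Y) : Set C(I, Y) := {γ | γ 0 = y0 ∧ γ 1 = y}

/-- Pairs of a point `q` and a path from `y0` to `c q`. -/
def EE {Q : Type} (y0 : Y) (c : Q → Y) : Set (Q × C(I, Y)) := {x | x.2 0 = y0 ∧ x.2 1 = c x.1}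

/-- The constant path. -/
def cst (y0 : Y) : C(I, Y) := ContinuousMap.const I y0

@[simp] theorem cst_apply (y0 : Y) (u : I) : cst y0 u = y0 := rfl

theorem rp_cst (y0 : Y) (φ : I → ℝ) (hφ : Continuous φ) : rp (cst y0) (cst y0) φ = cst y0 := by
  ext u
  rw [rp_apply rfl hφ]
  exact lam_mem (S := {y0}) (fun _ => rfl) (fun _ => rfl) _

theorem comm {y0 : Y} (J : JS (Om y0 y0) (cst y0)) (a b : J.A) : a * b = b * a := by
  have hr : JoinedIn (Om y0 y0) (cst y0) (cst y0) := JoinedIn.refl ⟨rfl, rfl⟩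
  obtain ⟨p, hp, p0, p1, rfl⟩ := J.surj _ _ hr hr a
  obtain ⟨q, hq, q0, q1, rfl⟩ := J.surj _ _ hr hr b
  have h1 : J.j p = J.j fun s => cat (p s) (cst y0) := by
    have := J.sq (fun x : I × I => rp (p x.1) (cst y0)
      fun u => (1 - x.2) * (u - 1) + x.2 * (2 * u - 1)) p (fun _ => cst y0) (fun _ => cst y0)
      (fun s => cat (p s) (cst y0)) ⟨continuous_rp (hp.1.comp continuous_fst) continuous_const
        (by fun_prop) fun x => (hp.2 _).2, fun x => ⟨?_, ?_⟩⟩ ⟨fun s => ?_, fun t => ?_, fun t => ?_,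
        fun s => ?_⟩
    · rwa [J.const (fun _ => cst y0) fun _ => rfl, mul_one, one_mul] at this
    · rw [rp_apply (hp.2 _).2 (by fun_prop), lam_left _ _ 0 (by simp; ring)]; exact (hp.2 _).1
    · rw [rp_apply (hp.2 _).2 (by fun_prop)]
      exact lam_right (hp.2 _).2 x.2 (by simp; norm_num)
    · ext u
      rw [rp_apply (hp.2 _).2 (by fun_prop), lam_left _ _ u (by simp)]
    · rw [p1]; exact rp_cst _ _ (by fun_prop)
    · rw [p0]; exact rp_cst _ _ (by fun_prop)
    · simp [cat]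
  have h2 : J.j q = J.j fun s => cat (cst y0) (q s) := by
    have := J.sq (fun x : I × I => rp (cst y0) (q x.1)
      fun u => (1 - x.2) * u + x.2 * (2 * u - 1)) q (fun _ => cst y0) (fun _ => cst y0)
      (fun s => cat (cst y0) (q s)) ⟨continuous_rp continuous_const (hq.1.comp continuous_fst)
        (by fun_prop) fun x => (hq.2 _).1.symm, fun x => ⟨?_, ?_⟩⟩ ⟨fun s => ?_, fun t => ?_,
        fun t => ?_, fun s => ?_⟩
    · rwa [J.const (fun _ => cst y0) fun _ => rfl, mul_one, one_mul] at this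
    · rw [rp_apply (hq.2 _).1.symm (by fun_prop), lam_left _ _ (σ x.2) (by simp)]; rfl
    · rw [rp_apply (hq.2 _).1.symm (by fun_prop), lam_right (hq.2 _).1.symm 1 (by simp; norm_num)]
      exact (hq.2 _).2
    · ext u
      rw [rp_apply (hq.2 _).1.symm (by fun_prop), lam_right (hq.2 _).1.symm u (by simp)]
    · rw [q1]; exact rp_cst _ _ (by fun_prop)
    · rw [q0]; exact rp_cst _ _ (by fun_prop)
    · simp [cat]
  rw [h1, h2]
  have hpq : ∀ s t, p s 1 = q t 0 := fun s t => (hp.2 s).2.trans (hq.2 t).1.symm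
  refine J.sq (fun x : I × I => cat (p x.1) (q x.2)) _ _ _ _
    ⟨continuous_cat (hp.1.comp continuous_fst) (hq.1.comp continuous_snd) fun x => hpq _ _,
      fun x => ⟨?_, ?_⟩⟩ ⟨fun s => ?_, fun t => ?_, fun t => ?_, fun s => ?_⟩
  · rw [cat_zero (hpq _ _)]; exact (hp.2 _).1
  · rw [cat_one (hpq _ _)]; exact (hq.2 _).2
  · simp only [q0]
  · simp only [p1]
  · simp only [p0]
  · simp only [q1]

theorem cat_rev_mem {y0 y : Y} {γ δ : C(I, Y)} (hγ : γ ∈ Om y0 y) (hδ : δ ∈ Om y0 y) :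
    cat γ (rev δ) ∈ Om y0 y0 := by
  have h : γ 1 = rev δ 0 := by simp [hγ.2, hδ.2]
  exact ⟨by rw [cat_zero h, hγ.1], by rw [cat_one h]; simp [hδ.1]⟩

theorem pa_cat_rev {W : Type} [TopologicalSpace W] {y0 : Y} {c : W → Y} {γ δ : W → C(I, Y)}
    (hγ : Continuous γ) (hδ : Continuous δ) (h1 : ∀ w, γ w ∈ Om y0 (c w))
    (h2 : ∀ w, δ w ∈ Om y0 (c w)) : Pa (Om y0 y0) fun w => cat (γ w) (rev (δ w)) :=
  ⟨continuous_cat hγ (continuous_rev hδ) fun w => by simp [(h1 w).2, (h2 w).2],
    fun w => cat_rev_mem (h1 w) (h2 w)⟩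

theorem joined_cat_rev {y0 : Y} {γ : C(I, Y)} (h : γ 0 = y0) :
    JoinedIn (Om y0 y0) (cst y0) (cat γ (rev γ)) := by
  let F : C(I × I, Y) := ⟨fun x => ex γ (x.1 * min (2 * (x.2 : ℝ)) (2 - 2 * x.2)),
    continuous_ex continuous_const (by fun_prop)⟩
  have hF : Pa (Om y0 y0) F.curry := ⟨F.curry.continuous, fun a => ⟨?_, ?_⟩⟩
  · have := hF.joined
    have e0 : F.curry 0 = cst y0 := by
      ext u
      change ex γ _ = y0
      rw [ex_coe (u := 0) _ (by simp), h]
    have e1 : F.curry 1 = cat γ (rev γ) := by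
      ext u
      change ex γ _ = _
      have h' : γ 1 = rev γ 0 := by simp
      have h0 := u.2.1
      have h1 := u.2.2
      rw [cat_apply h']
      simp only [Icc.coe_one, one_mul]
      rcases le_total (2 * (u : ℝ)) 1 with hu | hu
      · rw [lam_left _ (rev γ) ⟨2 * u, by linarith, hu⟩ rfl, min_eq_left (by linarith)]
        exact ex_coe _ rfl
      · rw [lam_right h' ⟨2 * u - 1, by linarith, by linarith⟩ rfl, min_eq_right (by linarith),
          rev_apply]
        apply ex_coe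
        simp only [unitInterval.coe_symm_eq]; ring
    rwa [e0, e1] at this
  · change ex γ _ = y0
    rw [ex_coe (u := 0) _ (by simp), h]
  · change ex γ _ = y0
    rw [ex_coe (u := 0) _ (by simp), h]

/-- Every class is realised by a loop of paths from `y0` to `y`. -/
theorem exists_loop {y0 y : Y} (J : JS (Om y0 y0) (cst y0)) {γ : C(I, Y)} (hγ : γ ∈ Om y0 y)
    (β : J.A) : ∃ b : I → C(I, Y), Pa (Om y0 y) b ∧ b 0 = γ ∧ b 1 = γ ∧
      J.j (fun t => cat (b t) (rev γ)) = β := by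
  have hj := joined_cat_rev hγ.1
  obtain ⟨ζ, hζ, z0, z1, rfl⟩ := J.surj _ _ hj hj β
  have hzγ : ∀ t, ζ t 1 = γ 0 := fun t => (hζ.2 t).2.trans hγ.1.symm
  have hb' : Pa (Om y0 y) fun t => cat (ζ t) γ :=
    ⟨continuous_cat hζ.1 continuous_const hzγ, fun t =>
      ⟨by rw [cat_zero (hzγ t)]; exact (hζ.2 t).1, by rw [cat_one (hzγ t)]; exact hγ.2⟩⟩
  have hr : γ 1 = rev γ 0 := by simp
  have hw : Pa (Om y0 y) fun a => dd γ (rev γ) a :=
    ⟨continuous_dd continuous_const continuous_const continuous_id fun _ => hr, fun a =>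
      ⟨by rw [dd_src hr]; exact hγ.1, by rw [dd_tgt hr]; exact hγ.2⟩⟩
  obtain ⟨b, K, b0, b1, hK, hK'⟩ := exists_conj hw hb'
    (by simp only [dd_one hr, rev_rev, z0]) (by simp only [dd_one hr, rev_rev, z1])
  simp only [dd_zero hr] at b0 b1
  have hb : Pa (Om y0 y) b := by
    rw [← funext hK'.b]; exact hK.comp (by fun_prop)
  refine ⟨b, hb, b0, b1, ?_⟩
  have e1 := J.sq (fun x => cat (K x) (rev γ)) (fun t => cat (b t) (rev γ))
    (fun a => cat (dd γ (rev γ) a) (rev γ)) (fun a => cat (dd γ (rev γ) a) (rev γ))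
    (fun t => cat (cat (ζ t) γ) (rev γ))
    (pa_cat_rev (c := fun _ => y) hK.1 continuous_const hK.2 fun _ => hγ)
    ⟨fun s => by simp only [hK'.b], fun s => by simp only [hK'.r], fun s => by simp only [hK'.l],
      fun s => by simp only [hK'.t]⟩
  rw [comm J, mul_right_inj] at e1
  have e2 := J.sq (fun x => dd (ζ x.1) γ x.2) ζ (fun a => dd (cat γ (rev γ)) γ a)
    (fun a => dd (cat γ (rev γ)) γ a) (fun t => cat (cat (ζ t) γ) (rev γ))
    ⟨continuous_dd (hζ.1.comp continuous_fst) continuous_const continuous_snd fun x => hzγ _,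
      fun x => ⟨by rw [dd_src (hzγ _)]; exact (hζ.2 _).1, by
        rw [dd_tgt (hzγ _)]; exact (hζ.2 _).2⟩⟩
    ⟨fun s => dd_zero (hzγ s), fun s => by simp only [z1], fun s => by simp only [z0],
      fun s => dd_one (hzγ s)⟩
  rw [comm J, mul_right_inj] at e2
  rw [e1, e2]

/-- A continuous way of moving from one point to another. -/
structure Mover (Q : Type) [TopologicalSpace Q] where
  mv : Q → Q → I → Q
  a : Q → Q → I
  cmv : Continuous fun p : Q × Q × I => mv p.1 p.2.1 p.2.2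
  ca : Continuous fun p : Q × Q => a p.1 p.2
  mv0 : ∀ q q', mv q q' 0 = q
  mva : ∀ q q' x, a q q' ≤ x → mv q q' x = q'
  a_self : ∀ q, a q q = 0

noncomputable def moverI : Mover I where
  mv q q' x := projIcc 0 1 zero_le_one (max ((q : ℝ) - x) (min (q' : ℝ) (q + x)))
  a q q' := ⟨|(q : ℝ) - q'|, abs_nonneg _, by
    have := q.2.1; have := q.2.2; have := q'.2.1; have := q'.2.2
    rw [abs_le]; constructor <;> linarith⟩
  cmv := continuous_projIcc.comp (by fun_prop)
  ca := Continuous.subtype_mk (by fun_prop) _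
  mv0 q q' := by
    simp only [Icc.coe_zero, sub_zero, add_zero]
    rw [max_eq_left (min_le_right _ _), projIcc_val]
  mva q q' x h := by
    have h' : |(q : ℝ) - q'| ≤ x := h
    rw [abs_le] at h'
    rw [min_eq_left (by linarith), max_eq_right (by linarith), projIcc_val]
  a_self q := by apply Subtype.ext; simp

noncomputable def moverII : Mover (I × I) where
  mv q q' x := (moverI.mv q.1 q'.1 x, moverI.mv q.2 q'.2 x)
  a q q' := max (moverI.a q.1 q'.1) (moverI.a q.2 q'.2)
  cmv := by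
    refine Continuous.prodMk ?_ ?_
    · exact moverI.cmv.comp (f := fun p : (I × I) × (I × I) × I => (p.1.1, p.2.1.1, p.2.2))
        (by fun_prop)
    · exact moverI.cmv.comp (f := fun p : (I × I) × (I × I) × I => (p.1.2, p.2.1.2, p.2.2))
        (by fun_prop)
  ca := by
    refine Continuous.max ?_ ?_
    · exact moverI.ca.comp (f := fun p : (I × I) × (I × I) => (p.1.1, p.2.1)) (by fun_prop)
    · exact moverI.ca.comp (f := fun p : (I × I) × (I × I) => (p.1.2, p.2.2)) (by fun_prop)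
  mv0 q q' := by rw [moverI.mv0, moverI.mv0]
  mva q q' x h := by
    rw [moverI.mva _ _ _ (le_trans (le_max_left _ _) h),
      moverI.mva _ _ _ (le_trans (le_max_right _ _) h)]
  a_self q := by rw [moverI.a_self, moverI.a_self, max_self]

/-- Moving a family of paths so that it lies over a prescribed map. -/
theorem lift {Q W : Type} [TopologicalSpace Q] [TopologicalSpace W] (m : Mover Q) {y0 : Y}
    {c : Q → Y} (hc : Continuous c) {K : W → Q × C(I, Y)} (hK : Pa (EE y0 c) K) {f : W → Q}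
    (hf : Continuous f) : ∃ k : W → C(I, Y), Continuous k ∧ (∀ w, k w ∈ Om y0 (c (f w))) ∧
      ∀ w, (K w).1 = f w → k w = (K w).2 := by
  have h1 : Continuous K := hK.1
  have h2 : Continuous fun w => (K w).2 := hK.1.snd
  let F : C(W × I, Y) := ⟨fun p => c (m.mv (K p.1).1 (f p.1) p.2),
    hc.comp (m.cmv.comp (f := fun p : W × I => ((K p.1).1, f p.1, p.2)) (by fun_prop))⟩
  have ha : Continuous fun w => m.a (K w).1 (f w) :=
    m.ca.comp (f := fun w => ((K w).1, f w)) (by fun_prop)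
  have hF : ∀ w, (K w).2 1 = F.curry w 0 := fun w => by
    change _ = c (m.mv _ _ 0)
    rw [m.mv0, (hK.2 w).2]
  refine ⟨fun w => rp (K w).2 (F.curry w) fun u => u * (1 + m.a (K w).1 (f w)) - 1,
    continuous_rp h2 F.curry.continuous ?_ hF, fun w => ⟨?_, ?_⟩, fun w hw => ?_⟩
  · have : Continuous fun p : W × I => ((m.a (K p.1).1 (f p.1) : I) : ℝ) :=
      continuous_subtype_val.comp (ha.comp continuous_fst)
    exact ((continuous_subtype_val.comp continuous_snd).mul (continuous_const.add this)).sub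
      continuous_const
  · rw [rp_apply (hF w) (by fun_prop), lam_left _ _ 0 (by simp)]; exact (hK.2 w).1
  · rw [rp_apply (hF w) (by fun_prop), lam_right (hF w) (m.a (K w).1 (f w)) (by simp)]
    change c (m.mv _ _ _) = _
    rw [m.mva _ _ _ le_rfl]
  · ext u
    rw [rp_apply (hF w) (by fun_prop), lam_left _ _ u (by simp [hw, m.a_self])]

/-- Changing a section over an edge by a prescribed class. -/
theorem edge_modify {y0 : Y} (J : JS (Om y0 y0) (cst y0)) {ε : I → Y} (hε : Continuous ε)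
    {h0 : I → C(I, Y)} (hc : Continuous h0) (hm : ∀ s, h0 s ∈ Om y0 (ε s)) (β : J.A) :
    ∃ h : I → C(I, Y), Continuous h ∧ (∀ s, h s ∈ Om y0 (ε s)) ∧ h 0 = h0 0 ∧ h 1 = h0 1 ∧
      ∀ d : I → C(I, Y), Continuous d → (∀ s, d s ∈ Om y0 (ε s)) → d 0 = h0 0 →
        J.j (fun s => cat (h s) (rev (d s))) = β * J.j fun s => cat (h0 s) (rev (d s)) := by
  obtain ⟨b, hb, b0, b1, e⟩ := exists_loop J (hm 0) β
  let b' : C(I, I × C(I, Y)) := ⟨fun t => (0, b t), continuous_const.prodMk hb.1⟩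
  let H : C(I, I × C(I, Y)) := ⟨fun s => (s, h0 s), continuous_id.prodMk hc⟩
  have hbH : b' 1 = H 0 := Prod.ext rfl b1
  have hK : Pa (EE y0 ε) fun x : I × I => lam b' H ((x.2 - 1) * (1 - x.1) + x.1) :=
    ⟨continuous_lam continuous_const continuous_const (by fun_prop) fun _ => hbH,
      fun x => lam_mem (fun u => hb.2 u) (fun u => hm u) _⟩
  obtain ⟨k, kc, km, ke⟩ := lift moverI hε hK continuous_fst
  have kl : ∀ t, k (0, t) = b t := fun t => by
    have e : lam b' H (((t : ℝ) - 1) * (1 - (0 : I)) + (0 : I)) = b' t :=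
      lam_left _ _ t (by simp)
    have := ke (0, t) (by simp only [e]; rfl)
    simp only [e] at this; exact this
  have kt : ∀ s, k (s, 1) = h0 s := fun s => by
    have e : lam b' H ((((1 : I) : ℝ) - 1) * (1 - s) + s) = H s := lam_right hbH s (by simp)
    have := ke (s, 1) (by simp only [e]; rfl)
    simp only [e] at this; exact this
  have kr : ∀ t, k (1, t) = h0 1 := fun t => by
    have e : lam b' H (((t : ℝ) - 1) * (1 - (1 : I)) + (1 : I)) = H 1 :=
      lam_right hbH 1 (by simp)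
    have := ke (1, t) (by simp only [e]; rfl)
    simp only [e] at this; exact this
  refine ⟨fun s => k (s, 0), by fun_prop, fun s => km (s, 0), (kl 0).trans b0, kr 0,
    fun d hd dm d0 => ?_⟩
  have := J.sq (fun x => cat (k x) (rev (d x.1))) (fun s => cat (k (s, 0)) (rev (d s)))
    (fun _ => cat (h0 1) (rev (d 1))) (fun t => cat (b t) (rev (h0 0)))
    (fun s => cat (h0 s) (rev (d s)))
    (pa_cat_rev (c := fun x : I × I => ε x.1) kc (hd.comp continuous_fst) km fun x => dm x.1)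
    ⟨fun s => rfl, fun s => by simp only [kr], fun s => by simp only [kl, d0],
      fun s => by simp only [kt]⟩
  rwa [J.const (fun _ => cat (h0 1) (rev (d 1))) fun _ => rfl, mul_one, e] at this

/-- A reference section over a square whose left side is collapsed. -/
theorem square_delta {y0 : Y} {χ : I × I → Y} (hχ : Continuous χ) {h0 : I → C(I, Y)}
    (hc : Continuous h0) (hm : ∀ s, h0 s ∈ Om y0 (χ (s, 0))) (hl : ∀ t, χ (0, t) = χ (0, 0)) :
    ∃ δ : I × I → C(I, Y), Continuous δ ∧ (∀ q, δ q ∈ Om y0 (χ q)) ∧ (∀ t, δ (0, t) = h0 0) ∧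
      ∀ s, δ (s, 0) = h0 s := by
  let L : C(I, (I × I) × C(I, Y)) := ⟨fun u => ((0, σ u), h0 0), by fun_prop⟩
  let B : C(I, (I × I) × C(I, Y)) := ⟨fun s => ((s, 0), h0 s), by fun_prop⟩
  have hLB : L 1 = B 0 := by simp [L, B]
  have hK : Pa (EE y0 χ) fun x : I × I => lam L B (x.1 - x.2) :=
    ⟨continuous_lam continuous_const continuous_const (by fun_prop) fun _ => hLB,
      fun x => lam_mem (S := EE y0 χ) (fun u => ⟨(hm 0).1, (hm 0).2.trans (hl _).symm⟩)
        (fun u => hm u) _⟩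
  obtain ⟨k, kc, km, ke⟩ := lift moverII hχ hK continuous_id
  refine ⟨k, kc, km, fun t => ?_, fun s => ?_⟩
  · have e : lam L B (((0 : I) : ℝ) - t) = L (σ t) := lam_left _ _ _ (by simp)
    have := ke (0, t) (by simp only [e]; simp [L])
    simp only [e] at this; exact this
  · have e : lam L B ((s : ℝ) - (0 : I)) = B s := lam_right hLB _ (by simp)
    have := ke (s, 0) (by simp only [e]; rfl)
    simp only [e] at this; exact this

/-- Extending a section over a square when the obstruction vanishes. -/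
theorem square_fill {y0 : Y} (J : JS (Om y0 y0) (cst y0)) {χ : I × I → Y} (hχ : Continuous χ)
    {δ : I × I → C(I, Y)} (hδ : Continuous δ) (δm : ∀ q, δ q ∈ Om y0 (χ q))
    {B R L T : I → C(I, Y)} (cB : Continuous B) (cR : Continuous R) (cL : Continuous L)
    (cT : Continuous T) (mB : ∀ s, B s ∈ Om y0 (χ (s, 0))) (mR : ∀ s, R s ∈ Om y0 (χ (1, s)))
    (mL : ∀ s, L s ∈ Om y0 (χ (0, s))) (mT : ∀ s, T s ∈ Om y0 (χ (s, 1)))
    (h00 : B 0 = L 0) (h10 : B 1 = R 0) (h01 : L 1 = T 0) (h11 : R 1 = T 1)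
    (hb : B 0 = δ (0, 0))
    (h : J.j (fun s => cat (B s) (rev (δ (s, 0)))) * J.j (fun s => cat (R s) (rev (δ (1, s)))) =
      J.j (fun s => cat (L s) (rev (δ (0, s)))) * J.j (fun s => cat (T s) (rev (δ (s, 1))))) :
    ∃ k : I × I → C(I, Y), Continuous k ∧ (∀ q, k q ∈ Om y0 (χ q)) ∧ Bd k B R L T := by
  obtain ⟨m, hm, hm'⟩ := J.fill _ _ _ _
    (pa_cat_rev cB (by fun_prop) mB fun s => δm _) (pa_cat_rev cR (by fun_prop) mR fun s => δm _)
    (pa_cat_rev cL (by fun_prop) mL fun s => δm _) (pa_cat_rev cT (by fun_prop) mT fun s => δm _)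
    (by simp only [hb]; exact joined_cat_rev (δm _).1) (by simp only [h00]) (by simp only [h10])
    (by simp only [h01]) (by simp only [h11]) h
  have hmδ : ∀ q, m q 1 = δ q 0 := fun q => (hm.2 q).2.trans (δm q).1.symm
  have hr : ∀ x ∈ EE y0 χ, x.2 1 = rev (δ x.1) 0 := fun x hx => by simp [hx.2, (δm _).2]
  obtain ⟨K, hK, hK'⟩ := fill_of_homotopy (S := EE y0 χ)
    (fun x a => (x.1, dd x.2 (rev (δ x.1)) a)) (fun x hx => by simp only [dd_zero (hr x hx)])
    (fun f hf => ⟨(hf.1.fst.comp continuous_fst).prodMk (continuous_dd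
      (hf.1.snd.comp continuous_fst) (continuous_rev (hδ.comp (hf.1.fst.comp continuous_fst)))
      continuous_snd fun q => hr _ (hf.2 _)), fun q =>
        ⟨(dd_src (hr _ (hf.2 _)) _).trans (hf.2 _).1, (dd_tgt (hr _ (hf.2 _)) _).trans (hf.2 _).2⟩⟩)
    (B := fun s => ((s, 0), B s)) (R := fun s => ((1, s), R s)) (L := fun s => ((0, s), L s))
    (T := fun s => ((s, 1), T s)) ⟨by fun_prop, mB⟩ ⟨by fun_prop, mR⟩ ⟨by fun_prop, mL⟩
    ⟨by fun_prop, mT⟩ (by simp only [h00]) (by simp only [h10]) (by simp only [h01])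
    (by simp only [h11]) (M := fun q => (q, cat (m q) (δ q)))
    ⟨continuous_id.prodMk (continuous_cat hm.1 hδ hmδ), fun q =>
      ⟨(cat_zero (hmδ q)).trans (hm.2 q).1, (cat_one (hmδ q)).trans (δm q).2⟩⟩
    ⟨fun s => by simp only [hm'.b, dd_one (hr ((s, 0), B s) (mB s)), rev_rev],
      fun s => by simp only [hm'.r, dd_one (hr ((1, s), R s) (mR s)), rev_rev],
      fun s => by simp only [hm'.l, dd_one (hr ((0, s), L s) (mL s)), rev_rev],
      fun s => by simp only [hm'.t, dd_one (hr ((s, 1), T s) (mT s)), rev_rev]⟩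
  obtain ⟨k, kc, km, ke⟩ := lift moverII hχ hK continuous_id
  refine ⟨k, kc, km, fun s => ?_, fun s => ?_, fun s => ?_, fun s => ?_⟩
  · rw [ke _ (by rw [hK'.b]; rfl), hK'.b]
  · rw [ke _ (by rw [hK'.r]; rfl), hK'.r]
  · rw [ke _ (by rw [hK'.l]; rfl), hK'.l]
  · rw [ke _ (by rw [hK'.t]; rfl), hK'.t]

end Crest.Agent.KP.Top2
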