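import Crest.Agent.KP.Stmts
import Crest.Agent.KP.Top2L

/-!
# KP / TOP2: a Cayley complex with vanishing second cohomology is contractible
-/

set_option autoImplicit false

namespace Crest.Agent.KP

open scoped unitInterval
open Set

namespace Top2

variable {X R : Type} (P : TriPres X R)

theorem gen_rel (r : R) : P.gen (P.a r) * P.gen (P.b r) = P.gen (P.c r) := by
  have h : PresentedGroup.mk (Set.range P.rel) (P.rel r) = 1 :=
    PresentedGroup.one_of_mem ⟨r, rfl⟩
  rw [TriPres.rel, map_mul, map_mul, map_inv, mul_inv_eq_one] at h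
  exact h

theorem ind (p : P.G → Prop) (h1 : p 1) (h : ∀ g x, p g ↔ p (g * P.gen x)) (g : P.G) : p g := by
  have hg : g ∈ Subgroup.closure (Set.range (PresentedGroup.of : X → P.G)) := by
    rw [PresentedGroup.closure_range_of]; trivial
  induction hg using Subgroup.closure_induction_right with
  | one => exact h1
  | mul_right x hx y hy ih =>
    obtain ⟨z, rfl⟩ := hy
    exact (h x z).1 ih
  | mul_inv_cancel x hx y hy ih =>
    obtain ⟨z, rfl⟩ := hy
    refine (h _ z).2 ?_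
    change p (x * (P.gen z)⁻¹ * P.gen z)
    rwa [inv_mul_cancel_right]

/-- A non-abelian cocycle on the Cayley complex is a coboundary. -/
theorem flat {Γ : Type} [Group Γ] (ω : P.G → X → Γ)
    (hω : ∀ g r, ω g (P.a r) * ω (g * P.gen (P.a r)) (P.b r) = ω g (P.c r)) :
    ∃ f : P.G → Γ, ∀ g x, f (g * P.gen x) = f g * ω g x := by
  let T : X → Equiv.Perm (P.G × Γ) := fun x =>
    { toFun := fun p => (p.1 * P.gen x, p.2 * ω p.1 x)
      invFun := fun p => (p.1 * (P.gen x)⁻¹, p.2 * (ω (p.1 * (P.gen x)⁻¹) x)⁻¹)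
      left_inv := fun p => by simp
      right_inv := fun p => by simp }
  have hT : ∀ r, T (P.b r) * T (P.a r) = T (P.c r) := fun r => by
    ext p
    · simp [T, mul_assoc, gen_rel]
    · simp [T, mul_assoc, hω]
  have hrel : ∀ w ∈ Set.range P.rel, FreeGroup.lift (fun x => (T x)⁻¹) w = 1 := by
    rintro _ ⟨r, rfl⟩
    simp only [TriPres.rel, map_mul, map_inv, FreeGroup.lift_apply_of, ← hT r]
    group
  let φ := PresentedGroup.toGroup hrel
  have hφ : ∀ x, φ (P.gen x) = (T x)⁻¹ := fun x => PresentedGroup.toGroup.of hrel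
  let F : P.G → P.G × Γ := fun g => (φ g)⁻¹ (1, 1)
  have hF : ∀ g x, F (g * P.gen x) = T x (F g) := fun g x => by
    simp only [F, map_mul, hφ, mul_inv_rev, inv_inv, Equiv.Perm.mul_apply]
  have h1 : ∀ g, (F g).1 = g := by
    refine ind P _ (by simp only [F, map_one, inv_one]; rfl) fun g x => ?_
    rw [hF]
    change _ ↔ (F g).1 * P.gen x = g * P.gen x
    rw [mul_left_inj]
  refine ⟨fun g => (F g).2, fun g x => ?_⟩
  simp only [hF]
  change (F g).2 * ω (F g).1 x = _
  rw [h1]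

variable {P} {Y : Type} [TopologicalSpace Y] (C : P.CayleyCells Y)

/-- Sections over the vertices and edges. -/
theorem exists_sections : ∃ (γ : P.G → C(I, Y)) (h : P.G → X → I → C(I, Y)),
    (∀ g, γ g ∈ Om (C.v 1) (C.v g)) ∧ ∀ g x, Continuous (h g x) ∧
      (∀ s, h g x s ∈ Om (C.v 1) (C.ε g x s)) ∧ h g x 0 = γ g ∧ h g x 1 = γ (g * P.gen x) := by
  obtain ⟨J⟩ := exists_JD (C.v 1)
  have hj : ∀ g, Joined (C.v 1) (C.v g) := by
    refine ind P _ (Joined.refl _) fun g x => ?_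
    have : Joined (C.v g) (C.v (g * P.gen x)) := ⟨toPath (C.ε g x) (C.ε0 g x) (C.ε1 g x)⟩
    exact ⟨fun h => h.trans this, fun h => h.trans this.symm⟩
  obtain ⟨f, hf⟩ := flat P (fun g x => J.j (C.ε g x)) fun g r => by
    have := J.sq (C.χ g r) _ _ (cst (C.v g)) _ ⟨C.χb g r, C.χr g r, C.χl g r, C.χt g r⟩
    rwa [J.const (cst _) fun _ => rfl, one_mul] at this
  choose γ γ0 γ1 hγ using fun g => J.surj _ _ (Joined.refl _) (hj g) (f g)
  have hK : ∀ g x, ∃ K, Sq K (cst (C.v 1)) (γ (g * P.gen x)) (γ g) (C.ε g x) := fun g x =>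
    J.fill _ _ _ _ (Joined.refl _) (γ0 g).symm (γ0 _).symm ((γ1 g).trans (C.ε0 g x).symm)
      ((γ1 _).trans (C.ε1 g x).symm) (by rw [J.const (cst _) fun _ => rfl, one_mul, hγ, hγ, hf])
  choose K hK using hK
  refine ⟨γ, fun g x => (K g x).curry, fun g => ⟨γ0 g, γ1 g⟩, fun g x =>
    ⟨(K g x).curry.continuous, fun s => ⟨(hK g x).b s, (hK g x).t s⟩, ?_, ?_⟩⟩
  · ext u; exact (hK g x).l u
  · ext u; exact (hK g x).r u

include C in
theorem contractible (hP : P.H2zero) : ContractibleSpace Y := by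
  obtain ⟨γ, h0, hγ, hh0⟩ := exists_sections C
  obtain ⟨J⟩ := exists_JS (Om (C.v 1) (C.v 1)) (cst (C.v 1)) ⟨rfl, rfl⟩
  let _ : CommGroup J.A := { J.grp with mul_comm := comm J }
  have hδ : ∀ g r, ∃ δ : I × I → C(I, Y), Continuous δ ∧ (∀ q, δ q ∈ Om (C.v 1) (C.χ g r q)) ∧
      (∀ t, δ (0, t) = h0 g (P.a r) 0) ∧ ∀ s, δ (s, 0) = h0 g (P.a r) s := fun g r =>
    square_delta (C.χ g r).continuous (hh0 g _).1
      (fun s => by rw [C.χb]; exact (hh0 g _).2.1 s) fun t => by rw [C.χl, C.χl]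
  choose δ δc δm δl δb using hδ
  obtain ⟨β, hβ⟩ := hP (Additive J.A) fun g r => Additive.ofMul
    (J.j (fun s => cat (h0 g (P.c r) s) (rev (δ g r (s, 1)))) *
      (J.j (fun s => cat (h0 g (P.a r) s) (rev (δ g r (s, 0)))) *
        J.j (fun s => cat (h0 (g * P.gen (P.a r)) (P.b r) s) (rev (δ g r (1, s)))))⁻¹)
  choose h hc hm he0 he1 hj using fun g x =>
    edge_modify J (C.ε g x).continuous (hh0 g x).1 (hh0 g x).2.1 (Additive.toMul (β g x))
  have e0 : ∀ g x, h g x 0 = γ g := fun g x => (he0 g x).trans (hh0 g x).2.2.1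
  have e1 : ∀ g x, h g x 1 = γ (g * P.gen x) := fun g x => (he1 g x).trans (hh0 g x).2.2.2
  have hk : ∀ g r, ∃ k : I × I → C(I, Y), Continuous k ∧ (∀ q, k q ∈ Om (C.v 1) (C.χ g r q)) ∧
      Bd k (h g (P.a r)) (h (g * P.gen (P.a r)) (P.b r)) (fun _ => γ g) (h g (P.c r)) := by
    intro g r
    have c1 := δc g r
    refine square_fill J (C.χ g r).continuous (δc g r) (δm g r) (hc _ _) (hc _ _) continuous_const
      (hc _ _) (fun s => by rw [C.χb]; exact hm _ _ s) (fun s => by rw [C.χr]; exact hm _ _ s)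
      (fun s => by rw [C.χl]; exact hγ g) (fun s => by rw [C.χt]; exact hm _ _ s) (e0 _ _)
      (by rw [e1, e0]) (e0 _ _).symm (by rw [e1, e1, mul_assoc, gen_rel])
      (by rw [δb, he0]) ?_
    rw [hj g (P.a r) (fun s => δ g r (s, 0)) (by fun_prop)
        (fun s => by rw [← C.χb]; exact δm g r _) (δb g r 0),
      hj (g * P.gen (P.a r)) (P.b r) (fun s => δ g r (1, s)) (by fun_prop)
        (fun s => by rw [← C.χr]; exact δm g r _)
        (by rw [δb, (hh0 _ _).2.2.2, (hh0 _ _).2.2.1]),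
      hj g (P.c r) (fun s => δ g r (s, 1)) (by fun_prop)
        (fun s => by rw [← C.χt]; exact δm g r _)
        (by rw [δl, (hh0 _ _).2.2.1, (hh0 _ _).2.2.1]),
      J.const (fun s => cat (γ g) (rev (δ g r (0, s)))) (fun s => by simp only [δl]), one_mul]
    have := congrArg Additive.toMul (hβ g r)
    simp only [TriPres.cob, toMul_sub, toMul_add, toMul_ofMul] at this
    rw [div_eq_iff_eq_mul] at this
    rw [mul_mul_mul_comm, this, mul_comm _ (Additive.toMul (β g (P.c r))), mul_assoc,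
      inv_mul_cancel_right]
  choose k kc km kb using hk
  obtain ⟨F, F0, F1, F2⟩ := C.glue C(I, Y) γ (fun g x => ⟨h g x, hc g x⟩)
    (fun g r => ⟨k g r, kc g r⟩) e0 e1 (fun g r => (kb g r).l) (fun g r => (kb g r).b)
    (fun g r => (kb g r).r) (fun g r => (kb g r).t)
  have hF : ∀ y, F y ∈ Om (C.v 1) y := fun y => by
    rcases C.cover y with ⟨g, rfl⟩ | ⟨g, x, s, rfl⟩ | ⟨g, r, q, rfl⟩
    · rw [F0]; exact hγ g
    · rw [F1]; exact hm g x s
    · rw [F2]; exact km g r q
  rw [contractible_iff_id_nullhomotopic]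
  refine ⟨C.v 1, ContinuousMap.Homotopic.symm ⟨⟨⟨fun p => F p.2 p.1, ?_⟩, fun y => (hF y).1,
    fun y => (hF y).2⟩⟩⟩
  exact (F.continuous.comp continuous_snd).eval continuous_fst

end Top2

theorem top2 : Top2Stmt := fun _ _ _ hP _ _ C => Top2.contractible C hP

end Crest.Agent.KP
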