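import Mathlib

/-!
# KP / TOP2, part 1: a group-valued invariant of free paths

For a space `X` with base point `x0` we build a group `A` (the fundamental group) and a function
`j : C(I, X) → A` that is multiplicative around squares, detects fillable square boundaries and is
onto on the paths between two points of the component of `x0`.
-/

set_option autoImplicit false

namespace Crest.Agent.KP.Top2

open scoped unitInterval
open CategoryTheory Set

variable {X : Type} [TopologicalSpace X]

/-- `K` is a square with bottom `B`, right side `R`, left side `L` and top `T`. -/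
structure Sq (K : C(I × I, X)) (B R L T : C(I, X)) : Prop where
  b : ∀ s, K (s, 0) = B s
  r : ∀ t, K (1, t) = R t
  l : ∀ t, K (0, t) = L t
  t : ∀ s, K (s, 1) = T s

/-- The invariant. -/
structure JD (X : Type) [TopologicalSpace X] (x0 : X) where
  A : Type
  grp : Group A
  j : C(I, X) → A
  const : ∀ p : C(I, X), (∀ s, p s = p 0) → j p = 1
  sq : ∀ K B R L T, Sq K B R L T → j B * j R = j L * j T
  fill : ∀ B R L T : C(I, X), Joined x0 (B 0) → B 0 = L 0 → B 1 = R 0 → L 1 = T 0 → R 1 = T 1 →
    j B * j R = j L * j T → ∃ K, Sq K B R L T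
  surj : ∀ x x', Joined x0 x → Joined x0 x' → ∀ a : A, ∃ p : C(I, X), p 0 = x ∧ p 1 = x' ∧ j p = a

attribute [instance] JD.grp

/-- A continuous map on `I` as a path. -/
def toPath (p : C(I, X)) {x y : X} (h0 : p 0 = x) (h1 : p 1 = y) : Path x y where
  toContinuousMap := p
  source' := h0
  target' := h1

@[simp] theorem toPath_apply (p : C(I, X)) {x y : X} (h0 : p 0 = x) (h1 : p 1 = y) (s : I) :
    toPath p h0 h1 s = p s := rfl

noncomputable def hi (y : I) : I := ⟨min (2 * y) 1, le_min (by have := y.2.1; positivity) zero_le_one,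
  min_le_right _ _⟩

noncomputable def lo (y : I) : I := ⟨max (2 * y - 1) 0, le_max_right _ _,
  max_le (by have := y.2.2; linarith) zero_le_one⟩

theorem continuous_hi : Continuous hi := Continuous.subtype_mk (by fun_prop) _
theorem continuous_lo : Continuous lo := Continuous.subtype_mk (by fun_prop) _

/-- The square swept by segments from the bottom-right boundary path to the left-top one. -/
noncomputable def phi : C(I × I, I × I) where
  toFun q := (Icc.convexComb (hi q.2) (lo q.2) q.1, Icc.convexComb (lo q.2) (hi q.2) q.1)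
  continuous_toFun := by
    refine Continuous.prodMk ?_ ?_
    · exact Icc.continuous_convexComb_prod.comp
        ((continuous_hi.comp continuous_snd).prodMk
          ((continuous_lo.comp continuous_snd).prodMk continuous_fst))
    · exact Icc.continuous_convexComb_prod.comp
        ((continuous_lo.comp continuous_snd).prodMk
          ((continuous_hi.comp continuous_snd).prodMk continuous_fst))

theorem phi_fst (x y : I) : ((phi (x, y)).1 : ℝ) =
    (1 - x) * min (2 * (y : ℝ)) 1 + x * max (2 * (y : ℝ) - 1) 0 := rfl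

theorem phi_snd (x y : I) : ((phi (x, y)).2 : ℝ) =
    (1 - x) * max (2 * (y : ℝ) - 1) 0 + x * min (2 * (y : ℝ)) 1 := rfl

theorem min_add_max (y : ℝ) : min (2 * y) 1 + max (2 * y - 1) 0 = 2 * y := by
  rcases le_total (2 * y) 1 with h | h
  · rw [min_eq_left h, max_eq_right (by linarith)]; ring
  · rw [min_eq_right h, max_eq_left (by linarith)]; ring

theorem phi_surj : Function.Surjective phi := by
  rintro ⟨s, t⟩
  have hs0 := s.2.1; have hs1 := s.2.2; have ht0 := t.2.1; have ht1 := t.2.2
  let y : I := ⟨(s + t) / 2, by constructor <;> linarith⟩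
  have hy : (y : ℝ) = (s + t) / 2 := rfl
  rcases le_total ((s : ℝ) + t) 1 with h | h
  · have h1 : min (2 * (y : ℝ)) 1 = s + t := by rw [min_eq_left (by linarith)]; linarith
    have h2 : max (2 * (y : ℝ) - 1) 0 = 0 := by rw [max_eq_right (by linarith)]
    rcases eq_or_lt_of_le (show (0 : ℝ) ≤ s + t by linarith) with h0 | h0
    · refine ⟨(0, y), Prod.ext (Subtype.ext ?_) (Subtype.ext ?_)⟩
      · rw [phi_fst, h1, h2]; simp only [Icc.coe_zero]; linarith
      · rw [phi_snd, h1, h2]; simp only [Icc.coe_zero]; linarith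
    · refine ⟨(⟨t / (s + t), by positivity, by rw [div_le_one h0]; linarith⟩, y),
        Prod.ext (Subtype.ext ?_) (Subtype.ext ?_)⟩
      · rw [phi_fst, h1, h2]; field_simp; ring
      · rw [phi_snd, h1, h2]; field_simp; ring
  · have h1 : min (2 * (y : ℝ)) 1 = 1 := by rw [min_eq_right (by linarith)]
    have h2 : max (2 * (y : ℝ) - 1) 0 = s + t - 1 := by rw [max_eq_left (by linarith)]; linarith
    rcases eq_or_lt_of_le (show (0 : ℝ) ≤ 2 - s - t by linarith) with h0 | h0
    · refine ⟨(0, y), Prod.ext (Subtype.ext ?_) (Subtype.ext ?_)⟩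
      · rw [phi_fst, h1, h2]; simp; linarith
      · rw [phi_snd, h1, h2]; simp; linarith
    · refine ⟨(⟨(1 - s) / (2 - s - t), by apply div_nonneg <;> linarith,
        by rw [div_le_one h0]; linarith⟩, y), Prod.ext (Subtype.ext ?_) (Subtype.ext ?_)⟩
      · rw [phi_fst, h1, h2]; field_simp; ring
      · rw [phi_snd, h1, h2]; field_simp; ring

theorem phi_fibre {x y x' y' : I} (h : phi (x, y) = phi (x', y')) :
    y = y' ∧ (x = x' ∨ y = 0 ∨ y = 1) := by
  have h1 : ((phi (x, y)).1 : ℝ) = (phi (x', y')).1 := by rw [h]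
  have h2 : ((phi (x, y)).2 : ℝ) = (phi (x', y')).2 := by rw [h]
  rw [phi_fst, phi_fst] at h1
  rw [phi_snd, phi_snd] at h2
  have hy : y = y' := by
    apply Subtype.ext
    have e1 := min_add_max y
    have e2 := min_add_max y'
    linarith
  subst hy
  refine ⟨rfl, ?_⟩
  have h3 : ((x : ℝ) - x') * (min (2 * (y : ℝ)) 1 - max (2 * (y : ℝ) - 1) 0) = 0 := by linarith
  rcases mul_eq_zero.1 h3 with h4 | h4
  · left; apply Subtype.ext; linarith
  · right
    rcases le_total (2 * (y : ℝ)) 1 with h | h
    · rw [min_eq_left h, max_eq_right (by linarith)] at h4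
      left; apply Subtype.ext; simp only [Icc.coe_zero]; linarith
    · rw [min_eq_right h, max_eq_left (by linarith)] at h4
      right; apply Subtype.ext; simp only [Icc.coe_one]; linarith

theorem trans_eq {x y z : X} (p : Path x y) (q : Path y z) (F : I × I → X)
    (hp : ∀ s, F (s, 0) = p s) (hq : ∀ t, F (1, t) = q t) (u : I) :
    (p.trans q) u = F (hi u, lo u) := by
  rw [Path.trans_apply]
  split_ifs with h
  · rw [← hp]; congr 1
    refine Prod.ext (Subtype.ext ?_) (Subtype.ext ?_)
    · change 2 * (u : ℝ) = min (2 * (u : ℝ)) 1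
      rw [min_eq_left (by linarith)]
    · change (0 : ℝ) = max (2 * (u : ℝ) - 1) 0
      rw [max_eq_right (by linarith)]
  · rw [← hq]; congr 1
    push Not at h
    refine Prod.ext (Subtype.ext ?_) (Subtype.ext ?_)
    · change (1 : ℝ) = min (2 * (u : ℝ)) 1
      rw [min_eq_right (by linarith)]
    · change 2 * (u : ℝ) - 1 = max (2 * (u : ℝ) - 1) 0
      rw [max_eq_left (by linarith)]

theorem phi_zero (y : I) : phi (0, y) = (hi y, lo y) := by simp [phi]
theorem phi_one (y : I) : phi (1, y) = (lo y, hi y) := by simp [phi]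
theorem hi_zero : hi 0 = 0 := by apply Subtype.ext; simp [hi]
theorem lo_zero : lo 0 = 0 := by apply Subtype.ext; simp [lo]
theorem hi_one : hi 1 = 1 := by apply Subtype.ext; simp [hi]
theorem lo_one : lo 1 = 1 := by apply Subtype.ext; simp [lo]; norm_num
theorem phi_bot (x : I) : phi (x, 0) = (0, 0) := by simp [phi, hi_zero, lo_zero]
theorem phi_top (x : I) : phi (x, 1) = (1, 1) := by simp [phi, hi_one, lo_one]

theorem homotopic_of_sq {a b c d : X} (B : Path a b) (R : Path b d) (L : Path a c) (T : Path c d)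
    (K : C(I × I, X)) (h : Sq K B.toContinuousMap R.toContinuousMap L.toContinuousMap
      T.toContinuousMap) : (B.trans R).Homotopic (L.trans T) := by
  refine ⟨⟨⟨K.comp phi, fun y => ?_, fun y => ?_⟩, fun x y hy => ?_⟩⟩
  · change K (phi (0, y)) = (B.trans R) y
    rw [phi_zero, trans_eq B R K h.b h.r]
  · change K (phi (1, y)) = (L.trans T) y
    rw [phi_one, trans_eq L T (fun q => K (q.2, q.1)) h.l h.t]
  · change K (phi (x, y)) = (B.trans R) y
    rcases hy with rfl | rfl
    · rw [phi_bot, h.b]; simp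
    · rw [phi_top, h.r]; simp

theorem sq_of_homotopic {a b c d : X} (B : Path a b) (R : Path b d) (L : Path a c) (T : Path c d)
    (h : (B.trans R).Homotopic (L.trans T)) : ∃ K : C(I × I, X), Sq K B.toContinuousMap
      R.toContinuousMap L.toContinuousMap T.toContinuousMap := by
  obtain ⟨H⟩ := h
  have hq : Topology.IsQuotientMap phi :=
    Topology.IsQuotientMap.of_surjective_continuous phi_surj phi.continuous
  let H' : C(I × I, X) := ⟨H, H.continuous⟩
  have hf : Function.FactorsThrough H' phi := by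
    rintro ⟨x, y⟩ ⟨x', y'⟩ h
    obtain ⟨rfl, rfl | rfl | rfl⟩ := phi_fibre h
    · rfl
    · change H (x, 0) = H (x', 0); simp
    · change H (x, 1) = H (x', 1); simp
  have key : ∀ q, hq.lift H' hf (phi q) = H q := fun q =>
    congrArg (fun F : C(I × I, X) => F q) (hq.lift_comp H' hf)
  have half : ∀ s : I, ∃ u : I, hi u = s ∧ lo u = 0 ∧ (u : ℝ) = s / 2 := fun s => by
    have h0 := s.2.1; have h1 := s.2.2
    refine ⟨⟨s / 2, by constructor <;> linarith⟩, Subtype.ext ?_, Subtype.ext ?_, rfl⟩
    · change min (2 * ((s : ℝ) / 2)) 1 = s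
      rw [min_eq_left (by linarith)]; ring
    · change max (2 * ((s : ℝ) / 2) - 1) 0 = 0
      rw [max_eq_right (by linarith)]
  have half' : ∀ s : I, ∃ u : I, hi u = 1 ∧ lo u = s ∧ (u : ℝ) = (s + 1) / 2 := fun s => by
    have h0 := s.2.1; have h1 := s.2.2
    refine ⟨⟨(s + 1) / 2, by constructor <;> linarith⟩, Subtype.ext ?_, Subtype.ext ?_, rfl⟩
    · change min (2 * (((s : ℝ) + 1) / 2)) 1 = 1
      rw [min_eq_right (by linarith)]
    · change max (2 * (((s : ℝ) + 1) / 2) - 1) 0 = s
      rw [max_eq_left (by linarith)]; ring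
  have t1 : ∀ {x y z : X} (p : Path x y) (q : Path y z) (s u : I), (u : ℝ) = s / 2 →
      (p.trans q) u = p s := fun p q s u hu => by
    have h1 := s.2.2
    rw [Path.trans_apply, dif_pos (by linarith)]
    congr 1; apply Subtype.ext; change 2 * (u : ℝ) = s; linarith
  have t2 : ∀ {x y z : X} (p : Path x y) (q : Path y z) (s u : I), (u : ℝ) = (s + 1) / 2 →
      (p.trans q) u = q s := fun p q s u hu => by
    have h0 := s.2.1
    rw [Path.trans_apply]
    split_ifs with h
    · have hs : s = 0 := by apply Subtype.ext; simp only [Icc.coe_zero]; linarith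
      subst hs
      have : (⟨2 * (u : ℝ), (unitInterval.mul_pos_mem_iff zero_lt_two).2 ⟨u.2.1, h⟩⟩ : I) = 1 := by
        apply Subtype.ext; simp at hu ⊢; linarith
      rw [this]; simp
    · congr 1; apply Subtype.ext; change 2 * (u : ℝ) - 1 = s; linarith
  refine ⟨hq.lift H' hf, fun s => ?_, fun s => ?_, fun s => ?_, fun s => ?_⟩
  · obtain ⟨u, h1, h2, h3⟩ := half s
    have := key (0, u)
    rw [phi_zero, h1, h2] at this
    rw [this, H.apply_zero]; exact t1 B R s u h3
  · obtain ⟨u, h1, h2, h3⟩ := half' s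
    have := key (0, u)
    rw [phi_zero, h1, h2] at this
    rw [this, H.apply_zero]; exact t2 B R s u h3
  · obtain ⟨u, h1, h2, h3⟩ := half s
    have := key (1, u)
    rw [phi_one, h1, h2] at this
    rw [this, H.apply_one]; exact t1 L T s u h3
  · obtain ⟨u, h1, h2, h3⟩ := half' s
    have := key (1, u)
    rw [phi_one, h1, h2] at this
    rw [this, H.apply_one]; exact t2 L T s u h3

/-- A chosen arrow from the base point. -/
noncomputable def kap {x0 x : X} (h : Joined x0 x) :
    FundamentalGroupoid.mk x0 ⟶ FundamentalGroupoid.mk x :=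
  FundamentalGroupoid.fromPath (Path.Homotopic.Quotient.mk h.somePath)

/-- The arrow of a path. -/
noncomputable def arr {x y : X} (p : Path x y) :
    FundamentalGroupoid.mk x ⟶ FundamentalGroupoid.mk y :=
  FundamentalGroupoid.fromPath (Path.Homotopic.Quotient.mk p)

theorem arr_trans {x y z : X} (p : Path x y) (q : Path y z) : arr (p.trans q) = arr p ≫ arr q :=
  rfl

open Classical in
noncomputable def jj (x0 : X) (p : C(I, X)) :
    FundamentalGroupoid.mk x0 ⟶ FundamentalGroupoid.mk x0 :=
  if h : Joined x0 (p 0) then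
    kap h ≫ arr (toPath p rfl rfl) ≫ Groupoid.inv (kap (h.trans ⟨toPath p rfl rfl⟩)) else 𝟙 _

theorem jj_path {x0 x y : X} (p : Path x y) (hx : Joined x0 x) (hy : Joined x0 y) :
    jj x0 p.toContinuousMap = kap hx ≫ arr p ≫ Groupoid.inv (kap hy) := by
  obtain ⟨p, h0, h1⟩ := p
  change p 0 = x at h0
  change p 1 = y at h1
  subst h0 h1
  unfold jj
  rw [dif_pos hx]
  rfl

theorem jj_not {x0 : X} (p : C(I, X)) (h : ¬ Joined x0 (p 0)) : jj x0 p = 𝟙 _ := by
  unfold jj; rw [dif_neg h]

theorem exists_JD (x0 : X) : Nonempty (JD X x0) := by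
  refine ⟨⟨(FundamentalGroupoid.mk x0 ⟶ FundamentalGroupoid.mk x0), Groupoid.vertexGroup _,
    jj x0, fun p hp => ?_, fun K B R L T h => ?_, fun B R L T hj h00 h10 h01 h11 h => ?_,
    fun x x' hx hx' a => ?_⟩⟩
  · by_cases h : Joined x0 (p 0)
    · have e : p = (Path.refl (p 0)).toContinuousMap := by ext s; exact hp s
      rw [e, jj_path _ h h]
      have : arr (Path.refl (p 0)) = 𝟙 _ := rfl
      rw [this]; simp
    · rw [jj_not p h]; rfl
  · have h00 : L 0 = B 0 := by rw [← h.b, ← h.l]
    have h10 : R 0 = B 1 := by rw [← h.b, ← h.r]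
    have h01 : T 0 = L 1 := by rw [← h.t, ← h.l]
    have h11 : T 1 = R 1 := by rw [← h.t, ← h.r]
    let B' := toPath B rfl rfl
    let R' := toPath R h10 rfl
    let L' := toPath L h00 rfl
    let T' := toPath T h01 h11
    have hh := homotopic_of_sq B' R' L' T' K h
    by_cases hj : Joined x0 (B 0)
    · have e1 := jj_path B' hj (hj.trans ⟨B'⟩)
      have e2 := jj_path R' (hj.trans ⟨B'⟩) ((hj.trans ⟨B'⟩).trans ⟨R'⟩)
      have e3 := jj_path L' hj (hj.trans ⟨L'⟩)
      have e4 := jj_path T' (hj.trans ⟨L'⟩) ((hj.trans ⟨B'⟩).trans ⟨R'⟩)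
      have e5 : arr B' ≫ arr R' = arr L' ≫ arr T' := by
        rw [← arr_trans, ← arr_trans]; exact Quotient.sound hh
      change jj x0 B'.toContinuousMap ≫ jj x0 R'.toContinuousMap =
        jj x0 L'.toContinuousMap ≫ jj x0 T'.toContinuousMap
      rw [e1, e2, e3, e4]
      simp only [Groupoid.inv_eq_inv, Category.assoc, IsIso.inv_hom_id_assoc]
      rw [← Category.assoc (arr B'), e5, Category.assoc]
    · have hR : ¬ Joined x0 (R 0) := fun h' => hj ((h10 ▸ h').trans ⟨B'.symm⟩)
      have hL : ¬ Joined x0 (L 0) := fun h' => hj (h00 ▸ h')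
      have hT : ¬ Joined x0 (T 0) := fun h' => hj ((h01 ▸ h').trans ⟨L'.symm⟩)
      rw [jj_not B hj, jj_not R hR, jj_not L hL, jj_not T hT]
  · let B' := toPath B rfl rfl
    let R' := toPath R h10.symm rfl
    let L' := toPath L h00.symm rfl
    let T' := toPath T h01.symm h11.symm
    have e1 := jj_path B' hj (hj.trans ⟨B'⟩)
    have e2 := jj_path R' (hj.trans ⟨B'⟩) ((hj.trans ⟨B'⟩).trans ⟨R'⟩)
    have e3 := jj_path L' hj (hj.trans ⟨L'⟩)
    have e4 := jj_path T' (hj.trans ⟨L'⟩) ((hj.trans ⟨B'⟩).trans ⟨R'⟩)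
    change jj x0 B'.toContinuousMap ≫ jj x0 R'.toContinuousMap =
        jj x0 L'.toContinuousMap ≫ jj x0 T'.toContinuousMap at h
    rw [e1, e2, e3, e4] at h
    simp only [Groupoid.inv_eq_inv, Category.assoc, IsIso.inv_hom_id_assoc] at h
    rw [cancel_epi, ← Category.assoc, ← Category.assoc, cancel_mono, ← arr_trans,
      ← arr_trans] at h
    exact sq_of_homotopic B' R' L' T' (Quotient.exact h)
  · obtain ⟨p, hp⟩ := Path.Homotopic.Quotient.mk_surjective
      (show Path.Homotopic.Quotient x x' from Groupoid.inv (kap hx) ≫ a ≫ kap hx')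
    refine ⟨p.toContinuousMap, p.source, p.target, ?_⟩
    rw [jj_path p hx hx']
    have : arr p = Groupoid.inv (kap hx) ≫ a ≫ kap hx' := hp
    rw [this]; simp

end Crest.Agent.KP.Top2
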