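import Crest.Agent.KP.Top2J

/-!
# KP / TOP2, part 2: the relative invariant and operations on families of paths
-/

set_option autoImplicit false

namespace Crest.Agent.KP.Top2

open scoped unitInterval
open Set

variable {X : Type} [TopologicalSpace X]

/-- A continuous family with values in `S`. -/
def Pa {W : Type} [TopologicalSpace W] (S : Set X) (f : W → X) : Prop :=
  Continuous f ∧ ∀ w, f w ∈ S

theorem Pa.comp {W W' : Type} [TopologicalSpace W] [TopologicalSpace W'] {S : Set X} {f : W → X}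
    (h : Pa S f) {g : W' → W} (hg : Continuous g) : Pa S fun w => f (g w) :=
  ⟨h.1.comp hg, fun _ => h.2 _⟩

theorem Pa.joined {S : Set X} {f : I → X} (h : Pa S f) : JoinedIn S (f 0) (f 1) :=
  ⟨⟨⟨f, h.1⟩, rfl, rfl⟩, h.2⟩

/-- Boundary values of a square. -/
structure Bd {X : Type} (K : I × I → X) (B R L T : I → X) : Prop where
  b : ∀ s, K (s, 0) = B s
  r : ∀ t, K (1, t) = R t
  l : ∀ t, K (0, t) = L t
  t : ∀ s, K (s, 1) = T s

/-- The invariant for paths inside a subset. -/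
structure JS (S : Set X) (x0 : X) where
  A : Type
  grp : Group A
  j : (I → X) → A
  const : ∀ p : I → X, (∀ s, p s = p 0) → j p = 1
  sq : ∀ K B R L T, Pa S K → Bd K B R L T → j B * j R = j L * j T
  fill : ∀ B R L T : I → X, Pa S B → Pa S R → Pa S L → Pa S T → JoinedIn S x0 (B 0) →
    B 0 = L 0 → B 1 = R 0 → L 1 = T 0 → R 1 = T 1 →
    j B * j R = j L * j T → ∃ K, Pa S K ∧ Bd K B R L T
  surj : ∀ x x', JoinedIn S x0 x → JoinedIn S x0 x' → ∀ a : A,
    ∃ p : I → X, Pa S p ∧ p 0 = x ∧ p 1 = x' ∧ j p = a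

attribute [instance] JS.grp

/-- The map into the subtype. -/
def Pa.sub {W : Type} [TopologicalSpace W] {S : Set X} {f : W → X} (h : Pa S f) : C(W, S) :=
  ⟨fun w => ⟨f w, h.2 w⟩, h.1.subtype_mk _⟩

theorem exists_JS (S : Set X) (x0 : X) (h0 : x0 ∈ S) : Nonempty (JS S x0) := by
  classical
  obtain ⟨J⟩ := exists_JD (⟨x0, h0⟩ : S)
  have hj : ∀ {p : I → X} (h : Pa S p), (if h : Pa S p then J.j h.sub else 1) = J.j h.sub :=
    fun h => dif_pos h
  refine ⟨⟨J.A, J.grp, fun p => if h : Pa S p then J.j h.sub else 1, fun p hp => ?_,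
    fun K B R L T hK h => ?_, fun B R L T hB hR hL hT hx h00 h10 h01 h11 h => ?_,
    fun x x' hx hx' a => ?_⟩⟩
  · by_cases h : Pa S p
    · rw [hj h]; exact J.const _ fun s => Subtype.ext (hp s)
    · exact dif_neg h
  · have hB : Pa S B := by
      rw [← funext h.b]; exact hK.comp (by fun_prop)
    have hR : Pa S R := by
      rw [← funext h.r]; exact hK.comp (by fun_prop)
    have hL : Pa S L := by
      rw [← funext h.l]; exact hK.comp (by fun_prop)
    have hT : Pa S T := by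
      rw [← funext h.t]; exact hK.comp (by fun_prop)
    rw [hj hB, hj hR, hj hL, hj hT]
    exact J.sq hK.sub _ _ _ _ ⟨fun s => Subtype.ext (h.b s), fun s => Subtype.ext (h.r s),
      fun s => Subtype.ext (h.l s), fun s => Subtype.ext (h.t s)⟩
  · rw [hj hB, hj hR, hj hL, hj hT] at h
    obtain ⟨K, hK⟩ := J.fill _ _ _ _ hx.joined_subtype (Subtype.ext h00) (Subtype.ext h10)
      (Subtype.ext h01) (Subtype.ext h11) h
    exact ⟨fun q => (K q).1, ⟨by fun_prop, fun q => (K q).2⟩,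
      fun s => congrArg Subtype.val (hK.b s), fun s => congrArg Subtype.val (hK.r s),
      fun s => congrArg Subtype.val (hK.l s), fun s => congrArg Subtype.val (hK.t s)⟩
  · obtain ⟨p, h1, h2, h3⟩ := J.surj _ _ hx.joined_subtype hx'.joined_subtype a
    have hp : Pa S fun t => (p t).1 := ⟨by fun_prop, fun t => (p t).2⟩
    refine ⟨fun t => (p t).1, hp, congrArg Subtype.val h1, congrArg Subtype.val h2, ?_⟩
    rw [hj hp, ← h3]; rfl

/-- Conjugating a loop along a path. -/
theorem exists_conj {S : Set X} {w b' : I → X} (hw : Pa S w) (hb' : Pa S b') (h0 : b' 0 = w 1)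
    (h1 : b' 1 = w 1) : ∃ (b : I → X) (K : I × I → X), b 0 = w 0 ∧ b 1 = w 0 ∧ Pa S K ∧
      Bd K b w w b' := by
  obtain ⟨J⟩ := exists_JS S (w 0) (hw.2 0)
  have hr : JoinedIn S (w 0) (w 0) := JoinedIn.refl (hw.2 0)
  obtain ⟨b, hb, e0, e1, e⟩ := J.surj _ _ hr hr (J.j w * J.j b' * (J.j w)⁻¹)
  obtain ⟨K, hK, hK'⟩ := J.fill b w w b' hb hw hw hb' (e0 ▸ hr) e0 e1 h0.symm h1.symm
    (by rw [e]; group)
  exact ⟨b, K, e0, e1, hK, hK'⟩

/-- A boundary homotopic to a fillable one is fillable. -/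
theorem fill_of_homotopy {S : Set X} (D : X → I → X) (hD0 : ∀ x ∈ S, D x 0 = x)
    (hD : ∀ f : I → X, Pa S f → Pa S fun q : I × I => D (f q.1) q.2)
    {B R L T : I → X} (hB : Pa S B) (hR : Pa S R) (hL : Pa S L) (hT : Pa S T)
    (h00 : B 0 = L 0) (h10 : B 1 = R 0) (h01 : L 1 = T 0) (h11 : R 1 = T 1)
    {M : I × I → X} (hM : Pa S M) (hM' : Bd M (fun s => D (B s) 1) (fun s => D (R s) 1)
      (fun s => D (L s) 1) (fun s => D (T s) 1)) : ∃ K, Pa S K ∧ Bd K B R L T := by
  obtain ⟨J⟩ := exists_JS S (B 0) (hB.2 0)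
  have key : ∀ f : I → X, Pa S f →
      J.j f = J.j (D (f 0)) * J.j (fun s => D (f s) 1) * (J.j (D (f 1)))⁻¹ := fun f hf => by
    have := J.sq _ f (D (f 1)) (D (f 0)) (fun s => D (f s) 1) (hD f hf)
      ⟨fun s => hD0 _ (hf.2 s), fun _ => rfl, fun _ => rfl, fun _ => rfl⟩
    rw [← this]; group
  have hm := J.sq _ _ _ _ _ hM hM'
  refine J.fill B R L T hB hR hL hT (JoinedIn.refl (hB.2 0)) h00 h10 h01 h11 ?_
  rw [key B hB, key R hR, key L hL, key T hT, ← h00, ← h10, ← h01, ← h11]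
  calc _ = J.j (D (B 0)) * (J.j (fun s => D (B s) 1) * J.j (fun s => D (R s) 1)) *
        (J.j (D (R 1)))⁻¹ := by group
    _ = _ := by rw [hm]; group

/-! ### Long paths -/

noncomputable def ex (γ : C(I, X)) (x : ℝ) : X := γ (projIcc 0 1 zero_le_one x)

theorem ex_coe (γ : C(I, X)) {x : ℝ} {u : I} (h : x = u) : ex γ x = γ u := by
  rw [h, ex, projIcc_val]

theorem continuous_ex {W : Type} [TopologicalSpace W] {γ : W → C(I, X)} {φ : W → ℝ}
    (hγ : Continuous γ) (hφ : Continuous φ) : Continuous fun w => ex (γ w) (φ w) :=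
  hγ.eval (continuous_projIcc.comp hφ)

/-- `γ` on `[-1, 0]` followed by `δ` on `[0, 1]`. -/
noncomputable def lam (γ δ : C(I, X)) (x : ℝ) : X := if x ≤ 0 then ex γ (x + 1) else ex δ x

theorem continuous_lam {W : Type} [TopologicalSpace W] {γ δ : W → C(I, X)} {φ : W → ℝ}
    (hγ : Continuous γ) (hδ : Continuous δ) (hφ : Continuous φ) (h : ∀ w, γ w 1 = δ w 0) :
    Continuous fun w => lam (γ w) (δ w) (φ w) := by
  refine Continuous.if_le (continuous_ex hγ (by fun_prop)) (continuous_ex hδ hφ) hφ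
    continuous_const fun w hw => ?_
  rw [hw, ex_coe (u := 1) _ (by simp), ex_coe (u := 0) _ (by simp), h]

theorem lam_left (γ δ : C(I, X)) {x : ℝ} (u : I) (h : x = u - 1) : lam γ δ x = γ u := by
  have := u.2.2
  rw [lam, if_pos (by linarith), ex_coe _ (by linarith)]

theorem lam_right {γ δ : C(I, X)} (hγ : γ 1 = δ 0) {x : ℝ} (u : I) (h : x = u) :
    lam γ δ x = δ u := by
  rw [lam]
  split_ifs with h'
  · have hu : u = 0 := Subtype.ext (le_antisymm (h ▸ h') u.2.1)
    subst hu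
    rw [ex_coe (u := 1) _ (by simp [h]), hγ]
  · exact ex_coe _ h

theorem lam_mem {S : Set X} {γ δ : C(I, X)} (hγ : ∀ u, γ u ∈ S) (hδ : ∀ u, δ u ∈ S) (x : ℝ) :
    lam γ δ x ∈ S := by
  unfold lam ex; split_ifs
  exacts [hγ _, hδ _]

/-- A reparametrisation of the long path. -/
noncomputable def rp (γ δ : C(I, X)) (φ : I → ℝ) : C(I, X) :=
  ContinuousMap.mkD (fun u => lam γ δ (φ u)) γ

theorem rp_apply {γ δ : C(I, X)} (h : γ 1 = δ 0) {φ : I → ℝ} (hφ : Continuous φ) (u : I) :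
    rp γ δ φ u = lam γ δ (φ u) :=
  ContinuousMap.mkD_apply_of_continuous
    (continuous_lam continuous_const continuous_const hφ fun _ => h)

theorem continuous_rp {W : Type} [TopologicalSpace W] {γ δ : W → C(I, X)} {φ : W → I → ℝ}
    (hγ : Continuous γ) (hδ : Continuous δ) (hφ : Continuous fun p : W × I => φ p.1 p.2)
    (h : ∀ w, γ w 1 = δ w 0) : Continuous fun w => rp (γ w) (δ w) (φ w) := by
  apply ContinuousMap.continuous_of_continuous_uncurry
  have := continuous_lam (W := W × I) (hγ.comp continuous_fst) (hδ.comp continuous_fst) hφ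
    fun p => h p.1
  refine this.congr fun p => ?_
  exact (rp_apply (h p.1) (hφ.comp (Continuous.prodMk_right p.1)) p.2).symm

/-- Concatenation. -/
noncomputable def cat (γ δ : C(I, X)) : C(I, X) := rp γ δ fun u => 2 * u - 1

/-- Reversal. -/
def rev (γ : C(I, X)) : C(I, X) := γ.comp ⟨σ, unitInterval.continuous_symm⟩

@[simp] theorem rev_apply (γ : C(I, X)) (u : I) : rev γ u = γ (σ u) := rfl

@[simp] theorem rev_rev (γ : C(I, X)) : rev (rev γ) = γ := by ext u; simp

theorem continuous_rev {W : Type} [TopologicalSpace W] {γ : W → C(I, X)} (hγ : Continuous γ) :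
    Continuous fun w => rev (γ w) :=
  (ContinuousMap.continuous_precomp _).comp hγ

theorem cat_apply {γ δ : C(I, X)} (h : γ 1 = δ 0) (u : I) : cat γ δ u = lam γ δ (2 * u - 1) :=
  rp_apply h (by fun_prop) u

theorem cat_zero {γ δ : C(I, X)} (h : γ 1 = δ 0) : cat γ δ 0 = γ 0 := by
  rw [cat_apply h, lam_left _ _ 0 (by simp)]

theorem cat_one {γ δ : C(I, X)} (h : γ 1 = δ 0) : cat γ δ 1 = δ 1 := by
  rw [cat_apply h, lam_right h 1 (by simp; norm_num)]

theorem continuous_cat {W : Type} [TopologicalSpace W] {γ δ : W → C(I, X)}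
    (hγ : Continuous γ) (hδ : Continuous δ) (h : ∀ w, γ w 1 = δ w 0) :
    Continuous fun w => cat (γ w) (δ w) :=
  continuous_rp hγ hδ (by fun_prop) h

/-- The homotopy from `γ` to `(γ δ) δ⁻¹`. -/
noncomputable def dd (γ δ : C(I, X)) (a : I) : C(I, X) :=
  rp γ δ fun u => (1 - a) * (u - 1) + a * min (4 * (u : ℝ) - 1) (2 - 2 * u)

theorem dd_apply {γ δ : C(I, X)} (h : γ 1 = δ 0) (a u : I) :
    dd γ δ a u = lam γ δ ((1 - a) * (u - 1) + a * min (4 * (u : ℝ) - 1) (2 - 2 * u)) :=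
  rp_apply h (by fun_prop) u

theorem continuous_dd {W : Type} [TopologicalSpace W] {γ δ : W → C(I, X)} {a : W → I}
    (hγ : Continuous γ) (hδ : Continuous δ) (ha : Continuous a) (h : ∀ w, γ w 1 = δ w 0) :
    Continuous fun w => dd (γ w) (δ w) (a w) :=
  continuous_rp hγ hδ (by fun_prop) h

theorem dd_src {γ δ : C(I, X)} (h : γ 1 = δ 0) (a : I) : dd γ δ a 0 = γ 0 := by
  rw [dd_apply h, lam_left _ _ 0]
  simp only [Icc.coe_zero]
  rw [min_eq_left (by norm_num)]; ring

theorem dd_tgt {γ δ : C(I, X)} (h : γ 1 = δ 0) (a : I) : dd γ δ a 1 = γ 1 := by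
  rw [dd_apply h, lam_left _ _ 1]
  simp only [Icc.coe_one]
  rw [min_eq_right (by norm_num)]; ring

theorem dd_zero {γ δ : C(I, X)} (h : γ 1 = δ 0) : dd γ δ 0 = γ := by
  ext u
  rw [dd_apply h, lam_left _ _ u (by simp)]

theorem dd_one {γ δ : C(I, X)} (h : γ 1 = δ 0) : dd γ δ 1 = cat (cat γ δ) (rev δ) := by
  ext u
  have h' : cat γ δ 1 = rev δ 0 := by rw [cat_one h]; simp
  have h0 := u.2.1
  have h1 := u.2.2
  rw [dd_apply h, cat_apply h']
  simp only [Icc.coe_one, sub_self, zero_mul, one_mul, zero_add]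
  rcases le_total (2 * (u : ℝ)) 1 with hu | hu
  · rw [lam_left _ (rev δ) ⟨2 * u, by linarith, hu⟩ rfl, cat_apply h, min_eq_left (by linarith)]
    congr 1; ring
  · rw [lam_right h' ⟨2 * u - 1, by linarith, by linarith⟩ rfl, min_eq_right (by linarith),
      rev_apply, lam_right h]
    simp only [unitInterval.coe_symm_eq]; ring

end Crest.Agent.KP.Top2
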