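import Crest.Agent.KP.Stmts

set_option autoImplicit false

namespace Crest.Agent.KP.VK

open Finset Sum

variable {X R : Type} (P : TriPres X R)

abbrev Tr := ℕ × P.G × R × Bool
abbrev Ou := ℕ × P.G × X × Bool
abbrev Sd := (Tr P × Fin 3) ⊕ Ou P

def ed : Sd P → P.G × X × Bool
  | inl (t, i) => P.triEdge t.2.1 t.2.2.1 t.2.2.2 i
  | inr o => P.revE o.2

variable {P}

def al (A : Finset (Tr P)) (L : List (Ou P)) : Sd P → Prop
  | inl (t, _) => t ∈ A
  | inr o => o ∈ L

def Lk (A : Finset (Tr P)) (L : List (Ou P)) (z u : Sd P → ZMod 2) : Prop :=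
  (∀ t ∈ A, ∀ i, u (inl (t, i + 1)) = u (inl (t, i)) + z (inl (t, i))) ∧
    L.IsChain fun o' o => u (inr o') = u (inr o) + z (inr o)

def Fc (A : Finset (Tr P)) (z : Sd P → ZMod 2) : Prop :=
  ∀ t ∈ A, z (inl (t, 0)) + z (inl (t, 1)) + z (inl (t, 2)) = 0

structure Dg (A : Finset (Tr P)) (L : List (Ou P)) (α : Sd P → Sd P) : Prop where
  hal : ∀ s, al A L s → al A L (α s)
  inv : ∀ s, al A L s → α (α s) = s
  glue : ∀ s, al A L s → ed P (α s) = P.revE (ed P s)
  pl : ∀ z, (∀ s, al A L s → z (α s) = z s) → Fc A z →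
    ∃ u, Lk A L z u ∧ ∀ s, al A L s → u (α s) = u s + z s

lemma lt_not (x : X) (e : Bool) : P.lt (x, e) * P.lt (x, !e) = 1 := by
  cases e <;> simp [TriPres.lt]

lemma revE_revE (e : P.G × X × Bool) : P.revE (P.revE e) = e := by
  obtain ⟨g, x, b⟩ := e
  simp [TriPres.revE, mul_assoc, lt_not]

lemma revE_ne (e : P.G × X × Bool) : P.revE e ≠ e := by
  obtain ⟨g, x, b⟩ := e
  simp [TriPres.revE]

lemma gen_rel (r : R) : P.gen (P.a r) * P.gen (P.b r) = P.gen (P.c r) := by
  have h : PresentedGroup.mk (Set.range P.rel) (P.rel r) = 1 :=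
    PresentedGroup.one_of_mem ⟨r, rfl⟩
  simp only [TriPres.rel, map_mul, map_inv] at h
  exact mul_inv_eq_one.1 h

lemma tri_rev (g : P.G) (r : R) (b : Bool) (i : Fin 3) :
    P.triEdge g r (!b) i.rev = P.revE (P.triEdge g r b i) := by
  have := gen_rel (P := P) r
  cases b <;> fin_cases i <;>
    simp [TriPres.triEdge, TriPres.revE, TriPres.lt, Fin.rev, ← this, mul_assoc]

lemma tri_inj {g g' : P.G} {r : R} {b : Bool} {i : Fin 3}
    (h : P.triEdge g r b i = P.triEdge g' r b i) : g = g' := by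
  cases b <;> fin_cases i <;> simpa [TriPres.triEdge] using h

lemma Lk.add {A : Finset (Tr P)} {L : List (Ou P)} {z u n c : Sd P → ZMod 2} (h : Lk A L z u)
    (h' : Lk A L n c) : Lk A L (z + n) (u + c) := by
  refine ⟨fun t ht i => ?_, ?_⟩
  · simp only [Pi.add_apply, h.1 t ht i, h'.1 t ht i]; ring
  · have h1 := List.isChain_iff_forall_rel_of_append_cons_cons.1 h.2
    have h2 := List.isChain_iff_forall_rel_of_append_cons_cons.1 h'.2
    refine List.isChain_iff_forall_rel_of_append_cons_cons.2 fun a b l₁ l₂ e => ?_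
    simp only [Pi.add_apply, h1 e, h2 e]; ring

lemma Lk.fc {A : Finset (Tr P)} {L : List (Ou P)} {z u : Sd P → ZMod 2} (h : Lk A L z u) :
    Fc A z := by
  intro t ht
  have h0 := h.1 t ht 0
  have h1 := h.1 t ht 1
  have h2 := h.1 t ht 2
  simp only [zero_add, Fin.reduceAdd] at h0 h1 h2
  linear_combination -h0 - h1 - h2

lemma z2 (a : ZMod 2) : a + a = 0 := by revert a; decide

lemma repair {A : Finset (Tr P)} {L : List (Ou P)} {α : Sd P → Sd P} (D : Dg A L α) {x y : Sd P}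
    (hx : al A L x) (hy : al A L y) (hxy : ed P y = P.revE (ed P x))
    (hv : ∀ z u, Lk A L z u → (∀ s, al A L s → u (α s) = u s + z s) → u y + z y = u x)
    (n c : Sd P → ZMod 2) (hnc : Lk A L n c) (nx : n x = 1) (ny : n y = 1) (cx : c x = 1)
    (cy : c y = 0) (h1 : α x ≠ y → n (α x) = 0 ∧ n (α y) = 0 ∧ c (α x) = 0 ∧ c (α y) = 0)
    (h2 : ∀ s, al A L s → s ≠ x → s ≠ y → s ≠ α x → s ≠ α y →
      n (α s) = n s ∧ c (α s) = c s + n s) :
    ∃ α', Dg A L α' ∧ α' x = y ∧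
      ∀ s, al A L s → s ≠ x → s ≠ y → s ≠ α x → s ≠ α y → α' s = α s := by
  classical
  by_cases hαx : α x = y
  · exact ⟨α, D, hαx, fun _ _ _ _ _ _ => rfl⟩
  obtain ⟨n1, n2, c1, c2⟩ := h1 hαx
  have fx : ∀ s, al A L s → α s ≠ s := fun s hs e => revE_ne _ ((D.glue s hs).symm.trans (by rw [e]))
  have e1 : y ≠ x := by rintro rfl; exact revE_ne _ hxy.symm
  have e2 : α x ≠ x := fx x hx
  have e3 : α y ≠ y := fx y hy
  have e4 : α y ≠ x := fun e => hαx (by rw [← e, D.inv y hy])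
  have e5 : α y ≠ α x := fun e => e1 (by rw [← D.inv y hy, e, D.inv x hx])
  let β : Sd P → Sd P := fun s =>
    if s = x then y else if s = y then x else if s = α x then α y else if s = α y then α x else α s
  have b1 : β x = y := by simp [β]
  have b2 : β y = x := by simp [β, e1]
  have b3 : β (α x) = α y := by simp [β, e2, hαx]
  have b4 : β (α y) = α x := by simp [β, e3, e4, e5]
  have b5 : ∀ s, s ≠ x → s ≠ y → s ≠ α x → s ≠ α y → β s = α s := by
    intro s a1 a2 a3 a4; simp [β, a1, a2, a3, a4]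
  have cs : ∀ Q : Sd P → Prop, Q x → Q y → Q (α x) → Q (α y) →
      (∀ s, al A L s → s ≠ x → s ≠ y → s ≠ α x → s ≠ α y → Q s) → ∀ s, al A L s → Q s := by
    intro Q q1 q2 q3 q4 q5 s hs
    by_cases a1 : s = x; · rwa [a1]
    by_cases a2 : s = y; · rwa [a2]
    by_cases a3 : s = α x; · rwa [a3]
    by_cases a4 : s = α y; · rwa [a4]
    exact q5 s hs a1 a2 a3 a4
  have key : ∀ z, (∀ s, al A L s → z (β s) = z s) → Fc A z → z x = z (α x) →
      ∃ u, Lk A L z u ∧ ∀ s, al A L s → u (β s) = u s + z s := by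
    intro z hz hF hzx
    have z1 := hz x hx
    have z3 := hz _ (D.hal x hx)
    rw [b1] at z1; rw [b3] at z3
    obtain ⟨u, hu, hu'⟩ := D.pl z (cs _ hzx.symm (by rw [z3, z1, hzx])
      (by rw [D.inv x hx, hzx]) (by rw [D.inv y hy, z3, z1, hzx])
      fun s hs a1 a2 a3 a4 => by rw [← b5 s a1 a2 a3 a4]; exact hz s hs) hF
    have v1 := hv z u hu hu'
    have v2 := hu' x hx
    have v3 := hu' y hy
    have w := z2 (z x)
    refine ⟨u, hu, cs _ ?_ ?_ ?_ ?_ fun s hs a1 a2 a3 a4 => by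
      rw [b5 s a1 a2 a3 a4]; exact hu' s hs⟩
    · rw [b1]; linear_combination v1 - z1 - w
    · rw [b2]; exact v1.symm
    · rw [b3]; linear_combination v3 + v1 - v2 + hzx - w
    · rw [b4]; linear_combination v2 - v3 - v1 - z3 + hzx
  refine ⟨β, ⟨cs _ (b1 ▸ hy) (b2 ▸ hx) (b3 ▸ D.hal y hy) (b4 ▸ D.hal x hx) fun s hs a1 a2 a3 a4 =>
      by rw [b5 s a1 a2 a3 a4]; exact D.hal s hs,
    cs _ (by rw [b1, b2]) (by rw [b2, b1]) (by rw [b3, b4]) (by rw [b4, b3]) ?_,
    cs _ (by rw [b1, hxy]) (by rw [b2, hxy, revE_revE]) ?_ ?_ fun s hs a1 a2 a3 a4 =>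
      by rw [b5 s a1 a2 a3 a4]; exact D.glue s hs, fun z hz hF => ?_⟩, b1,
    fun s _ => b5 s⟩
  · intro s hs a1 a2 a3 a4
    have i := D.inv s hs
    rw [b5 s a1 a2 a3 a4, b5 (α s) (fun e => a3 (by rw [← e, i])) (fun e => a4 (by rw [← e, i]))
      (fun e => a1 (by rw [← i, e, D.inv x hx])) (fun e => a2 (by rw [← i, e, D.inv y hy])), i]
  · rw [b3, D.glue y hy, D.glue x hx, hxy]
  · rw [b4, D.glue y hy, D.glue x hx, hxy, revE_revE]
  · by_cases hzx : z x = z (α x)
    · exact key z hz hF hzx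
    have hzx' : z x + 1 = z (α x) := by
      revert hzx; generalize z x = a; generalize z (α x) = b; revert a b; decide
    have hn : ∀ s, al A L s → n (β s) = n s ∧ c (β s) = c s + n s :=
      cs _ (by rw [b1, nx, ny, cx, cy]; decide) (by rw [b2, nx, ny, cx, cy]; decide)
        (by rw [b3, n1, n2, c1, c2]; decide) (by rw [b4, n1, n2, c1, c2]; decide)
        fun s hs a1 a2 a3 a4 => by rw [b5 s a1 a2 a3 a4]; exact h2 s hs a1 a2 a3 a4
    obtain ⟨u, hu, hu'⟩ := key (z + n) (fun s hs => by simp only [Pi.add_apply, hz s hs, (hn s hs).1])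
      (fun t ht => by
        simp only [Pi.add_apply]; linear_combination hF t ht + hnc.fc t ht)
      (by simp only [Pi.add_apply, nx, n1, add_zero, hzx'])
    have := hu.add hnc
    rw [show z + n + n = z by funext s; simp only [Pi.add_apply, add_assoc, z2, add_zero]] at this
    refine ⟨u + c, this, fun s hs => ?_⟩
    simp only [Pi.add_apply, hu' s hs, (hn s hs).2]
    linear_combination z2 (n s)

end Crest.Agent.KP.VK
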