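import Crest.Agent.KP.VKa

set_option autoImplicit false

namespace Crest.Agent.KP.VK

open Finset Sum

variable {X R : Type} {P : TriPres X R}

def Pth : P.G → List (Ou P) → Prop
  | _, [] => True
  | g, o :: L => o.2.1 = g ∧ Pth (g * P.lt o.2.2) L

def wd (L : List (Ou P)) : List (X × Bool) := L.map fun o => o.2.2

lemma ev_cons (y : X × Bool) (l : List (X × Bool)) : P.ev (y :: l) = P.lt y * P.ev l := by
  simp [TriPres.ev]

lemma pth_append (g : P.G) (L₁ L₂ : List (Ou P)) :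
    Pth g (L₁ ++ L₂) ↔ Pth g L₁ ∧ Pth (g * P.ev (wd L₁)) L₂ := by
  induction L₁ generalizing g with
  | nil => simp [Pth, wd, TriPres.ev]
  | cons o L ih => simp only [List.cons_append, Pth, ih, wd, List.map_cons, ev_cons, mul_assoc,
      and_assoc]

noncomputable def ch (A : Finset (Tr P)) : P.G × R →₀ ℤ :=
  ∑ t ∈ A, Finsupp.single (t.2.1, t.2.2.1) (cond t.2.2.2 1 (-1))

def Full (l : List (X × Bool)) (m : P.G × R →₀ ℤ) (A : Finset (Tr P)) : Prop :=
  ∃ L α, Dg A L α ∧ L.Nodup ∧ wd L = l ∧ Pth 1 L ∧ ch A = m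

lemma fresh {β : Type} (L : List (ℕ × β)) : ∃ N, ∀ o ∈ L, o.1 < N := by
  induction L with
  | nil => exact ⟨0, by simp⟩
  | cons a L ih =>
    obtain ⟨N, h⟩ := ih
    refine ⟨max N (a.1 + 1), fun o ho => ?_⟩
    rcases List.mem_cons.1 ho with rfl | ho
    · omega
    · have := h o ho; omega

lemma junction {β : Type} {L₁ L₂ : List β} {u v : β → ZMod 2}
    (h : (L₁ ++ L₂).IsChain fun o' o => u o' = v o) :
    ∃ w, (∀ o' ∈ L₁.getLast?, u o' = w) ∧ ∀ o ∈ L₂.head?, w = v o := by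
  have h3 := (List.isChain_append.1 h).2.2
  cases h1 : L₁.getLast? with
  | none =>
    cases h2 : L₂.head? with
    | none => exact ⟨0, by simp, by simp⟩
    | some o => exact ⟨v o, by simp, by simp⟩
  | some o' => exact ⟨u o', by simp, fun o ho => h3 o' (by simp [h1]) o ho⟩

lemma splice {β : Type} {L₁ L₂ M : List β} {u v u' v' : β → ZMod 2} {w : ZMod 2} {a b : β}
    (h : (L₁ ++ L₂).IsChain fun o' o => u o' = v o)
    (h1 : ∀ o' ∈ L₁.getLast?, u o' = w) (h2 : ∀ o ∈ L₂.head?, w = v o)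
    (he : ∀ o ∈ L₁ ++ L₂, u' o = u o ∧ v' o = v o)
    (hM : M.IsChain fun o' o => u' o' = v' o) (ha : M.head? = some a) (hb : M.getLast? = some b)
    (hwa : v' a = w) (hwb : u' b = w) :
    (L₁ ++ (M ++ L₂)).IsChain fun o' o => u' o' = v' o := by
  obtain ⟨c1, c2, -⟩ := List.isChain_append.1 h
  refine List.isChain_append.2 ⟨c1.imp_of_mem_imp fun x y hx hy e => ?_,
    List.isChain_append.2 ⟨hM, c2.imp_of_mem_imp fun x y hx hy e => ?_, fun x hx y hy => ?_⟩,
    fun x hx y hy => ?_⟩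
  · rw [(he x (by simp [hx])).1, (he y (by simp [hy])).2, e]
  · rw [(he x (by simp [hx])).1, (he y (by simp [hy])).2, e]
  · rw [hb] at hx; cases hx
    rw [hwb, (he y (by simp [List.mem_of_mem_head? hy])).2, h2 y hy]
  · rw [List.head?_append, ha] at hy; cases hy
    rw [hwa, (he x (by simp [List.mem_of_mem_getLast? hx])).1, h1 x hx]

lemma split_wd {L : List (Ou P)} {l₁ l₂ : List (X × Bool)} (h : wd L = l₁ ++ l₂) :
    ∃ L₁ L₂, L = L₁ ++ L₂ ∧ wd L₁ = l₁ ∧ wd L₂ = l₂ := List.map_eq_append_iff.1 h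

lemma full_ins {l₁ l₂ : List (X × Bool)} (x : X) (e : Bool) {m : P.G × R →₀ ℤ} {A : Finset (Tr P)}
    (h : Full (l₁ ++ l₂) m A) : Full (l₁ ++ (x, e) :: (x, !e) :: l₂) m A := by
  classical
  obtain ⟨L, α, D, hnd, hw, hp, hc⟩ := h
  obtain ⟨L₁, L₂, rfl, rfl, rfl⟩ := split_wd hw
  obtain ⟨N, hN⟩ := fresh (L₁ ++ L₂)
  set g := P.ev (wd L₁) with hg
  let p : Ou P := (N, g, x, e)
  let q : Ou P := (N + 1, g * P.lt (x, e), x, !e)
  have hp' : p ∉ L₁ ++ L₂ := fun h => by have := hN p h; simp [p] at this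
  have hq' : q ∉ L₁ ++ L₂ := fun h => by have := hN q h; simp [q] at this
  have hpq : q ≠ p := by simp [p, q]
  let β : Sd P → Sd P := fun s => if s = inr p then inr q else if s = inr q then inr p else α s
  have b1 : β (inr p) = inr q := by simp [β]
  have b2 : β (inr q) = inr p := by simp [β, hpq]
  have np : ∀ s, al A (L₁ ++ L₂) s → s ≠ inr p := by rintro s hs rfl; exact hp' hs
  have nq : ∀ s, al A (L₁ ++ L₂) s → s ≠ inr q := by rintro s hs rfl; exact hq' hs
  have b3 : ∀ s, al A (L₁ ++ L₂) s → β s = α s := fun s hs => by simp [β, np s hs, nq s hs]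
  have up : ∀ s, al A (L₁ ++ L₂) s → al A (L₁ ++ ([p, q] ++ L₂)) s := by
    rintro (⟨t, i⟩ | o) hs
    · exact hs
    · simp only [al, List.mem_append] at hs ⊢; tauto
  have cs : ∀ Q : Sd P → Prop, Q (inr p) → Q (inr q) → (∀ s, al A (L₁ ++ L₂) s → Q s) →
      ∀ s, al A (L₁ ++ ([p, q] ++ L₂)) s → Q s := by
    rintro Q q1 q2 q3 (⟨t, i⟩ | o) hs
    · exact q3 _ hs
    · simp only [al, List.mem_append, List.mem_cons, List.not_mem_nil, or_false] at hs
      rcases hs with hs | (rfl | rfl) | hs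
      exacts [q3 _ (List.mem_append_left _ hs), q1, q2, q3 _ (List.mem_append_right _ hs)]
  refine ⟨L₁ ++ ([p, q] ++ L₂), β, ⟨cs _ (by rw [b1]; simp [al]) (by rw [b2]; simp [al])
    fun s hs => by rw [b3 s hs]; exact up _ (D.hal s hs), cs _ (by rw [b1, b2]) (by rw [b2, b1])
    fun s hs => by rw [b3 s hs, b3 _ (D.hal s hs), D.inv s hs], cs _ (by rw [b1]; rfl)
    (by rw [b2]; exact (revE_revE _).symm) fun s hs => by rw [b3 s hs]; exact D.glue s hs,
    fun z hz hF => ?_⟩, ?_, by simp [wd, p, q], ?_, hc⟩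
  · obtain ⟨u, hu, hu'⟩ := D.pl z (fun s hs => by rw [← b3 s hs]; exact hz s (up s hs)) hF
    obtain ⟨w, w1, w2⟩ := junction hu.2
    have zz := hz (inr p) (by simp [al])
    rw [b1] at zz
    let u' : Sd P → ZMod 2 := fun s => if s = inr p then w + z (inr q) else if s = inr q then w else u s
    have u1 : u' (inr p) = w + z (inr q) := by simp [u']
    have u2 : u' (inr q) = w := by simp [u', hpq]
    have u3 : ∀ s, al A (L₁ ++ L₂) s → u' s = u s := fun s hs => by simp [u', np s hs, nq s hs]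
    refine ⟨u', ⟨fun t ht i => ?_, splice (a := p) (b := q) hu.2 w1 w2
      (fun o ho => by rw [u3 (inr o) ho]; exact ⟨rfl, rfl⟩) (by simp [u1, u2]) rfl rfl
      (by rw [u1, ← zz, add_assoc, z2, add_zero]) u2⟩,
      cs _ (by rw [b1, u1, u2, ← zz, add_assoc, z2, add_zero]) (by rw [b2, u1, u2])
      fun s hs => by rw [b3 s hs, u3 s hs, u3 _ (D.hal s hs), hu' s hs]⟩
    rw [u3 (inl (t, i)) ht, u3 (inl (t, i + 1)) ht, hu.1 t ht i]
  · have : (L₁ ++ ([p, q] ++ L₂)).Perm (p :: q :: (L₁ ++ L₂)) :=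
      List.perm_middle.trans (List.perm_middle.cons p)
    rw [this.nodup_iff]
    refine List.nodup_cons.2 ⟨?_, List.nodup_cons.2 ⟨hq', hnd⟩⟩
    rw [List.mem_cons, not_or]; exact ⟨hpq.symm, hp'⟩
  · rw [pth_append] at hp ⊢
    refine ⟨hp.1, ?_⟩
    simpa [Pth, p, q, ← hg, mul_assoc, lt_not] using hp.2

lemma full_del {l₁ l₂ : List (X × Bool)} (x : X) (e : Bool) {m : P.G × R →₀ ℤ} {A : Finset (Tr P)}
    (h : Full (l₁ ++ (x, e) :: (x, !e) :: l₂) m A) : Full (l₁ ++ l₂) m A := by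
  classical
  obtain ⟨L, α, D, hnd, hw, hp, hc⟩ := h
  obtain ⟨L₁, L', rfl, rfl, hw'⟩ := split_wd hw
  obtain ⟨p, L'', rfl, hpe, hw''⟩ := List.map_eq_cons_iff.1 hw'
  obtain ⟨q, L₂, rfl, hqe, rfl⟩ := List.map_eq_cons_iff.1 hw''
  rw [pth_append] at hp
  obtain ⟨hp1, hp2, hp3, hp4⟩ := hp
  have pm : (L₁ ++ p :: q :: L₂).Perm (p :: q :: (L₁ ++ L₂)) :=
      List.perm_middle.trans (List.perm_middle.cons p)
  have hnd' := pm.nodup_iff.1 hnd
  simp only [List.nodup_cons, List.mem_cons, not_or] at hnd'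
  obtain ⟨⟨hpq, hp'⟩, hq', hnd'⟩ := hnd'
  have ap : al A (L₁ ++ p :: q :: L₂) (inr p) := by simp [al]
  have aq : al A (L₁ ++ p :: q :: L₂) (inr q) := by simp [al]
  have fx : ∀ s, al A (L₁ ++ p :: q :: L₂) s → α s ≠ s := fun s hs e =>
    revE_ne _ ((D.glue s hs).symm.trans (by rw [e]))
  have hch : (L₁ ++ p :: q :: L₂).IsChain fun o' o =>
      (if (inr o' : Sd P) = inr p then (1 : ZMod 2) else 0) = (if (inr o : Sd P) = inr p then 1 else 0) +
        if (inr o : Sd P) = inr p ∨ (inr o : Sd P) = inr q then 1 else 0 := by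
    have n1 : ∀ o ∈ L₁ ++ L₂, o ≠ p ∧ o ≠ q := fun o ho =>
      ⟨by rintro rfl; exact hp' ho, by rintro rfl; exact hq' ho⟩
    have tr : ∀ M : List (Ou P), (∀ o ∈ M, o ∈ L₁ ++ L₂) → M.IsChain fun o' o =>
        (if (inr o' : Sd P) = inr p then (1 : ZMod 2) else 0) = (if (inr o : Sd P) = inr p then 1 else 0) +
          if (inr o : Sd P) = inr p ∨ (inr o : Sd P) = inr q then 1 else 0 := fun M hM =>
      List.isChain_iff_forall_rel_of_append_cons_cons.2 fun x y l₁ l₂ e => by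
        simp [n1 x (hM x (by simp [e])), n1 y (hM y (by simp [e]))]
    refine List.isChain_append.2 ⟨tr _ fun o ho => List.mem_append_left _ ho, ?_, fun x hx y hy => ?_⟩
    · rw [List.isChain_cons_cons, List.isChain_cons]
      refine ⟨by simp [Ne.symm hpq], fun y hy => ?_, tr _ fun o ho => List.mem_append_right _ ho⟩
      simp [Ne.symm hpq, n1 y (List.mem_append_right _ (List.mem_of_mem_head? hy))]
    · cases hy
      simp [n1 x (List.mem_append_left _ (List.mem_of_mem_getLast? hx)), z2]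
  obtain ⟨β, E, b1, -⟩ := repair D ap aq (by
      obtain ⟨n, g, y⟩ := p
      obtain ⟨n', g', y'⟩ := q
      simp only at hpe hqe hp2 hp3
      subst hpe hqe hp3
      simp only [ed, hp2]; rfl)
    (fun z u hu _ => (List.isChain_iff_forall_rel_of_append_cons_cons.1 hu.2 rfl).symm)
    (fun s => if s = inr p ∨ s = inr q then 1 else 0) (fun s => if s = inr p then 1 else 0)
    ⟨by simp, hch⟩ (by simp) (by simp) (by simp) (by simp [Ne.symm hpq])
    (fun h => by
      have h' : α (inr q) ≠ inr p := fun e => h (by rw [← e, D.inv _ aq])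
      simp [h, h', fx _ ap, fx _ aq])
    (fun s hs a1 a2 a3 a4 => by
      have c1 : α s ≠ inr p := fun e => a3 (by rw [← e, D.inv s hs])
      have c2 : α s ≠ inr q := fun e => a4 (by rw [← e, D.inv s hs])
      simp [a1, a2, c1, c2])
  · have b2 : β (inr q) = inr p := by rw [← b1, E.inv _ ap]
    have up : ∀ s, al A (L₁ ++ L₂) s ↔
        al A (L₁ ++ p :: q :: L₂) s ∧ s ≠ inr p ∧ s ≠ inr q := by
      rintro (⟨t, i⟩ | o)
      · simp [al]
      · simp only [al, pm.mem_iff, List.mem_cons, ne_eq, inr.injEq]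
        constructor
        · intro h; exact ⟨by simp [h], by rintro rfl; exact hp' h, by rintro rfl; exact hq' h⟩
        · tauto
    have hal : ∀ s, al A (L₁ ++ L₂) s → al A (L₁ ++ L₂) (β s) := fun s hs => by
      obtain ⟨c1, c2, c3⟩ := (up s).1 hs
      exact (up _).2 ⟨E.hal s c1, fun e => c3 (by rw [← E.inv s c1, e, b1]),
        fun e => c2 (by rw [← E.inv s c1, e, b2])⟩
    refine ⟨L₁ ++ L₂, β, ⟨hal, fun s hs => E.inv s ((up s).1 hs).1,
      fun s hs => E.glue s ((up s).1 hs).1, fun z hz hF => ?_⟩, hnd', by simp [wd], ?_, hc⟩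
    · let z' : Sd P → ZMod 2 := fun s => if s = inr p ∨ s = inr q then 0 else z s
      have z1 : ∀ s, al A (L₁ ++ L₂) s → z' s = z s := fun s hs => by
        simp [z', ((up s).1 hs).2.1, ((up s).1 hs).2.2]
      obtain ⟨u, hu, hu'⟩ := E.pl z' (fun s hs => by
        by_cases c1 : s = inr p; · rw [c1, b1]; simp [z']
        by_cases c2 : s = inr q; · rw [c2, b2]; simp [z']
        have := (up s).2 ⟨hs, c1, c2⟩
        rw [z1 s this, z1 _ (hal s this), hz s this]) (fun t ht => by simpa [z'] using hF t ht)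
      refine ⟨u, ⟨fun t ht i => by simpa [z'] using hu.1 t ht i, ?_⟩,
        fun s hs => by rw [hu' s ((up s).1 hs).1, z1 s hs]⟩
      obtain ⟨c1, c2, c3⟩ := List.isChain_append.1 hu.2
      rw [List.isChain_cons_cons, List.isChain_cons] at c2
      refine List.isChain_append.2 ⟨c1.imp_of_mem_imp fun x y _ hy e => ?_,
        c2.2.2.imp_of_mem_imp fun x y _ hy e => ?_, fun x hx y hy => ?_⟩
      · rw [e, z1 (inr y) (List.mem_append_left _ hy)]
      · rw [e, z1 (inr y) (List.mem_append_right _ hy)]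
      · rw [c3 x hx p rfl, c2.1, c2.2.1 y hy,
          z1 (inr y) (List.mem_append_right _ (List.mem_of_mem_head? hy))]
        simp [z']
    · rw [pth_append]
      refine ⟨hp1, ?_⟩
      rwa [hpe, hqe, mul_assoc, lt_not, mul_one] at hp4

end Crest.Agent.KP.VK
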