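import Crest.Agent.KP.VKb

set_option autoImplicit false

namespace Crest.Agent.KP.VK

open Finset Sum

variable {X R : Type} {P : TriPres X R}

lemma tri_zero (g : P.G) (r : R) (b : Bool) : (P.triEdge g r b 0).1 = g := by cases b <;> rfl

lemma tri_succ (g : P.G) (r : R) (b : Bool) (i : Fin 3) :
    (P.triEdge g r b i).1 * P.lt (P.triEdge g r b i).2 = (P.triEdge g r b (i + 1)).1 := by
  have := gen_rel (P := P) r
  cases b <;> fin_cases i <;> simp [TriPres.triEdge, TriPres.lt, ← this, mul_assoc]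

lemma full_tri {l₁ l₂ : List (X × Bool)} (r : R) (b : Bool) {m : P.G × R →₀ ℤ} {A : Finset (Tr P)}
    (h : Full (l₁ ++ l₂) m A) : ∃ A', Full (l₁ ++ (P.triEdge (P.ev l₁) r b 0).2 ::
      (P.triEdge (P.ev l₁) r b 1).2 :: (P.triEdge (P.ev l₁) r b 2).2 :: l₂)
      (m + Finsupp.single (P.ev l₁, r) (cond b 1 (-1))) A' := by
  classical
  obtain ⟨L, α, D, hnd, hw, hp, hc⟩ := h
  obtain ⟨L₁, L₂, rfl, rfl, rfl⟩ := split_wd hw
  obtain ⟨N, hN⟩ := fresh (L₁ ++ L₂)
  obtain ⟨N', hN'⟩ := fresh A.toList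
  set g := P.ev (wd L₁) with hg
  let t : Tr P := (N', g, r, b)
  have ht : t ∉ A := fun h => by have := hN' t (mem_toList.2 h); simp [t] at this
  let o : Fin 3 → Ou P := fun i => (N + i, P.triEdge g r b i)
  have ho : ∀ i, o i ∉ L₁ ++ L₂ := fun i h => by have := hN _ h; simp [o] at this
  have hoi : Function.Injective o := fun i j h => by
    have := congrArg Prod.fst h; simp only [o] at this; omega
  let β : Sd P → Sd P := fun s => match s with
    | inl (t', i) => if t' = t then inr (o i) else α s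
    | inr o' => if h : ∃ i, o i = o' then inl (t, h.choose) else α s
  have b1 : ∀ i, β (inl (t, i)) = inr (o i) := fun i => by simp [β]
  have b2 : ∀ i, β (inr (o i)) = inl (t, i) := fun i => by
    have : ∃ j, o j = o i := ⟨i, rfl⟩
    simp only [β, dif_pos this, hoi this.choose_spec]
  have b3 : ∀ s, al A (L₁ ++ L₂) s → β s = α s := by
    rintro (⟨t', i⟩ | o') hs
    · have : t' ≠ t := by rintro rfl; exact ht hs
      simp [β, this]
    · have : ¬ ∃ i, o i = o' := by rintro ⟨i, rfl⟩; exact ho i hs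
      simp only [β, dif_neg this]
  have up : ∀ s, al A (L₁ ++ L₂) s → al (insert t A) (L₁ ++ ([o 0, o 1, o 2] ++ L₂)) s := by
    rintro (⟨t, i⟩ | o) hs
    · exact mem_insert_of_mem hs
    · simp only [al, List.mem_append] at hs ⊢; tauto
  have ao : ∀ i, al (insert t A) (L₁ ++ ([o 0, o 1, o 2] ++ L₂)) (inr (o i)) := fun i => by
    fin_cases i <;> simp [al]
  have cs : ∀ Q : Sd P → Prop, (∀ i, Q (inl (t, i))) → (∀ i, Q (inr (o i))) →
      (∀ s, al A (L₁ ++ L₂) s → Q s) →
      ∀ s, al (insert t A) (L₁ ++ ([o 0, o 1, o 2] ++ L₂)) s → Q s := by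
    rintro Q q1 q2 q3 (⟨t', i⟩ | o') hs
    · rcases mem_insert.1 hs with rfl | hs
      exacts [q1 i, q3 _ hs]
    · simp only [al, List.mem_append, List.mem_cons, List.not_mem_nil, or_false] at hs
      rcases hs with hs | (rfl | rfl | rfl) | hs
      exacts [q3 _ (List.mem_append_left _ hs), q2 0, q2 1, q2 2, q3 _ (List.mem_append_right _ hs)]
  refine ⟨insert t A, L₁ ++ ([o 0, o 1, o 2] ++ L₂), β, ⟨cs _ (fun i => by rw [b1]; exact ao i)
    (fun i => by rw [b2]; exact mem_insert_self _ _)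
    fun s hs => by rw [b3 s hs]; exact up _ (D.hal s hs), cs _ (fun i => by rw [b1, b2])
    (fun i => by rw [b2, b1])
    fun s hs => by rw [b3 s hs, b3 _ (D.hal s hs), D.inv s hs], cs _ (fun i => by rw [b1]; rfl)
    (fun i => by rw [b2]; exact (revE_revE _).symm) fun s hs => by rw [b3 s hs]; exact D.glue s hs,
    fun z hz hF => ?_⟩, ?_, by simp [wd, o], ?_, by rw [ch, sum_insert ht, add_comm, ← hc]; rfl⟩
  · obtain ⟨u, hu, hu'⟩ := D.pl z (fun s hs => by rw [← b3 s hs]; exact hz s (up s hs))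
      fun t ht => hF t (mem_insert_of_mem ht)
    obtain ⟨w, w1, w2⟩ := junction hu.2
    have zz : ∀ i, z (inr (o i)) = z (inl (t, i)) := fun i => by
      rw [← b1]; exact hz (inl (t, i)) (mem_insert_self _ _)
    have zF := hF t (mem_insert_self _ _)
    let a : Fin 3 → ZMod 2 := ![w, w + z (inl (t, 0)), w + z (inl (t, 0)) + z (inl (t, 1))]
    have ha : ∀ i, a (i + 1) = a i + z (inl (t, i)) := fun i => by
      fin_cases i
      · rfl
      · rfl
      · change w = w + _ + _ + z (inl (t, 2)); linear_combination -zF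
    let u' : Sd P → ZMod 2 := fun s => match s with
      | inl (t', i) => if t' = t then a i else u s
      | inr o' => if h : ∃ i, o i = o' then a (h.choose + 1) else u s
    have u1 : ∀ i, u' (inl (t, i)) = a i := fun i => by simp [u']
    have u2 : ∀ i, u' (inr (o i)) = a (i + 1) := fun i => by
      have : ∃ j, o j = o i := ⟨i, rfl⟩
      simp only [u', dif_pos this, hoi this.choose_spec]
    have u3 : ∀ s, al A (L₁ ++ L₂) s → u' s = u s := by
      rintro (⟨t', i⟩ | o') hs
      · have : t' ≠ t := by rintro rfl; exact ht hs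
        simp [u', this]
      · have : ¬ ∃ i, o i = o' := by rintro ⟨i, rfl⟩; exact ho i hs
        simp only [u', dif_neg this]
    have hb : ∀ i, a (i + 1) + z (inr (o i)) = a i := fun i => by
      rw [ha, zz, add_assoc, z2, add_zero]
    refine ⟨u', ⟨fun t' ht' i => ?_, splice (a := o 0) (b := o 2) hu.2 w1 w2
      (fun o ho => by rw [u3 (inr o) ho]; exact ⟨rfl, rfl⟩) ?_ rfl rfl
      (by rw [u2, hb]; rfl) (u2 2)⟩,
      cs _ (fun i => by rw [b1, u1, u2, ha]) (fun i => by rw [b2, u1, u2, hb])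
      fun s hs => by rw [b3 s hs, u3 s hs, u3 _ (D.hal s hs), hu' s hs]⟩
    · rcases mem_insert.1 ht' with rfl | ht'
      · rw [u1, u1, ha]
      · rw [u3 (inl (t', i)) ht', u3 (inl (t', i + 1)) ht', hu.1 t' ht' i]
    · simp only [List.isChain_cons_cons, List.isChain_singleton, and_true, u2, hb]
      exact ⟨rfl, rfl⟩
  · have : (L₁ ++ ([o 0, o 1, o 2] ++ L₂)).Perm (o 0 :: o 1 :: o 2 :: (L₁ ++ L₂)) :=
      List.perm_middle.trans ((List.perm_middle.trans (List.perm_middle.cons _)).cons _)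
    rw [this.nodup_iff]
    simp only [List.nodup_cons, List.mem_cons, not_or, hoi.eq_iff, ho, hnd]
    decide
  · rw [pth_append] at hp ⊢
    refine ⟨hp.1, ?_⟩
    have h0 := tri_zero g r b
    have h1 := tri_succ g r b 0
    have h2 := tri_succ g r b 1
    have h3 := tri_succ g r b 2
    simp only [zero_add, Fin.reduceAdd, h0] at h1 h2 h3
    simp only [List.cons_append, List.nil_append, Pth, o, ← hg, one_mul, h0, h1, h2, h3, true_and]
    simpa using hp.2

lemma exists_full {l : List (X × Bool)} {m : P.G × R →₀ ℤ} (h : P.Der l m) : ∃ A, Full l m A := by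
  induction h with
  | nil =>
    have e : ∀ s, ¬ al (∅ : Finset (Tr P)) [] s := by rintro (⟨t, i⟩ | o) <;> simp [al]
    exact ⟨∅, [], id, ⟨fun s h => h, fun _ _ => rfl, fun s h => (e s h).elim,
      fun z _ _ => ⟨0, ⟨by simp, by simp⟩, fun s h => (e s h).elim⟩⟩, by simp, rfl, trivial,
      by simp [ch]⟩
  | ins l₁ l₂ x e m _ ih => exact ih.imp fun A h => full_ins x e h
  | del l₁ l₂ x e m _ ih => exact ih.imp fun A h => full_del x e h
  | pos l₁ l₂ r m _ ih => obtain ⟨A, h⟩ := ih; exact full_tri r true h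
  | neg l₁ l₂ r m _ ih =>
    obtain ⟨A, h⟩ := ih
    rw [sub_eq_add_neg, ← Finsupp.single_neg]; exact full_tri r false h

lemma repair_tri {A : Finset (Tr P)} {L : List (Ou P)} {α : Sd P → Sd P} (D : Dg A L α)
    {t t' : Tr P} (ht : t ∈ A) (ht' : t' ∈ A) (hne : t' ≠ t)
    (he : ∀ i, ed P (inl (t', i.rev)) = P.revE (ed P (inl (t, i)))) (i : Fin 3)
    (h : α (inl (t, i)) = inl (t', i.rev)) :
    ∃ β, Dg A L β ∧ β (inl (t, i + 1)) = inl (t', (i + 1).rev) ∧
      ∀ j, j ≠ i + 1 → α (inl (t, j)) = inl (t', j.rev) → β (inl (t, j)) = inl (t', j.rev) := by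
  classical
  have at1 : ∀ j, al A L (inl (t, j)) := fun _ => ht
  have at2 : ∀ j, al A L (inl (t', j)) := fun _ => ht'
  have h' : α (inl (t', i.rev)) = inl (t, i) := by rw [← h, D.inv _ (at1 i)]
  have fx : ∀ s, al A L s → α s ≠ s := fun s hs e =>
    revE_ne _ ((D.glue s hs).symm.trans (by rw [e]))
  have i1 : i + 1 ≠ i := by clear * -; revert i; decide
  have i2 : (i + 1).rev ≠ i.rev := fun e => i1 (Fin.rev_injective e)
  have i3 : (i + 1).rev + 1 = i.rev := by clear * -; revert i; decide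
  have a1 : α (inl (t, i + 1)) ≠ inl (t, i) := fun e => by
    have := D.inv _ (at1 (i + 1)); rw [e, h] at this; simp [hne] at this
  have a2 : α (inl (t, i + 1)) ≠ inl (t', i.rev) := fun e => by
    have := D.inv _ (at1 (i + 1)); rw [e, h'] at this; simp [i1.symm] at this
  have a3 : α (inl (t', (i + 1).rev)) ≠ inl (t, i) := fun e => by
    have := D.inv _ (at2 (i + 1).rev); rw [e, h] at this; simp [i1.symm] at this
  have a4 : α (inl (t', (i + 1).rev)) ≠ inl (t', i.rev) := fun e => by
    have := D.inv _ (at2 (i + 1).rev); rw [e, h'] at this; simp [hne.symm] at this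
  obtain ⟨β, E, b1, b2⟩ := repair D (at1 (i + 1)) (at2 (i + 1).rev) (he _)
    (fun z u hu hu' => by rw [← hu.1 t' ht', i3, ← h, hu' _ (at1 i), hu.1 t ht])
    (fun s => if s = inl (t, i + 1) ∨ s = inl (t', (i + 1).rev) ∨ s = inl (t, i) ∨ s = inl (t', i.rev)
      then 1 else 0)
    (fun s => if s = inl (t, i + 1) ∨ s = inl (t', i.rev) then 1 else 0)
    ⟨fun t'' _ j => by
      by_cases c1 : t'' = t
      · subst c1
        simp only [inl.injEq, Prod.mk.injEq, true_and, hne.symm, false_and, or_false, false_or]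
        clear * -; revert i j; decide
      by_cases c2 : t'' = t'
      · subst c2
        simp only [inl.injEq, Prod.mk.injEq, true_and, hne, false_and, or_false, false_or]
        clear * -; revert i j; decide
      simp [c1, c2],
      List.isChain_iff_forall_rel_of_append_cons_cons.2 fun x y l₁ l₂ e => by simp⟩
    (by simp) (by simp) (by simp) (by simp [hne, i1])
    (fun c => by
      have c' : α (inl (t', (i + 1).rev)) ≠ inl (t, i + 1) := fun e => c (by rw [← e, D.inv _ (at2 _)])
      simp [c, c', a1, a2, a3, a4, fx _ (at1 _), fx _ (at2 _)])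
    (fun s hs c1 c2 c3 c4 => by
      by_cases d1 : s = inl (t, i)
      · rw [d1, h]; simp [hne.symm, i1.symm]
      by_cases d2 : s = inl (t', i.rev)
      · rw [d2, h']; simp [hne.symm, i1.symm, z2]
      have e1 : α s ≠ inl (t, i + 1) := fun e => c3 (by rw [← e, D.inv s hs])
      have e2 : α s ≠ inl (t', (i + 1).rev) := fun e => c4 (by rw [← e, D.inv s hs])
      have e3 : α s ≠ inl (t, i) := fun e => d2 (by rw [← D.inv s hs, e, h])
      have e4 : α s ≠ inl (t', i.rev) := fun e => d1 (by rw [← D.inv s hs, e, h'])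
      simp [c1, c2, d1, d2, e1, e2, e3, e4])
  refine ⟨β, E, b1, fun j hj e => ?_⟩
  rw [b2 _ (at1 j) (by simp [hj]) (by simp [hne.symm]) (fun c => ?_) (fun c => ?_), e]
  · have := D.inv _ (at1 (i + 1)); rw [← c, e] at this; simp [hne] at this
  · have := D.inv _ (at2 (i + 1).rev); rw [← c, e] at this; simp [hj] at this

end Crest.Agent.KP.VK
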